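import Vale.Agent.P159.H253.Rec2
import Vale.Agent.P159.H27.Cr2

/-!
P159 (helper253), record scales, part 3: the price bound in the letters of the chain (27's `BelR`,
`Slo`): if it holds at the first base distance, it holds at all distances below the current level.
-/

open MeasureTheory Filter Topology Finset
open scoped BigOperators

set_option linter.all false

namespace Vale.Agent.P159.H253.Rec

open Vale.Agent.P159 Vale.Agent.P159.TM.H331 Vale.Agent.P159.H773 Vale.Agent.P159.H27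

variable {b α β C0 : ℝ}

/-- **the price bound along the chain** (everything of level `i` may use it) -/
theorem rec_chain (hb : 0 < b) (hβ1 : β ≤ 1) (hC0 : 1 ≤ C0) {Ce Fm : ℝ}
    (hCe : 0 ≤ Ce) (hFm : 0 ≤ Fm) (hβ0 : 0 ≤ β) :
    ∃ A0 C1 : ℝ, 8 ≤ A0 ∧ 1 ≤ C1 ∧ ∀ (N : ℕ → ℕ) (e a F : ℕ → ℝ) (k w : ℕ → ℕ) (n0 : ℕ) (κ0 : ℝ)
      (i : ℕ), Slo e a F k w n0 κ0 Ce β Fm →
      BelR (fun R => Real.log (cT0 (N R - 2) b R)) e a k w n0 F i →
      4 ≤ Rb k w n0 0 → (∀ R, Rb k w n0 0 ≤ R → R ≤ Rb k w n0 i → A0 * R ≤ N R) →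
      RecAt b β C0 (Rb k w n0 0) →
      ∀ R, Rb k w n0 0 ≤ R → R ≤ Rb k w n0 i → RecAt b β C1 R ∧
        |ga b R - cT0 (N R - 2) b R| ≤ cT0 (N R - 2) b R / 2 ∧
        ∀ s : ℕ, 1 ≤ s → s ≤ R → ua b s ≤ C1 * ((R : ℝ) / s) ^ β * cT0 (N R - 2) b R := by
  have hD : 0 ≤ Real.pi * Ce + 3 * Fm := by
    have := Real.pi_pos
    positivity
  obtain ⟨A0, C1, hA0, hC1, h⟩ := rec_prop (b := b) (α := β) (β := β) (C0 := C0)
    (D := Real.pi * Ce + 3 * Fm) hb hβ0 hβ1 hβ0 le_rfl hC0 hD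
  refine ⟨A0, C1, hA0, hC1, fun N e a F k w n0 κ0 i hS hB h4 hN hst R h1 h2 => ?_⟩
  refine h N _ _ h4 hN hst (fun r R' p1 p2 p3 => ?_) R h1 h2
  have h5 := hS.slope hB p1 p2 p3 hFm

  linarith

end Vale.Agent.P159.H253.Rec
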