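import Vale.Agent.P159.H253.Rec2

/-!
P159 (helper253), smeared Ginibre, part 2: the scalar average over pairs of translations.
-/

open MeasureTheory Filter Topology Finset
open scoped BigOperators

set_option linter.all false

namespace Vale.Agent.P159.H253.Sm

open Vale.Agent.P159 Vale.Agent.P159.TM.H331 Vale.Agent.P159.H773 Vale.Agent.P159.H253.Rec

/-- `∑_{k ≤ n} k^(-s) ≤ n^(1-s) / (1-s)` -/
lemma sum_pow_le {s : ℝ} (h0 : 0 ≤ s) (h1 : s < 1) (n : ℕ) :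
    ∑ k ∈ range n, ((k : ℝ) + 1) ^ (-s) ≤ (n : ℝ) ^ (1 - s) / (1 - s) := by
  have hs : 0 < 1 - s := by linarith
  induction n with
  | zero =>
    rw [Finset.sum_range_zero, Nat.cast_zero, Real.zero_rpow hs.ne', zero_div]
  | succ n ih =>
    rw [Finset.sum_range_succ]
    have hn : (0 : ℝ) < (n : ℝ) + 1 := by positivity
    have h2 : (n : ℝ) = ((n : ℝ) + 1) * (1 + -(1 / ((n : ℝ) + 1))) := by
      field_simp
      ring
    have h3 : (n : ℝ) ^ (1 - s) ≤ ((n : ℝ) + 1) ^ (1 - s) * (1 + (1 - s) * -(1 / ((n : ℝ) + 1))) := by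
      have h4 : (0 : ℝ) ≤ 1 + -(1 / ((n : ℝ) + 1)) := by
        have : 1 / ((n : ℝ) + 1) ≤ 1 := by
          rw [div_le_one hn]
          linarith [Nat.cast_nonneg (α := ℝ) n]
        linarith
      have h5 := rpow_one_add_le_one_add_mul_self (s := -(1 / ((n : ℝ) + 1))) (by linarith)
        hs.le (by linarith)
      calc (n : ℝ) ^ (1 - s) = (((n : ℝ) + 1) * (1 + -(1 / ((n : ℝ) + 1)))) ^ (1 - s) := by
            rw [← h2]
        _ = ((n : ℝ) + 1) ^ (1 - s) * (1 + -(1 / ((n : ℝ) + 1))) ^ (1 - s) :=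
            Real.mul_rpow hn.le h4
        _ ≤ _ := mul_le_mul_of_nonneg_left h5 (by positivity)
    have h4 : ((n : ℝ) + 1) ^ (-s) = ((n : ℝ) + 1) ^ (1 - s) / ((n : ℝ) + 1) := by
      rw [← Real.rpow_sub_one hn.ne']
      congr 1
      ring
    have h5 : ((n : ℝ) + 1) ^ (1 - s) * (1 + (1 - s) * -(1 / ((n : ℝ) + 1))) =
        ((n : ℝ) + 1) ^ (1 - s) - (1 - s) * ((n : ℝ) + 1) ^ (-s) := by
      rw [h4]
      field_simp
      ring
    rw [h5] at h3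
    have h6 : (n : ℝ) ^ (1 - s) / (1 - s) + ((n : ℝ) + 1) ^ (-s) ≤
        ((n : ℝ) + 1) ^ (1 - s) / (1 - s) := by
      rw [div_add' _ _ _ hs.ne']
      refine div_le_div_of_nonneg_right ?_ hs.le
      linarith
    push_cast
    linarith

/-- sum over a box -/
lemma sum_box_pow {a : ℝ} (ha1 : 1 ≤ a) (ha : a < 2) (n : ℕ) :
    ∑ z ∈ box n, ((XY.nm z : ℝ) + 1) ^ (-a) ≤ 8 / (2 - a) * ((n : ℝ) + 1) ^ (2 - a) := by
  have h := XY.sum_box_radial (fun k => ((k : ℝ) + 1) ^ (-a)) n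
  rw [h]
  have h1 := sum_pow_le (s := a - 1) (by linarith) (by linarith) (n + 1)
  rw [Finset.sum_range_succ'] at h1
  have e1 : (1 : ℝ) - (a - 1) = 2 - a := by ring
  rw [e1] at h1
  push_cast at h1 ⊢
  have h2 : ∀ r ∈ range n, 8 * ((r : ℝ) + 1) * ((r : ℝ) + 1 + 1) ^ (-a) ≤
      8 * ((r : ℝ) + 1 + 1) ^ (-(a - 1)) := by
    intro r _
    have hr : (0 : ℝ) < (r : ℝ) + 1 + 1 := by positivity
    have e2 : ((r : ℝ) + 1 + 1) ^ (-(a - 1)) = ((r : ℝ) + 1 + 1) * ((r : ℝ) + 1 + 1) ^ (-a) := by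
      rw [show -(a - 1) = 1 + -a by ring, Real.rpow_add hr, Real.rpow_one]
    rw [e2, mul_assoc]
    refine mul_le_mul_of_nonneg_left ?_ (by norm_num)
    exact mul_le_mul_of_nonneg_right (by linarith) (by positivity)
  have h3 := Finset.sum_le_sum h2
  rw [← Finset.mul_sum] at h3
  have h4 : (0 + 1 : ℝ) ^ (-(a - 1)) = 1 := by simp
  have h5 : (0 + 1 : ℝ) ^ (-a) = 1 := by simp
  rw [h4] at h1
  rw [h5]
  have e3 : 8 / (2 - a) * ((n : ℝ) + 1) ^ (2 - a) = 8 * (((n : ℝ) + 1) ^ (2 - a) / (2 - a)) := by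
    ring
  rw [e3]
  linarith

lemma card_box (ρ : ℕ) : ((box ρ).card : ℝ) = (2 * (ρ : ℝ) + 1) ^ 2 := by
  have h := XY.sum_box_radial (fun _ => (1 : ℝ)) ρ
  simp only [Finset.sum_const, nsmul_eq_mul, mul_one] at h
  rw [h]
  have h2 : ∀ n : ℕ, ∑ r ∈ range n, 8 * ((r : ℝ) + 1) = 4 * n * (n + 1) := by
    intro n
    induction n with
    | zero => simp
    | succ n ih =>
      rw [Finset.sum_range_succ, ih]
      push_cast
      ring
  rw [h2]
  ring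

/-- **average over pairs of translations** -/
theorem avg_scal {a : ℝ} (ha1 : 1 ≤ a) (ha : a < 2) {ρ : ℕ} (hρ : 1 ≤ ρ)
    {F : ℤ × ℤ → ℤ × ℤ → ℝ} {K : ℝ} (hK : 0 ≤ K)
    (hF : ∀ u ∈ box ρ, ∀ v ∈ box ρ, F u v ≤ K * ((XY.nm (u - v) : ℝ) + 1) ^ (-a)) :
    ∑ u ∈ box ρ, ∑ v ∈ box ρ, F u v ≤
      8 / (2 - a) * K * (ρ : ℝ) ^ (-a) * ((box ρ).card : ℝ) ^ 2 := by
  have hρ0 : (0 : ℝ) < ρ := by exact_mod_cast hρ
  have h1 : ∀ u ∈ box ρ, ∑ v ∈ box ρ, F u v ≤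
      K * (8 / (2 - a) * (2 * (ρ : ℝ) + 1) ^ (2 - a)) := by
    intro u hu
    have h2 : ∑ v ∈ box ρ, F u v ≤ K * ∑ v ∈ box ρ, ((XY.nm (u - v) : ℝ) + 1) ^ (-a) := by
      rw [Finset.mul_sum]
      exact Finset.sum_le_sum fun v hv => hF u hu v hv
    refine h2.trans (mul_le_mul_of_nonneg_left ?_ hK)
    have h3 := sum_box_pow ha1 ha (2 * ρ)
    push_cast at h3
    refine le_trans ?_ h3
    have e : ∑ v ∈ box ρ, ((XY.nm (u - v) : ℝ) + 1) ^ (-a) =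
        ∑ z ∈ (box ρ).image (fun v => u - v), ((XY.nm z : ℝ) + 1) ^ (-a) := by
      rw [Finset.sum_image]
      intro x _ y _ hxy
      exact sub_right_injective hxy
    rw [e]
    refine Finset.sum_le_sum_of_subset_of_nonneg ?_ fun _ _ _ => by positivity
    intro z hz
    obtain ⟨v, hv, rfl⟩ := Finset.mem_image.1 hz
    rw [XY.mem_box_iff_nm] at hu hv ⊢
    have h4 := XY.nm_add_le u (-v)
    rw [XY.nm_neg, ← sub_eq_add_neg] at h4
    omega
  refine (Finset.sum_le_sum h1).trans ?_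
  rw [Finset.sum_const, nsmul_eq_mul]
  have h2a : 0 < 2 - a := by linarith
  have h5 : (2 * (ρ : ℝ) + 1) ^ (2 - a) ≤ ((box ρ).card : ℝ) * (ρ : ℝ) ^ (-a) := by
    rw [card_box, sub_eq_add_neg, Real.rpow_add (by positivity)]
    have e2 : (2 * (ρ : ℝ) + 1) ^ (2 : ℝ) = (2 * (ρ : ℝ) + 1) ^ 2 := Real.rpow_natCast _ 2
    rw [e2]
    refine mul_le_mul_of_nonneg_left ?_ (by positivity)
    exact Real.rpow_le_rpow_of_nonpos hρ0 (by linarith) (by linarith)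
  have h6 : 0 ≤ K * (8 / (2 - a)) := by positivity
  calc ((box ρ).card : ℝ) * (K * (8 / (2 - a) * (2 * (ρ : ℝ) + 1) ^ (2 - a))) =
        ((box ρ).card : ℝ) * (K * (8 / (2 - a)) * (2 * (ρ : ℝ) + 1) ^ (2 - a)) := by ring
    _ ≤ ((box ρ).card : ℝ) * (K * (8 / (2 - a)) * (((box ρ).card : ℝ) * (ρ : ℝ) ^ (-a))) :=
        mul_le_mul_of_nonneg_left (mul_le_mul_of_nonneg_left h5 h6) (Nat.cast_nonneg _)
    _ = _ := by ring

end Vale.Agent.P159.H253.Sm
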