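import Vale.Agent.P159.H529.Qf4
import Vale.Agent.P159.H773.Brg
import Vale.Agent.P159.H253.Sm2

/-!
P159 (helper253), smeared Ginibre, part 3: the ring bound. `D u` = translate by `u` of the path from
`0` to `(R, 0)`; `CT (D u ± D v) ≤ m(s)^4` for `2 s + 2 ≤ |u - v|`.
-/

open MeasureTheory Filter Topology Finset
open scoped BigOperators

set_option linter.all false

namespace Vale.Agent.P159.H253.Sm

open Vale.Agent.P159 Vale.Agent.P159.TM.H331 Vale.Agent.P159.H773 Vale.Agent.P159.H253.Rec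
open Vale.Agent.P159.H770 (wTD Ed wTD_eq)
open Vale.Agent.P159.H883 (CT Zp)
open Vale.Agent.P159.H474.Cb (trD)
open Vale.Agent.P159.TM.Spec (V)
open Vale.Agent.P159.H513 (cuZ)
open Vale.Agent.P159.H963 (pin GrI)
open Vale.Agent.P159.H529.Qf (EQ EQ_one EQ_union EQ_le_one DsQ bxq torus_le Zp_ratio chq)

/-! ### translations -/

section trans

variable {X : Type} [Fintype X] [DecidableEq X]

/-- moving the pin -/
def mvP (x₀ x₁ : X) : (X → ℤ) ≃ (X → ℤ) where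
  toFun h := fun x => h x + (h x₀ - h x₁)
  invFun g := fun x => g x - (g x₀ - g x₁)
  left_inv h := by funext x; ring
  right_inv g := by funext x; ring

/-- the pinned sum does not depend on the site -/
theorem Zp_site {w : (X → ℤ) → ℝ} (hw : ∀ (h : X → ℤ) (n : ℤ), w (fun x => h x + n) = w h)
    (x₀ x₁ : X) : Zp w x₁ = Zp w x₀ := by
  unfold Zp
  rw [← (mvP x₀ x₁).tsum_eq]
  refine tsum_congr fun h => ?_
  unfold pin mvP
  simp only [Equiv.coe_fn_mk]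
  rw [hw]
  have e : (h x₁ + (h x₀ - h x₁) = 0) = (h x₀ = 0) := by
    congr 1
    ring
  simp only [e]

variable {N : ℕ} [NeZero N] {b : ℝ}

lemma wTD_add (η : Ed N → ℤ) (h : V N → ℤ) (n : ℤ) :
    wTD N b η (fun x => h x + n) = wTD N b η h := by
  rw [wTD_eq, wTD_eq]
  refine Finset.prod_congr rfl fun x _ => ?_
  congr 2 <;> ring

lemma wTD_tr (s : V N) (η : Ed N → ℤ) (h : V N → ℤ) :
    wTD N b (trD s η) (fun x => h (x + s)) = wTD N b η h := by
  rw [wTD_eq, wTD_eq, ← Equiv.prod_comp (Equiv.addRight s) (fun x =>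
    Vale.Agent.P159.H353.wI b (h (x + (1, 0)) - h x + η (x, false)) *
    Vale.Agent.P159.H353.wI b (h (x + (0, 1)) - h x + η (x, true)))]
  refine Finset.prod_congr rfl fun x _ => ?_
  rw [Equiv.coe_addRight, add_right_comm x (1, 0) s, add_right_comm x (0, 1) s]
  rfl

/-- **translation invariance of the massless ratio** -/
theorem CT_tr (s : V N) (η : Ed N → ℤ) : CT N b (trD s η) = CT N b η := by
  have h1 : Zp (wTD N b (trD s η)) (0 : V N) = Zp (wTD N b η) s := by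
    unfold Zp
    rw [← (Equiv.arrowCongr (Equiv.subRight s) (Equiv.refl ℤ)).tsum_eq]
    refine tsum_congr fun h => ?_
    have e : (Equiv.arrowCongr (Equiv.subRight s) (Equiv.refl ℤ)) h = fun x => h (x + s) := rfl
    rw [e]
    unfold pin
    rw [wTD_tr]
    simp only [zero_add]
  unfold CT
  rw [h1, Zp_site (fun h n => wTD_add η h n) 0 s]

end trans

/-- the integer site in the torus -/
def cz (N : ℕ) (u : ℤ × ℤ) : V N := ((u.1 : ZMod N), (u.2 : ZMod N))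

/-- the translate of `η` by `u` -/
def Dt (N : ℕ) [NeZero N] (η : Ed N → ℤ) (u : ℤ × ℤ) : Ed N → ℤ := trD (-cz N u) η

section tor

variable {M : ℕ} {b : ℝ}

/-- the massless ratio depends on circulation and flux only -/
theorem CT_class {η η' : (Fin (M + 2) × Fin (M + 2)) × Bool → ℤ}
    (hc : ∀ v, curl η' v = curl η v)
    (h1 : ∑ x : Fin (M + 2) × Fin (M + 2), η' (x, false) =
      ∑ x : Fin (M + 2) × Fin (M + 2), η (x, false))
    (h2 : ∑ x : Fin (M + 2) × Fin (M + 2), η' (x, true) =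
      ∑ x : Fin (M + 2) × Fin (M + 2), η (x, true)) :
    CT (M + 2) b η' = CT (M + 2) b η := by
  rw [CT_eq_ZN, CT_eq_ZN, ZN_class hc h1 h2]

/-- the charges of the pair `P, Q` -/
def qs (P Q : ℤ × ℤ) (z : ℤ × ℤ) : ℤ := (if z = P then 1 else 0) - (if z = Q then 1 else 0)

lemma dsQ_pth (P Q : St M) : DsQ (pth P Q) (bxq M (qs (cv P) (cv Q))) where
  curl v := by
    rw [(pth_dsl P Q).curl v]
    unfold src bxq qs
    congr 1
    · by_cases h : v = P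
      · rw [if_pos h, if_pos (by rw [h])]
      · rw [if_neg h, if_neg fun h' => h (cv_inj h')]
    · by_cases h : v = Q
      · rw [if_pos h, if_pos (by rw [h])]
      · rw [if_neg h, if_neg fun h' => h (cv_inj h')]
  row := (pth_dsl P Q).row
  col := (pth_dsl P Q).col

lemma curl_add (η η' : (Fin (M + 2) × Fin (M + 2)) × Bool → ℤ) (v) :
    curl (fun e => η e + η' e) v = curl η v + curl η' v := by
  unfold curl
  ring

lemma curl_sub (η η' : (Fin (M + 2) × Fin (M + 2)) × Bool → ℤ) (v) :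
    curl (fun e => η e - η' e) v = curl η v - curl η' v := by
  unfold curl
  ring

lemma dsQ_add {η η' : (Fin (M + 2) × Fin (M + 2)) × Bool → ℤ} {q q' : ℤ × ℤ → ℤ}
    (h : DsQ η (bxq M q)) (h' : DsQ η' (bxq M q')) :
    DsQ (fun e => η e + η' e) (bxq M fun z => q z + q' z) where
  curl v := by
    rw [curl_add, h.curl, h'.curl]
    rfl
  row := by rw [Finset.sum_add_distrib, h.row, h'.row, add_zero]
  col := by rw [Finset.sum_add_distrib, h.col, h'.col, add_zero]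

lemma dsQ_sub {η η' : (Fin (M + 2) × Fin (M + 2)) × Bool → ℤ} {q q' : ℤ × ℤ → ℤ}
    (h : DsQ η (bxq M q)) (h' : DsQ η' (bxq M q')) :
    DsQ (fun e => η e - η' e) (bxq M fun z => q z - q' z) where
  curl v := by
    rw [curl_sub, h.curl, h'.curl]
    rfl
  row := by rw [Finset.sum_sub_distrib, h.row, h'.row, sub_zero]
  col := by rw [Finset.sum_sub_distrib, h.col, h'.col, sub_zero]

/-- massless ratio against wired correlation -/
theorem CT_le_EQ (hb : 0 ≤ b) {η : (Fin (M + 2) × Fin (M + 2)) × Bool → ℤ} {q : ℤ × ℤ → ℤ}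
    (h : DsQ η (bxq M q)) {Λ : Finset (ℤ × ℤ)} (hΛ : Λ ⊆ inner (M + 1)) :
    CT (M + 2) b η ≤ EQ b Λ q := by
  have h1 := Zp_ratio hb h
  have h2 : CT (M + 2) b η = _ := h1
  rw [h2]
  exact torus_le hb hΛ q

/-- four separated unit charges -/
theorem EQ_four_le (hb : 0 ≤ b) {q : ℤ × ℤ → ℤ} {z1 z2 z3 z4 : ℤ × ℤ} {s : ℕ}
    (h12 : 2 * s + 2 ≤ XY.nm (z1 - z2)) (h13 : 2 * s + 2 ≤ XY.nm (z1 - z3))
    (h14 : 2 * s + 2 ≤ XY.nm (z1 - z4)) (h23 : 2 * s + 2 ≤ XY.nm (z2 - z3))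
    (h24 : 2 * s + 2 ≤ XY.nm (z2 - z4)) (h34 : 2 * s + 2 ≤ XY.nm (z3 - z4))
    (q1 : q z1 = 1 ∨ q z1 = -1) (q2 : q z2 = 1 ∨ q z2 = -1) (q3 : q z3 = 1 ∨ q z3 = -1)
    (q4 : q z4 = 1 ∨ q z4 = -1) (q0 : ∀ z, z ≠ z1 → z ≠ z2 → z ≠ z3 → z ≠ z4 → q z = 0) :
    EQ b (H773.tr (box s) z1 ∪ (H773.tr (box s) z2 ∪ (H773.tr (box s) z3 ∪ H773.tr (box s) z4))) q ≤
      mm b s ^ 4 := by
  have s12 := sep_box h12
  have s13 := sep_box h13
  have s14 := sep_box h14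
  have s23 := sep_box h23
  have s24 := sep_box h24
  have s34 := sep_box h34
  have hm := mm_nonneg hb s
  have hu : ∀ {A B C : Finset (ℤ × ℤ)}, H773.Sep A B → H773.Sep A C →
      H773.Sep A (B ∪ C) := by
    intro A B C h1 h2 u hu v hv
    rcases Finset.mem_union.1 hv with h | h
    · exact h1 u hu v h
    · exact h2 u hu v h
  have hne : ∀ {z z' : ℤ × ℤ}, 2 * s + 2 ≤ XY.nm (z - z') → ∀ v ∈ H773.tr (box s) z, v ≠ z' := by
    intro z z' h v hv hvz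
    rw [mem_tr, XY.mem_box_iff_nm] at hv
    rw [hvz, ← neg_sub, XY.nm_neg] at hv
    omega
  have hne' : ∀ {z z' : ℤ × ℤ}, 2 * s + 2 ≤ XY.nm (z' - z) → ∀ v ∈ H773.tr (box s) z, v ≠ z' := by
    intro z z' h v hv hvz
    rw [mem_tr, XY.mem_box_iff_nm] at hv
    rw [hvz] at hv
    omega
  rw [EQ_union (hu s12 (hu s13 s14)), EQ_union (hu s23 s24), EQ_union s34]
  have e1 : EQ b (H773.tr (box s) z1) q ≤ mm b s := EQ_one hb (Finset.Subset.refl _) q1
    fun v hv h => q0 v h (hne h12 v hv) (hne h13 v hv) (hne h14 v hv)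
  have e2 : EQ b (H773.tr (box s) z2) q ≤ mm b s := EQ_one hb (Finset.Subset.refl _) q2
    fun v hv h => q0 v (hne' h12 v hv) h (hne h23 v hv) (hne h24 v hv)
  have e3 : EQ b (H773.tr (box s) z3) q ≤ mm b s := EQ_one hb (Finset.Subset.refl _) q3
    fun v hv h => q0 v (hne' h13 v hv) (hne' h23 v hv) h (hne h34 v hv)
  have e4 : EQ b (H773.tr (box s) z4) q ≤ mm b s := EQ_one hb (Finset.Subset.refl _) q4
    fun v hv h => q0 v (hne' h14 v hv) (hne' h24 v hv) (hne' h34 v hv) h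
  have n2 := H529.Qf.EQ_nonneg hb (H773.tr (box s) z2) q
  have n3 := H529.Qf.EQ_nonneg hb (H773.tr (box s) z3) q
  have n4 := H529.Qf.EQ_nonneg hb (H773.tr (box s) z4) q
  calc EQ b (H773.tr (box s) z1) q * (EQ b (H773.tr (box s) z2) q * (EQ b (H773.tr (box s) z3) q *
        EQ b (H773.tr (box s) z4) q)) ≤ mm b s * (mm b s * (mm b s * mm b s)) := by gcongr
    _ = _ := by ring

lemma cuZ_trD {N : ℕ} [NeZero N] (s : V N) (η : Ed N → ℤ) (v : V N) :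
    cuZ (trD s η) v = cuZ η (v + s) := by
  unfold cuZ trD
  simp only
  rw [add_right_comm v (1, 0) s, add_right_comm v (0, 1) s]

lemma sum_trD {N : ℕ} [NeZero N] (s : V N) (η : Ed N → ℤ) (c : Bool) :
    ∑ x : V N, trD s η (x, c) = ∑ x : V N, η (x, c) :=
  Equiv.sum_comp (Equiv.addRight s) fun x => η (x, c)

lemma cz_add (N : ℕ) (u v : ℤ × ℤ) : cz N (u + v) = cz N u + cz N v := by
  unfold cz
  ext <;> simp

lemma trD_Dt {N : ℕ} [NeZero N] (η : Ed N → ℤ) (s u : ℤ × ℤ) :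
    trD (-cz N s) (Dt N η u) = Dt N η (s + u) := by
  funext e
  show η (e.1 + -cz N s + -cz N u, e.2) = η (e.1 + -cz N (s + u), e.2)
  rw [cz_add]
  congr 2
  abel

lemma cz_nat {a c : ℕ} (ha : a < M + 2) (hc : c < M + 2) :
    cz (M + 2) ((a : ℤ), (c : ℤ)) = ((⟨a, ha⟩, ⟨c, hc⟩) : St M) := by
  have h1 : ((((a : ℕ) : ℤ)) : ZMod (M + 2)) = (⟨a, ha⟩ : Fin (M + 2)) := by
    rw [Int.cast_natCast]
    exact Fin.ext (ZMod.val_cast_of_lt ha)
  have h2 : ((((c : ℕ) : ℤ)) : ZMod (M + 2)) = (⟨c, hc⟩ : Fin (M + 2)) := by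
    rw [Int.cast_natCast]
    exact Fin.ext (ZMod.val_cast_of_lt hc)
  exact Prod.ext h1 h2

/-- the explicit path from `(a, c)` to `(a + R, c)` -/
def pZ {a R c : ℕ} (ha : a + R < M + 2) (hc : c < M + 2) : Ed (M + 2) → ℤ :=
  pth ((⟨a, by omega⟩, ⟨c, hc⟩) : St M) (⟨a + R, ha⟩, ⟨c, hc⟩)

variable {R L : ℕ} {η : Ed (M + 2) → ℤ}

lemma cuZ_pZ {a R c : ℕ} (ha : a + R < M + 2) (hc : c < M + 2) (v : V (M + 2)) :
    cuZ (pZ ha hc) v = (if v = cz (M + 2) ((a : ℤ), (c : ℤ)) then 1 else 0) -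
      (if v = cz (M + 2) (((a + R : ℕ) : ℤ), (c : ℤ)) then 1 else 0) := by
  have h := (pth_dsl ((⟨a, by omega⟩, ⟨c, hc⟩) : St M) (⟨a + R, ha⟩, ⟨c, hc⟩)).curl v
  rw [cz_nat (by omega : a < M + 2) hc, cz_nat ha hc]
  exact h

/-- circulation of the translated path -/
lemma Dt_cu (h : H817.IsPath (N := M + 2) (0 : V (M + 2)) (((R : ℕ) : ZMod (M + 2)), 0) R 0 L η)
    (a c : ℕ) (v : V (M + 2)) :
    cuZ (Dt (M + 2) η ((a : ℤ), (c : ℤ))) v =
      (if v = cz (M + 2) ((a : ℤ), (c : ℤ)) then 1 else 0) -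
      (if v = cz (M + 2) (((a + R : ℕ) : ℤ), (c : ℤ)) then 1 else 0) := by
  unfold Dt
  rw [cuZ_trD]
  have h1 := h.cu (v + -cz (M + 2) ((a : ℤ), (c : ℤ)))
  have h2 : ((cuZ η (v + -cz (M + 2) ((a : ℤ), (c : ℤ))) : ℤ) : ℝ) =
      (((if v + -cz (M + 2) ((a : ℤ), (c : ℤ)) = (0 : V (M + 2)) then 1 else 0) -
        (if v + -cz (M + 2) ((a : ℤ), (c : ℤ)) = (((R : ℕ) : ZMod (M + 2)), 0) then 1 else 0) : ℤ) :
          ℝ) := by
    unfold cuZ
    push_cast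
    exact h1
  have h3 : cuZ η (v + -cz (M + 2) ((a : ℤ), (c : ℤ))) =
      (if v + -cz (M + 2) ((a : ℤ), (c : ℤ)) = (0 : V (M + 2)) then 1 else 0) -
        (if v + -cz (M + 2) ((a : ℤ), (c : ℤ)) = (((R : ℕ) : ZMod (M + 2)), 0) then 1 else 0) := by
    exact_mod_cast h2
  rw [h3]
  have e1 : (v + -cz (M + 2) ((a : ℤ), (c : ℤ)) = (0 : V (M + 2))) =
      (v = cz (M + 2) ((a : ℤ), (c : ℤ))) := propext add_neg_eq_zero
  have e3 : cz (M + 2) (((a + R : ℕ) : ℤ), (c : ℤ)) =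
      ((((R : ℕ) : ZMod (M + 2)), 0) : V (M + 2)) + cz (M + 2) ((a : ℤ), (c : ℤ)) := by
    unfold cz
    ext
    · simp [add_comm]
    · simp
  have e2 : (v + -cz (M + 2) ((a : ℤ), (c : ℤ)) = ((((R : ℕ) : ZMod (M + 2)), 0) : V (M + 2))) =
      (v = cz (M + 2) (((a + R : ℕ) : ℤ), (c : ℤ))) := by
    rw [e3]
    exact propext add_neg_eq_iff_eq_add
  simp only [e1, e2]

lemma sum_pZ {a R c : ℕ} (ha : a + R < M + 2) (hc : c < M + 2) :
    (∑ x : V (M + 2), pZ ha hc (x, false) = 0) ∧ ∑ x : V (M + 2), pZ ha hc (x, true) = R := by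
  constructor
  · have h := sum_pth_false ((⟨a, by omega⟩, ⟨c, hc⟩) : St M) (⟨a + R, ha⟩, ⟨c, hc⟩)
    refine Eq.trans h ?_
    simp
  · have h := sum_pth_true ((⟨a, by omega⟩, ⟨c, hc⟩) : St M) (⟨a + R, ha⟩, ⟨c, hc⟩)
    refine Eq.trans h ?_
    push_cast
    ring

lemma sum_Dt (h : H817.IsPath (N := M + 2) (0 : V (M + 2)) (((R : ℕ) : ZMod (M + 2)), 0) R 0 L η)
    (u : ℤ × ℤ) : (∑ x : V (M + 2), Dt (M + 2) η u (x, false) = 0) ∧
      ∑ x : V (M + 2), Dt (M + 2) η u (x, true) = R := by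
  constructor
  · refine (sum_trD _ η false).trans ?_
    have h3 := h.hor
    rw [Int.cast_zero, neg_zero] at h3
    exact_mod_cast h3
  · refine (sum_trD _ η true).trans ?_
    have h3 := h.ver
    exact_mod_cast h3

/-- the massless ratio depends on circulation and flux only -/
theorem CT_classZ {η η' : Ed (M + 2) → ℤ} (hc : ∀ v : V (M + 2), cuZ η' v = cuZ η v)
    (h1 : ∑ x : V (M + 2), η' (x, false) = ∑ x : V (M + 2), η (x, false))
    (h2 : ∑ x : V (M + 2), η' (x, true) = ∑ x : V (M + 2), η (x, true)) :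
    CT (M + 2) b η' = CT (M + 2) b η :=
  CT_class hc h1 h2

/-- the sum of two translated paths, explicit -/
theorem CT_Dt_add
    (h : H817.IsPath (N := M + 2) (0 : V (M + 2)) (((R : ℕ) : ZMod (M + 2)), 0) R 0 L η)
    {a c a' c' : ℕ} (ha : a + R < M + 2) (hc : c < M + 2) (ha' : a' + R < M + 2)
    (hc' : c' < M + 2) :
    CT (M + 2) b (fun e => Dt (M + 2) η ((a : ℤ), (c : ℤ)) e + Dt (M + 2) η ((a' : ℤ), (c' : ℤ)) e) =
      CT (M + 2) b (fun e => pZ ha hc e + pZ ha' hc' e) := by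
  have k1 := sum_Dt h ((a : ℤ), (c : ℤ))
  have k2 := sum_Dt h ((a' : ℤ), (c' : ℤ))
  have k3 := sum_pZ ha hc
  have k4 := sum_pZ ha' hc'
  refine CT_classZ (fun v => ?_) ?_ ?_
  · have e : ∀ f g : Ed (M + 2) → ℤ, cuZ (fun e => f e + g e) v = cuZ f v + cuZ g v := by
      intro f g; unfold cuZ; ring
    rw [e, e, Dt_cu h, Dt_cu h, cuZ_pZ, cuZ_pZ]
  · rw [Finset.sum_add_distrib, Finset.sum_add_distrib, k1.1, k2.1, k3.1, k4.1]
  · rw [Finset.sum_add_distrib, Finset.sum_add_distrib, k1.2, k2.2, k3.2, k4.2]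

/-- the difference of two translated paths, explicit -/
theorem CT_Dt_sub
    (h : H817.IsPath (N := M + 2) (0 : V (M + 2)) (((R : ℕ) : ZMod (M + 2)), 0) R 0 L η)
    {a c a' c' : ℕ} (ha : a + R < M + 2) (hc : c < M + 2) (ha' : a' + R < M + 2)
    (hc' : c' < M + 2) :
    CT (M + 2) b (fun e => Dt (M + 2) η ((a : ℤ), (c : ℤ)) e - Dt (M + 2) η ((a' : ℤ), (c' : ℤ)) e) =
      CT (M + 2) b (fun e => pZ ha hc e - pZ ha' hc' e) := by
  have k1 := sum_Dt h ((a : ℤ), (c : ℤ))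
  have k2 := sum_Dt h ((a' : ℤ), (c' : ℤ))
  have k3 := sum_pZ ha hc
  have k4 := sum_pZ ha' hc'
  refine CT_classZ (fun v => ?_) ?_ ?_
  · have e : ∀ f g : Ed (M + 2) → ℤ, cuZ (fun e => f e - g e) v = cuZ f v - cuZ g v := by
      intro f g; unfold cuZ; ring
    rw [e, e, Dt_cu h, Dt_cu h, cuZ_pZ, cuZ_pZ]
  · rw [Finset.sum_sub_distrib, Finset.sum_sub_distrib, k1.1, k2.1, k3.1, k4.1]
  · rw [Finset.sum_sub_distrib, Finset.sum_sub_distrib, k1.2, k2.2, k3.2, k4.2]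

/-- explicit pairs against wired correlations -/
theorem CT_pZ_add (hb : 0 ≤ b) {a c a' c' : ℕ} (ha : a + R < M + 2) (hc : c < M + 2)
    (ha' : a' + R < M + 2) (hc' : c' < M + 2) {Λ : Finset (ℤ × ℤ)} (hΛ : Λ ⊆ inner (M + 1)) :
    CT (M + 2) b (fun e => pZ ha hc e + pZ ha' hc' e) ≤
      EQ b Λ (fun z => qs ((a : ℤ), (c : ℤ)) (((a + R : ℕ) : ℤ), (c : ℤ)) z +
        qs ((a' : ℤ), (c' : ℤ)) (((a' + R : ℕ) : ℤ), (c' : ℤ)) z) :=
  CT_le_EQ hb (dsQ_add (dsQ_pth _ _) (dsQ_pth _ _)) hΛ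

theorem CT_pZ_sub (hb : 0 ≤ b) {a c a' c' : ℕ} (ha : a + R < M + 2) (hc : c < M + 2)
    (ha' : a' + R < M + 2) (hc' : c' < M + 2) {Λ : Finset (ℤ × ℤ)} (hΛ : Λ ⊆ inner (M + 1)) :
    CT (M + 2) b (fun e => pZ ha hc e - pZ ha' hc' e) ≤
      EQ b Λ (fun z => qs ((a : ℤ), (c : ℤ)) (((a + R : ℕ) : ℤ), (c : ℤ)) z -
        qs ((a' : ℤ), (c' : ℤ)) (((a' + R : ℕ) : ℤ), (c' : ℤ)) z) :=
  CT_le_EQ hb (dsQ_sub (dsQ_pth _ _) (dsQ_pth _ _)) hΛ

end tor

end Vale.Agent.P159.H253.Sm
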