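import Vale.Agent.P159.H253.Sm6

/-!
P159 (helper253), smeared Ginibre, part 7: **the average for every pair of cores of the torus.**
-/

open MeasureTheory Filter Topology Finset
open scoped BigOperators

set_option linter.all false

namespace Vale.Agent.P159.H253.Sm

open Vale.Agent.P159 Vale.Agent.P159.TM.H331 Vale.Agent.P159.H773 Vale.Agent.P159.H253.Rec
open Vale.Agent.P159.H770 (wTD Ed wTD_eq)
open Vale.Agent.P159.H883 (CT Zp CT_pos)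
open Vale.Agent.P159.TM.Spec (V)

variable {b α C1 c R : ℝ} {L : ℕ}

/-- scalar form of one term, real `R` -/
lemma term_boundR (hα : 1 / 4 ≤ α) (hα2 : α < 1 / 2) (hC1 : 0 ≤ C1) (hc : 0 ≤ c) (hR0 : 0 < R)
    {u1 : ℝ} (hu1 : 0 < u1) (h1 : u1 ≤ C1 * R ^ α * c) {d : ℕ} {X : ℝ}
    (hX1 : X ≤ 1) (hX : ∀ s : ℕ, 1 ≤ s → 2 * s + 2 ≤ d → X ≤ (C1 * (R / s) ^ α * c) ^ 4) :
    X ≤ 36 * C1 ^ 4 * (1 + (u1⁻¹) ^ 4) * R ^ (4 * α) * c ^ 4 * ((d : ℝ) + 1) ^ (-(4 * α)) := by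
  have hd0 : (0 : ℝ) < (d : ℝ) + 1 := by positivity
  have p4 : ∀ x : ℝ, 0 ≤ x → (x ^ α) ^ 4 = x ^ (4 * α) := by
    intro x hx
    rw [← Real.rpow_natCast (x ^ α) 4, ← Real.rpow_mul hx]
    congr 1
    push_cast
    ring
  have h6 : ∀ x : ℝ, 1 ≤ x → x ≤ 6 → x ^ (4 * α) ≤ 36 := by
    intro x hx0 hx
    calc x ^ (4 * α) ≤ x ^ (2 : ℝ) := Real.rpow_le_rpow_of_exponent_le hx0 (by linarith)
      _ = x ^ 2 := by rw [← Real.rpow_natCast x 2]; norm_num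
      _ ≤ 6 ^ 2 := pow_le_pow_left₀ (by linarith) hx 2
      _ = 36 := by norm_num
  have hdiv : ∀ x : ℝ, 0 < x → x ^ (-(4 * α)) = (x ^ (4 * α))⁻¹ := fun x hx =>
    Real.rpow_neg hx.le _
  by_cases h : d ≤ 3
  · have e1 : 1 ≤ (C1 * R ^ α * c) ^ 4 * (u1⁻¹) ^ 4 := by
      rw [← mul_pow]
      refine one_le_pow₀ ?_
      rw [← div_eq_mul_inv, one_le_div hu1]
      exact h1
    have e2 : (1 : ℝ) ≤ 36 * ((d : ℝ) + 1) ^ (-(4 * α)) := by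
      rw [hdiv _ hd0, ← div_eq_mul_inv, one_le_div (by positivity)]
      refine h6 _ (by linarith [Nat.cast_nonneg (α := ℝ) d]) ?_
      have : (d : ℝ) ≤ 3 := by exact_mod_cast h
      linarith
    have e3 : (C1 * R ^ α * c) ^ 4 = C1 ^ 4 * R ^ (4 * α) * c ^ 4 := by
      rw [mul_pow, mul_pow, p4 _ hR0.le]
    calc X ≤ 1 * 1 := by linarith
      _ ≤ ((C1 * R ^ α * c) ^ 4 * (u1⁻¹) ^ 4) * (36 * ((d : ℝ) + 1) ^ (-(4 * α))) :=
          mul_le_mul e1 e2 (by norm_num) (by positivity)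
      _ = 36 * C1 ^ 4 * (u1⁻¹) ^ 4 * R ^ (4 * α) * c ^ 4 * ((d : ℝ) + 1) ^ (-(4 * α)) := by
          rw [e3]; ring
      _ ≤ _ := by
          refine mul_le_mul_of_nonneg_right (mul_le_mul_of_nonneg_right
            (mul_le_mul_of_nonneg_right ?_ (by positivity)) (by positivity)) (by positivity)
          refine mul_le_mul_of_nonneg_left ?_ (by positivity)
          linarith
  · have hd : 4 ≤ d := by omega
    set s : ℕ := (d - 2) / 2 with hs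
    have hs1 : 1 ≤ s := by omega
    have hs2 : 2 * s + 2 ≤ d := by omega
    have hs3 : d + 1 ≤ 6 * s := by omega
    have hs0 : (0 : ℝ) < s := by exact_mod_cast hs1
    have e0 := hX s hs1 hs2
    have e1 : (C1 * (R / s) ^ α * c) ^ 4 = C1 ^ 4 * (R ^ (4 * α) / (s : ℝ) ^ (4 * α)) * c ^ 4 := by
      rw [mul_pow, mul_pow, p4 _ (by positivity), Real.div_rpow hR0.le hs0.le]
    have e2 : ((s : ℝ) ^ (4 * α))⁻¹ ≤ 36 * ((d : ℝ) + 1) ^ (-(4 * α)) := by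
      rw [hdiv _ hd0, ← div_eq_mul_inv, inv_eq_one_div, div_le_div_iff₀ (by positivity)
        (by positivity), one_mul]
      have h7 : ((d : ℝ) + 1) / s ≤ 6 := by
        rw [div_le_iff₀ hs0]
        exact_mod_cast hs3
      have h8 : 1 ≤ ((d : ℝ) + 1) / s := by
        rw [one_le_div hs0]
        have : (s : ℝ) ≤ d := by exact_mod_cast (by omega : s ≤ d)
        linarith
      have h9 := h6 _ h8 h7
      rw [Real.div_rpow hd0.le hs0.le, div_le_iff₀ (by positivity)] at h9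
      exact h9
    calc X ≤ C1 ^ 4 * (R ^ (4 * α) / (s : ℝ) ^ (4 * α)) * c ^ 4 := e0.trans e1.le
      _ = (C1 ^ 4 * R ^ (4 * α) * c ^ 4) * ((s : ℝ) ^ (4 * α))⁻¹ := by ring
      _ ≤ (C1 ^ 4 * R ^ (4 * α) * c ^ 4) * (36 * ((d : ℝ) + 1) ^ (-(4 * α))) :=
          mul_le_mul_of_nonneg_left e2 (by positivity)
      _ = 36 * C1 ^ 4 * 1 * R ^ (4 * α) * c ^ 4 * ((d : ℝ) + 1) ^ (-(4 * α)) := by ring
      _ ≤ _ := by
          refine mul_le_mul_of_nonneg_right (mul_le_mul_of_nonneg_right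
            (mul_le_mul_of_nonneg_right ?_ (by positivity)) (by positivity)) (by positivity)
          refine mul_le_mul_of_nonneg_left ?_ (by positivity)
          have : 0 ≤ (u1⁻¹) ^ 4 := by positivity
          linarith

lemma cz_surj (N : ℕ) [NeZero N] (p : V N) : ∃ P0 : ℤ × ℤ, p = cz N P0 := by
  refine ⟨((p.1.val : ℤ), (p.2.val : ℤ)), ?_⟩
  unfold cz
  simp

/-- **THE AVERAGE, every pair**: `K` depends on `b, α, C1` only -/
theorem avg_pairG (hb : 0 < b) (hα : 1 / 4 ≤ α) (hα2 : α < 1 / 2) (hC1 : 0 ≤ C1) :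
    ∃ K : ℝ, 1 ≤ K ∧ ∀ (N : ℕ) [NeZero N] (L ρ : ℕ) (η : Ed N → ℤ) (p q : V N) (d : ℤ × ℤ)
      (R c : ℝ), 1 ≤ ρ → 4 * ρ ≤ XY.nm d → 4 * XY.nm d ≤ N →
      H817.IsPath p q d.1 d.2 L η → q = p + cz N d → 0 < R → 0 ≤ c →
      (∀ s : ℕ, 1 ≤ s → s ≤ ρ → ua b s ≤ C1 * (R / s) ^ α * c) →
      ∑ u ∈ box ρ, ∑ v ∈ box ρ,
        CT N b (Dt N η u + Dt N η v) * CT N b (Dt N η u - Dt N η v) ≤
        K * (R / ρ) ^ (4 * α) * c ^ 4 * ((box ρ).card : ℝ) ^ 2 := by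
  have hu1 : 0 < ua b 1 := pow_pos (mm_pos hb 1) 2
  set K0 : ℝ := 36 * C1 ^ 4 * (1 + ((ua b 1)⁻¹) ^ 4) with hK0
  have hK00 : 0 ≤ K0 := by positivity
  have h2a : 0 < 2 - 4 * α := by linarith
  refine ⟨8 / (2 - 4 * α) * K0 + 1, ?_, fun N _ L ρ η p q d R c hρ hρd hdN h hq hR0 hc hpr => ?_⟩
  · have : 0 ≤ 8 / (2 - 4 * α) * K0 := by positivity
    linarith
  have hρ0 : (0 : ℝ) < ρ := by exact_mod_cast hρ
  obtain ⟨P0, hp⟩ := cz_surj N p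
  obtain ⟨M, rfl⟩ : ∃ M, N = M + 2 := ⟨N - 2, by omega⟩
  have hq' : q = cz (M + 2) (P0 + d) := by rw [hq, hp, cz_add]
  have h1 : ua b 1 ≤ C1 * R ^ α * c := by
    have := hpr 1 le_rfl hρ
    simpa using this
  have key : ∀ u ∈ box ρ, ∀ v ∈ box ρ,
      CT (M + 2) b (Dt (M + 2) η u + Dt (M + 2) η v) * CT (M + 2) b (Dt (M + 2) η u -
        Dt (M + 2) η v) ≤ K0 * R ^ (4 * α) * c ^ 4 *
          ((XY.nm (u - v) : ℝ) + 1) ^ (-(4 * α)) := by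
    intro u hu v hv
    obtain ⟨o1, o2⟩ := CT_pairG_one hb.le h hp hq' hρ hρd hdN hu hv
    have n1 := (CT_pos hb (Dt (M + 2) η u + Dt (M + 2) η v)).le
    have n2 := (CT_pos hb (Dt (M + 2) η u - Dt (M + 2) η v)).le
    refine term_boundR hα hα2 hC1 hc hR0 hu1 h1 (mul_le_one₀ o1 n2 o2) fun s hs1 hs2 => ?_
    obtain ⟨r1, r2⟩ := CT_pairG hb.le h hp hq' hρd hdN hu hv hs2
    rw [XY.mem_box_iff_nm] at hu hv
    have hsρ := s_le hu hv hs2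
    have h3 := hpr s hs1 (by omega)
    have hm := mm_nonneg hb.le s
    calc _ ≤ mm b s ^ 4 * mm b s ^ 4 := mul_le_mul r1 r2 n2 (by positivity)
      _ = ua b s ^ 4 := by unfold ua; ring
      _ ≤ _ := pow_le_pow_left₀ (ua_nonneg b s) h3 4
  have hK : 0 ≤ K0 * R ^ (4 * α) * c ^ 4 := by positivity
  have hav := avg_scal (a := 4 * α) (by linarith) (by linarith) hρ hK key
  refine hav.trans ?_
  have e1 : (R / ρ) ^ (4 * α) = R ^ (4 * α) * (ρ : ℝ) ^ (-(4 * α)) := by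
    rw [Real.div_rpow hR0.le hρ0.le, Real.rpow_neg hρ0.le, div_eq_mul_inv]
  rw [e1]
  have hS : 0 ≤ R ^ (4 * α) * (ρ : ℝ) ^ (-(4 * α)) * c ^ 4 * ((box ρ).card : ℝ) ^ 2 := by
    positivity
  have hcalc : 8 / (2 - 4 * α) * (K0 * R ^ (4 * α) * c ^ 4) * (ρ : ℝ) ^ (-(4 * α)) *
      ((box ρ).card : ℝ) ^ 2 = (8 / (2 - 4 * α) * K0) *
        (R ^ (4 * α) * (ρ : ℝ) ^ (-(4 * α)) * c ^ 4 * ((box ρ).card : ℝ) ^ 2) := by ring
  rw [hcalc]
  calc (8 / (2 - 4 * α) * K0) *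
        (R ^ (4 * α) * (ρ : ℝ) ^ (-(4 * α)) * c ^ 4 * ((box ρ).card : ℝ) ^ 2) ≤
      (8 / (2 - 4 * α) * K0 + 1) *
        (R ^ (4 * α) * (ρ : ℝ) ^ (-(4 * α)) * c ^ 4 * ((box ρ).card : ℝ) ^ 2) :=
        mul_le_mul_of_nonneg_right (by linarith) hS
    _ = _ := by ring

end Vale.Agent.P159.H253.Sm
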