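import Vale.Agent.P159.H253.Sm11
import Vale.Agent.P159.H145.Lw3

/-!
P159 (helper253), smeared Ginibre, part 12: the average at the pairs of the chain of levels, from the
knowledge inside the window (145's `KnW`).
-/

open MeasureTheory Filter Topology Finset
open scoped BigOperators

set_option linter.all false

namespace Vale.Agent.P159.H253.Sm

open Vale.Agent.P159 Vale.Agent.P159.TM.H331 Vale.Agent.P159.H773 Vale.Agent.P159.H253.Rec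
open Vale.Agent.P159.H770 (wTD Ed wTD_eq)
open Vale.Agent.P159.H883 (CT Zp CT_pos)
open Vale.Agent.P159.TM.Spec (V)
open Vale.Agent.P159.TM.SpecC (wT)
open Vale.Agent.P159.H552.Sm (SS CX)
open Vale.Agent.P159.H552.Dx7 (kk)
open Vale.Agent.P159.H801 (itw itw_succ)
open Vale.Agent.P159.H27 (Rb Rb_pos)
open Vale.Agent.P159.H145.Lw (KnW)

variable {b β C2 : ℝ}

lemma CT_cMn (b : ℝ) (i : ℕ) (η : ∀ R, Ed (sd i R) → ℤ) (R : ℕ) :
    CT (sd i R) b (η R) = cMn b (sd i) (fun R => wTD (sd i R) b (η R)) R := by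
  unfold cMn CT
  rw [H770.wTD_zero]

lemma knW_Rb {A0 : ℝ} {Am i : ℕ} {a : ℕ → ℝ} {k w : ℕ → ℕ} {n0 j R : ℕ}
    (h : KnW b β C2 A0 Am i a k w n0 j R) : Rb k w n0 0 ≤ Rb k w n0 j := by
  obtain ⟨κ, hS⟩ := h.slo
  exact hS.Rb_mono (Nat.zero_le j)

/-- **the average at the pair `R` of the chain**: `K0 = log (R / ρ) + C` -/
theorem K0_pair (hb : 0 < b) (hβ : 1 / 4 ≤ β) (hβ2 : β < 1 / 2) (hC2 : 1 ≤ C2) :
    ∃ (C : ℝ) (i0 : ℕ), 0 ≤ C ∧ 1 ≤ i0 ∧ ∀ i, i0 ≤ i → ∀ (η : ∀ R, Ed (sd i R) → ℤ), Pth i η →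
      ∀ (A0 : ℝ) (Am : ℕ) (a : ℕ → ℝ) (k w : ℕ → ℕ) (n0 j R : ℕ), 1 ≤ Am → 32 ≤ R →
      Rb k w n0 j ≤ R → KnW b β C2 A0 Am i a k w n0 j R →
      ∀ (ρ : ℕ) (x₀ : V (sd i R)) (φ : ℤ × ℤ → V (sd i R) → ℝ), 1 ≤ ρ → 8 * ρ ≤ R →
      Real.sqrt (SS (wTD (sd i R) b) x₀ (wU ρ) (dU (sd i R) (η R) ρ φ)) ≤
        Real.exp (Real.log ((R : ℝ) / ρ) + C) *
          cMn b (sd i) (fun R => wTD (sd i R) b (η R)) R ^ 2 := by
  obtain ⟨C, A1, hC, hA1, h⟩ := sqrt_SS_all (α := β) (C1 := C2) hb hβ hβ2 hC2 (B := 1) le_rfl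
  obtain ⟨i0, hi0⟩ := (tendsto_pow_atTop_atTop_of_one_lt (one_lt_two (α := ℝ))).eventually_ge_atTop
    A1 |>.exists_forall_of_atTop
  refine ⟨C, max i0 1, hC, le_max_right _ _, fun i hi η hη A0 Am a k w n0 j R hAm hR hjR hK ρ x₀ φ
    hρ1 hρ2 => ?_⟩
  obtain ⟨L, hL⟩ := hη R (by omega)
  have h1 : Rb k w n0 0 ≤ R := (knW_Rb hK).trans hjR
  have h2 : R ≤ Am * R := Nat.le_mul_of_pos_left _ hAm
  have hrec := hK.rcd R h1 h2
  have hsd : A1 * R ≤ sd i R := by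
    have h3 : (2 : ℝ) ^ i * R ≤ sd i R := by exact_mod_cast sd_ge i R
    exact (mul_le_mul_of_nonneg_right (hi0 i ((le_max_left _ _).trans hi))
      (Nat.cast_nonneg _)).trans h3
  have hnm : XY.nm ((R : ℤ), (0 : ℤ)) = R := by simp [XY.nm]
  have g1 : (32 : ℝ) ≤ R := by exact_mod_cast hR
  have h4 := h (sd i R) L ρ R (η R) 0 (ax0 (sd i R) R) x₀ ((R : ℤ), (0 : ℤ)) φ (by linarith) hrec
    (by rw [hnm]; linarith) (by rw [hnm]; linarith) hsd hL hρ1 (by rw [hnm]; omega) (by omega)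
  rwa [CT_cMn] at h4

/-- **the average in a window**: smearing over the box of radius `2^n` -/
theorem K0_win (hb : 0 < b) (hβ : 1 / 4 ≤ β) (hβ2 : β < 1 / 2) (hC2 : 1 ≤ C2) :
    ∃ (C : ℝ) (i0 : ℕ), 0 ≤ C ∧ 1 ≤ i0 ∧ ∀ i, i0 ≤ i → ∀ (η : ∀ R, Ed (sd i R) → ℤ), Pth i η →
      ∀ (A0 : ℝ) (Am : ℕ) (a : ℕ → ℝ) (k w : ℕ → ℕ) (n0 j R n : ℕ) (lam : ℝ), 1 ≤ Am →
      n = itw w n0 j → 3 ≤ k n → 2 ≤ n → 2 ^ (n + k n) ≤ R →
      R ≤ 2 ^ (n + w n + k (n + w n)) → k (n + w n) ≤ 3 * w n → (w n : ℝ) ≤ lam →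
      KnW b β C2 A0 Am i a k w n0 j R →
      ∀ (x₀ : V (sd i R)) (φ : ℤ × ℤ → V (sd i R) → ℝ),
      Real.sqrt (SS (wTD (sd i R) b) x₀ (wU (2 ^ n)) (dU (sd i R) (η R) (2 ^ n) φ)) ≤
        Real.exp (3 * lam + C) * cMn b (sd i) (fun R => wTD (sd i R) b (η R)) R ^ 2 := by
  obtain ⟨C, i0, hC, hi0, h⟩ := K0_pair (C2 := C2) hb hβ hβ2 hC2
  refine ⟨C, i0, hC, hi0, fun i hi η hη A0 Am a k w n0 j R n lam hAm hn hk3 hn2 hR1 hR2 hk hw hK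
    x₀ φ => ?_⟩
  have hn1 : 8 * 2 ^ n ≤ 2 ^ (n + k n) := by
    calc 8 * 2 ^ n = 2 ^ (n + 3) := by ring
      _ ≤ 2 ^ (n + k n) := Nat.pow_le_pow_right (by norm_num) (by omega)
  have h4 : 4 ≤ 2 ^ n := by
    calc 4 = 2 ^ 2 := by norm_num
      _ ≤ 2 ^ n := Nat.pow_le_pow_right (by norm_num) hn2
  have hRb : Rb k w n0 j ≤ R := by
    unfold Rb kk
    rw [← hn]
    exact hR1
  refine (h i hi η hη A0 Am a k w n0 j R hAm (by omega) hRb hK (2 ^ n) x₀ φ (by omega)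
    (by omega)).trans ?_
  have hct : 0 ≤ cMn b (sd i) (fun R => wTD (sd i R) b (η R)) R ^ 2 := sq_nonneg _
  refine mul_le_mul_of_nonneg_right (Real.exp_le_exp.2 ?_) hct
  have hR0 : (0 : ℝ) < R := by
    have : 0 < R := by omega
    exact_mod_cast this
  have h5 : (R : ℝ) / ((2 ^ n : ℕ) : ℝ) ≤ 2 ^ (4 * w n) := by
    push_cast
    rw [div_le_iff₀ (by positivity)]
    have h6 : R ≤ 2 ^ (4 * w n) * 2 ^ n := by
      refine hR2.trans ?_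
      rw [← pow_add]
      exact Nat.pow_le_pow_right (by norm_num) (by omega)
    exact_mod_cast h6
  have h7 : Real.log ((R : ℝ) / ((2 ^ n : ℕ) : ℝ)) ≤ 3 * lam := by
    have h8 := Real.log_le_log (by positivity) h5
    rw [Real.log_pow] at h8
    have h9 : Real.log 2 < 0.6931471808 := Real.log_two_lt_d9
    have h10 : (0 : ℝ) ≤ w n := Nat.cast_nonneg _
    have h11 : ((4 * w n : ℕ) : ℝ) * Real.log 2 ≤ 3 * w n := by
      push_cast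
      nlinarith
    linarith
  linarith

end Vale.Agent.P159.H253.Sm
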