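import Vale.Agent.P159.H253.Stokes

/-!
# Circulation of a field of increments against a pyramid
-/

set_option linter.all false

open scoped BigOperators

namespace Vale.Agent.P159.UJ.H253

open H282

/-- sums of functions of finite support are invariant under shifts -/
theorem box_shift {f : ℤ × ℤ → ℝ} {B : Finset (ℤ × ℤ)} {e : ℤ × ℤ}
    (h1 : ∀ z, f z ≠ 0 → z ∈ B) (h2 : ∀ z, f z ≠ 0 → z + e ∈ B) :
    ∑ z ∈ B, f (z - e) = ∑ z ∈ B, f z := by
  refine Finset.sum_bij_ne_zero (fun z _ _ => z - e) ?_ ?_ ?_ ?_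
  · intro z _ hz
    exact h1 _ hz
  · intro a _ _ b _ _ hab
    exact sub_left_injective hab
  · intro b _ hb
    refine ⟨b + e, h2 b hb, ?_, ?_⟩
    · rw [add_sub_cancel_right]; exact hb
    · exact add_sub_cancel_right b e
  · intro z _ _
    rfl

theorem ph_supp {r : ℕ} {z : ℤ × ℤ} (h : ph r z ≠ 0) : nn z ≤ r := by
  by_contra hc
  apply h
  unfold ph
  rw [if_neg (by omega)]

theorem pv_supp {r : ℕ} {z : ℤ × ℤ} (h : pv r z ≠ 0) : nn z ≤ r := by
  by_contra hc
  apply h
  unfold pv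
  rw [if_neg (by omega)]

theorem psi_supp {r : ℕ} {z : ℤ × ℤ} (h : psi r z ≠ 0) : nn z ≤ r := by
  by_contra hc
  apply h
  unfold psi
  rw [max_eq_left (by omega)]

theorem rim_supp {r : ℕ} {z : ℤ × ℤ} (h : rim r z ≠ 0) : nn z ≤ r := by
  by_contra hc
  apply h
  unfold rim
  rw [if_neg (by omega)]

theorem rim_nonneg (r : ℕ) (z : ℤ × ℤ) : 0 ≤ rim r z := by
  unfold rim; split_ifs <;> norm_num

/-- **discrete Stokes formula** for the pyramid -/
theorem stokes (r : ℕ) {B : Finset (ℤ × ℤ)}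
    (hB : ∀ z, nn z ≤ r → z ∈ B ∧ z + (1, 0) ∈ B ∧ z + (0, 1) ∈ B) (H V : ℤ × ℤ → ℝ) :
    |∑ z ∈ B, 1 / 2 * ((ph r z : ℝ) * (H z + H (z + (0, 1))) +
        (pv r z : ℝ) * (V z + V (z + (1, 0)))) -
      ∑ z ∈ B, (psi r z : ℝ) * (H (z + (0, 1)) + V z - H z - V (z + (1, 0)))| ≤
    1 / 2 * ∑ z ∈ B, (rim r z : ℝ) * (|H z| + |H (z + (0, 1))| + |V z| + |V (z + (1, 0))|) := by
  have hsh : ∀ (u : ℤ × ℤ → ℤ) (F : ℤ × ℤ → ℝ) (e : ℤ × ℤ), (∀ z, u z ≠ 0 → nn z ≤ r) →
      (e = (1, 0) ∨ e = (0, 1)) → ∑ z ∈ B, (u z : ℝ) * F (z + e) =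
        ∑ z ∈ B, (u (z - e) : ℝ) * F z := by
    intro u F e hu he
    have h := box_shift (f := fun z => (u z : ℝ) * F (z + e)) (B := B) (e := e)
      (fun z hz => (hB z (hu z (fun h0 => hz (by simp [h0])))).1)
      (fun z hz => by
        have h3 := hB z (hu z (fun h0 => hz (by simp [h0])))
        rcases he with he | he
        · rw [he]; exact h3.2.1
        · rw [he]; exact h3.2.2)
    rw [← h]
    refine Finset.sum_congr rfl fun z _ => ?_
    rw [sub_add_cancel]
  have p1 := hsh (ph r) H (0, 1) (fun z => ph_supp) (Or.inr rfl)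
  have p2 := hsh (pv r) V (1, 0) (fun z => pv_supp) (Or.inl rfl)
  have p3 := hsh (psi r) H (0, 1) (fun z => psi_supp) (Or.inr rfl)
  have p4 := hsh (psi r) V (1, 0) (fun z => psi_supp) (Or.inl rfl)
  have p5 := hsh (rim r) (fun z => |H z|) (0, 1) (fun z => rim_supp) (Or.inr rfl)
  have p6 := hsh (rim r) (fun z => |V z|) (1, 0) (fun z => rim_supp) (Or.inl rfl)
  have e1 : ∑ z ∈ B, 1 / 2 * ((ph r z : ℝ) * (H z + H (z + (0, 1))) +
        (pv r z : ℝ) * (V z + V (z + (1, 0)))) -
      ∑ z ∈ B, (psi r z : ℝ) * (H (z + (0, 1)) + V z - H z - V (z + (1, 0))) =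
      ∑ z ∈ B, 1 / 2 * (H z * (((ph r z + ph r (z - (0, 1))) -
          2 * (psi r (z - (0, 1)) - psi r z) : ℤ) : ℝ) +
        V z * (((pv r z + pv r (z - (1, 0))) - 2 * (psi r z - psi r (z - (1, 0))) : ℤ) : ℝ)) := by
    have a1 : ∑ z ∈ B, 1 / 2 * ((ph r z : ℝ) * (H z + H (z + (0, 1))) +
        (pv r z : ℝ) * (V z + V (z + (1, 0)))) =
        1 / 2 * (∑ z ∈ B, (ph r z : ℝ) * H z + ∑ z ∈ B, (ph r z : ℝ) * H (z + (0, 1)) +
          ∑ z ∈ B, (pv r z : ℝ) * V z + ∑ z ∈ B, (pv r z : ℝ) * V (z + (1, 0))) := by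
      rw [← Finset.mul_sum]
      simp only [← Finset.sum_add_distrib]
      congr 1
      exact Finset.sum_congr rfl fun z _ => by ring
    have a2 : ∑ z ∈ B, (psi r z : ℝ) * (H (z + (0, 1)) + V z - H z - V (z + (1, 0))) =
        ∑ z ∈ B, (psi r z : ℝ) * H (z + (0, 1)) + ∑ z ∈ B, (psi r z : ℝ) * V z -
          ∑ z ∈ B, (psi r z : ℝ) * H z - ∑ z ∈ B, (psi r z : ℝ) * V (z + (1, 0)) := by
      simp only [← Finset.sum_add_distrib, ← Finset.sum_sub_distrib]
      exact Finset.sum_congr rfl fun z _ => by ring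
    rw [a1, a2, p1, p2, p3, p4]
    simp only [← Finset.sum_add_distrib, ← Finset.sum_sub_distrib, Finset.mul_sum]
    refine Finset.sum_congr rfl fun z _ => ?_
    push_cast
    ring
  have e2 : ∑ z ∈ B, (rim r z : ℝ) * (|H z| + |H (z + (0, 1))| + |V z| + |V (z + (1, 0))|) =
      ∑ z ∈ B, (|H z| * ((rim r z + rim r (z - (0, 1)) : ℤ) : ℝ) +
        |V z| * ((rim r z + rim r (z - (1, 0)) : ℤ) : ℝ)) := by
    have a1 : ∑ z ∈ B, (rim r z : ℝ) * (|H z| + |H (z + (0, 1))| + |V z| + |V (z + (1, 0))|) =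
        ∑ z ∈ B, (rim r z : ℝ) * |H z| + ∑ z ∈ B, (rim r z : ℝ) * |H (z + (0, 1))| +
          ∑ z ∈ B, (rim r z : ℝ) * |V z| + ∑ z ∈ B, (rim r z : ℝ) * |V (z + (1, 0))| := by
      simp only [← Finset.sum_add_distrib]
      exact Finset.sum_congr rfl fun z _ => by ring
    rw [a1, p5, p6]
    simp only [← Finset.sum_add_distrib]
    refine Finset.sum_congr rfl fun z _ => ?_
    push_cast
    ring
  rw [e1, e2, Finset.mul_sum]
  refine (Finset.abs_sum_le_sum_abs _ _).trans (Finset.sum_le_sum fun z _ => ?_)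
  have h1 := err_h r z
  have h2 := err_v r z
  obtain ⟨u, hu⟩ : ∃ u : ℤ, u = ph r z + ph r (z - (0, 1)) - 2 * (psi r (z - (0, 1)) - psi r z) :=
    ⟨_, rfl⟩
  obtain ⟨v, hv⟩ : ∃ v : ℤ, v = pv r z + pv r (z - (1, 0)) - 2 * (psi r z - psi r (z - (1, 0))) :=
    ⟨_, rfl⟩
  rw [← hu] at h1 ⊢
  rw [← hv] at h2 ⊢
  have h1' : |(u : ℝ)| ≤ ((rim r z + rim r (z - (0, 1)) : ℤ) : ℝ) := by
    rw [← Int.cast_abs]; exact_mod_cast h1
  have h2' : |(v : ℝ)| ≤ ((rim r z + rim r (z - (1, 0)) : ℤ) : ℝ) := by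
    rw [← Int.cast_abs]; exact_mod_cast h2
  rw [abs_mul, abs_of_nonneg (show (0 : ℝ) ≤ 1 / 2 by norm_num)]
  refine mul_le_mul_of_nonneg_left ?_ (by norm_num)
  refine (abs_add_le _ _).trans ?_
  rw [abs_mul, abs_mul]
  exact add_le_add (mul_le_mul_of_nonneg_left h1' (abs_nonneg _))
    (mul_le_mul_of_nonneg_left h2' (abs_nonneg _))

/-- the number of cells cut by the rim of the diamond -/
theorem rim_card (M : ℕ) (B : Finset (ℤ × ℤ)) : (B.filter fun k => nn k = M).card ≤ 4 * M := by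
  classical
  have h1 : (B.filter fun k => nn k = M) ⊆
      ((Finset.Ico (-(M : ℤ)) M) ×ˢ (Finset.univ : Finset Bool)).image
        (fun x => (x.1, if x.2 then (M : ℤ) - 1 - (if 0 ≤ x.1 then x.1 else -1 - x.1)
          else -1 - ((M : ℤ) - 1 - (if 0 ≤ x.1 then x.1 else -1 - x.1)))) := by
    intro k hk
    rw [Finset.mem_filter] at hk
    obtain ⟨-, hk⟩ := hk
    rw [Finset.mem_image]
    obtain ⟨k1, k2⟩ := k
    unfold nn at hk
    simp only at hk
    refine ⟨(k1, decide (0 ≤ k2)), ?_, ?_⟩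
    · rw [Finset.mem_product, Finset.mem_Ico]
      refine ⟨?_, Finset.mem_univ _⟩
      simp only
      split_ifs at hk <;> omega
    · refine Prod.ext rfl ?_
      simp only [decide_eq_true_eq]
      by_cases a1 : 0 ≤ k1 <;> by_cases a2 : 0 ≤ k2
      · rw [if_pos a1, if_pos a2] at hk
        rw [if_pos a2, if_pos a1]
        omega
      · rw [if_pos a1, if_neg a2] at hk
        rw [if_neg a2, if_pos a1]
        omega
      · rw [if_neg a1, if_pos a2] at hk
        rw [if_pos a2, if_neg a1]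
        omega
      · rw [if_neg a1, if_neg a2] at hk
        rw [if_neg a2, if_neg a1]
        omega
  refine (Finset.card_le_card h1).trans (Finset.card_image_le.trans ?_)
  rw [Finset.card_product, Int.card_Ico, Finset.card_univ, Fintype.card_bool]
  omega

/-- the number of cells inside the diamond -/
theorem in_card (M : ℕ) (B : Finset (ℤ × ℤ)) :
    (B.filter fun k => nn k < M).card ≤ 2 * M ^ 2 := by
  classical
  induction M with
  | zero =>
    rw [Finset.card_eq_zero.2]
    · simp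
    · rw [Finset.filter_eq_empty_iff]
      intro k _
      have := nn_pos k
      push_cast
      omega
  | succ M ih =>
    have h1 : (B.filter fun k => nn k < ((M + 1 : ℕ) : ℤ)) ⊆
        (B.filter fun k => nn k < M) ∪ (B.filter fun k => nn k = M) := by
      intro k hk
      rw [Finset.mem_union, Finset.mem_filter, Finset.mem_filter]
      rw [Finset.mem_filter] at hk
      obtain ⟨h1, h2⟩ := hk
      push_cast at h2
      rcases lt_or_eq_of_le (Int.lt_add_one_iff.1 h2) with h3 | h3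
      · exact Or.inl ⟨h1, h3⟩
      · exact Or.inr ⟨h1, h3⟩
    have h2 := (Finset.card_le_card h1).trans (Finset.card_union_le _ _)
    have h3 := rim_card M B
    calc _ ≤ 2 * M ^ 2 + 4 * M := by linarith
      _ ≤ 2 * (M + 1) ^ 2 := by nlinarith

/-- the curl of a field of increments on a unit cell -/
def curl (A : Fld) (z : ℤ × ℤ) : ℝ :=
  A (false, true) z + A (true, false) z - A (false, false) z - A (true, true) z

/-- the two halves of a bond carry the same increment -/
def Cns (A : Fld) : Prop :=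
  (∀ z, A (false, true) z = A (false, false) (z + (0, 1))) ∧
    ∀ z, A (true, true) z = A (true, false) (z + (1, 0))

theorem sum_bb (F : Bool × Bool → ℝ) : ∑ t, F t =
    F (false, false) + F (false, true) + F (true, false) + F (true, true) := by
  rw [Fintype.sum_prod_type]
  simp only [Fintype.sum_bool]
  ring

/-- **circulation against a pyramid** -/
theorem circ_pyr {A : Fld} (hA : Cns A) {q w : ℤ × ℤ} {r : ℕ} {B : Finset (ℤ × ℤ)} {Y : ℝ}
    (hB : ∀ z, nn (z - q) ≤ r → z ∈ B ∧ z + (1, 0) ∈ B ∧ z + (0, 1) ∈ B)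
    (hc : ∀ z ∈ B, z ≠ w → curl A z = 0) (hw : curl A w = 2 * Real.pi)
    (hY : ∀ z, nn (z - q) = r → ∀ t, |A t z| ≤ Y) :
    |∑ z ∈ B, 1 / 2 * ∑ t : Bool × Bool, pyr r q t z * A t z -
      2 * Real.pi * (psi r (w - q) : ℝ)| ≤ 8 * r * Y := by
  classical
  obtain ⟨B', hB'⟩ : ∃ B' : Finset (ℤ × ℤ), B' = B.image fun z => z - q := ⟨_, rfl⟩
  have hinj : Function.Injective fun z : ℤ × ℤ => z - q := sub_left_injective
  have hsum : ∀ f : ℤ × ℤ → ℝ, ∑ z ∈ B', f z = ∑ z ∈ B, f (z - q) := by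
    intro f
    rw [hB', Finset.sum_image fun a _ b _ h => hinj h]
  have hmem : ∀ z, z + q ∈ B → z ∈ B' := by
    intro z hz
    rw [hB', Finset.mem_image]
    exact ⟨z + q, hz, add_sub_cancel_right z q⟩
  obtain ⟨H, hH⟩ : ∃ H : ℤ × ℤ → ℝ, H = fun z => A (false, false) (z + q) := ⟨_, rfl⟩
  obtain ⟨V, hV⟩ : ∃ V : ℤ × ℤ → ℝ, V = fun z => A (true, false) (z + q) := ⟨_, rfl⟩
  have hH1 : ∀ z, H (z + (0, 1)) = A (false, true) (z + q) := by
    intro z
    rw [hH, hA.1]
    simp only
    congr 1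
    abel
  have hV1 : ∀ z, V (z + (1, 0)) = A (true, true) (z + q) := by
    intro z
    rw [hV, hA.2]
    simp only
    congr 1
    abel
  have hS := stokes r (B := B') (fun z hz => by
    have h := hB (z + q) (by rwa [add_sub_cancel_right])
    refine ⟨hmem z h.1, hmem _ ?_, hmem _ ?_⟩
    · have : z + (1, 0) + q = z + q + (1, 0) := by abel
      rw [this]; exact h.2.1
    · have : z + (0, 1) + q = z + q + (0, 1) := by abel
      rw [this]; exact h.2.2) H V
  rw [hsum, hsum, hsum] at hS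
  have e1 : ∑ z ∈ B, 1 / 2 * ((ph r (z - q) : ℝ) * (H (z - q) + H (z - q + (0, 1))) +
        (pv r (z - q) : ℝ) * (V (z - q) + V (z - q + (1, 0)))) =
      ∑ z ∈ B, 1 / 2 * ∑ t : Bool × Bool, pyr r q t z * A t z := by
    refine Finset.sum_congr rfl fun z _ => ?_
    rw [hH1, hV1, sum_bb, hH, hV]
    simp only [sub_add_cancel, pyr, Bool.false_eq_true, if_false, if_true]
    ring
  have e2 : ∑ z ∈ B, (psi r (z - q) : ℝ) * (H (z - q + (0, 1)) + V (z - q) - H (z - q) -
      V (z - q + (1, 0))) = 2 * Real.pi * (psi r (w - q) : ℝ) := by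
    have a1 : ∀ z, H (z - q + (0, 1)) + V (z - q) - H (z - q) - V (z - q + (1, 0)) = curl A z := by
      intro z
      rw [hH1, hV1, hH, hV]
      simp only [sub_add_cancel]
      rfl
    simp only [a1]
    by_cases hwB : w ∈ B
    · rw [Finset.sum_eq_single w, hw]
      · ring
      · intro z hz hzw
        rw [hc z hz hzw, mul_zero]
      · intro h
        exact absurd hwB h
    · have hp : psi r (w - q) = 0 := by
        by_contra h0
        exact hwB (hB w (psi_supp h0)).1
      rw [hp, Int.cast_zero, mul_zero]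
      refine Finset.sum_eq_zero fun z hz => ?_
      rw [hc z hz (fun h => hwB (h ▸ hz)), mul_zero]
  rw [e1, e2] at hS
  refine hS.trans ?_
  have h1 : ∀ z ∈ B, (rim r (z - q) : ℝ) * (|H (z - q)| + |H (z - q + (0, 1))| + |V (z - q)| +
      |V (z - q + (1, 0))|) ≤ if nn (z - q) = r then 4 * Y else 0 := by
    intro z _
    unfold rim
    split_ifs with h
    · rw [hH1, hV1, hH, hV]
      simp only [sub_add_cancel]
      have b1 := hY z h (false, false)
      have b2 := hY z h (false, true)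
      have b3 := hY z h (true, false)
      have b4 := hY z h (true, true)
      push_cast
      linarith only [b1, b2, b3, b4]
    · simp
  have h2 := Finset.sum_le_sum h1
  rw [← Finset.sum_filter, Finset.sum_const, nsmul_eq_mul] at h2
  have h3 : ((B.filter fun z => nn (z - q) = r).card : ℝ) ≤ 4 * r := by
    have h4 : (B.filter fun z => nn (z - q) = r).card ≤ (B'.filter fun k => nn k = r).card := by
      rw [← Finset.card_image_of_injective (B.filter fun z => nn (z - q) = r) hinj]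
      refine Finset.card_le_card ?_
      intro k hk
      rw [Finset.mem_image] at hk
      obtain ⟨z, hz, hk⟩ := hk
      rw [Finset.mem_filter] at hz ⊢
      subst hk
      refine ⟨?_, hz.2⟩
      rw [hB', Finset.mem_image]
      exact ⟨z, hz.1, rfl⟩
    exact_mod_cast h4.trans (rim_card r B')
  rcases Nat.eq_zero_or_pos (B.filter fun z => nn (z - q) = r).card with h0 | h0
  · rw [h0] at h2
    simp only [Nat.cast_zero, zero_mul] at h2
    have hYr : 0 ≤ (r : ℝ) * Y := by
      rcases Nat.eq_zero_or_pos r with hr | hr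
      · rw [hr]; simp
      · have h5 := hY (((r : ℤ) - 1, 0) + q) (by
          rw [add_sub_cancel_right]
          unfold nn
          simp only
          rw [if_pos (by omega), if_pos le_rfl]
          omega) (false, false)
        exact mul_nonneg (by positivity) ((abs_nonneg _).trans h5)
    linarith only [h2, hYr]
  · have hY0 : 0 ≤ Y := by
      obtain ⟨z, hz⟩ := Finset.card_pos.1 h0
      rw [Finset.mem_filter] at hz
      exact (abs_nonneg _).trans (hY z hz.2 (false, false))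
    have h5 := mul_le_mul_of_nonneg_right h3 (show 0 ≤ 4 * Y by positivity)
    linarith only [h2, h5]

end Vale.Agent.P159.UJ.H253
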