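import Vale.Agent.P159.H253.Circ
import Vale.Agent.P159.H529.Core

/-!
# The curl of the increments of the vortex
-/

set_option linter.all false

open scoped BigOperators

namespace Vale.Agent.P159.UJ.H253

open H282

/-- the increments of the displaced vortex as a field -/
noncomputable def AA (L : ℕ) (P : ℂ) : Fld := fun t z => inc L P (z + l1o t) (z + l1p t)

theorem cns_AA (L : ℕ) (P : ℂ) : Cns (AA L P) := by
  constructor
  · intro z
    unfold AA
    have e1 : z + l1o (false, true) = z + (0, 1) + l1o (false, false) := by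
      simp [l1o]
    have e2 : z + l1p (false, true) = z + (0, 1) + l1p (false, false) := by
      simp [l1o, l1p, add_assoc]
    rw [e1, e2]
  · intro z
    unfold AA
    have e1 : z + l1o (true, true) = z + (1, 0) + l1o (true, false) := by
      simp [l1o]
    have e2 : z + l1p (true, true) = z + (1, 0) + l1p (true, false) := by
      simp [l1o, l1p, add_assoc]
    rw [e1, e2]

/-- position relative to the centre of the cell `w` -/
noncomputable def uu (w z : ℤ × ℤ) : ℂ := ⟨(z.1 : ℝ) - w.1 - 1 / 2, (z.2 : ℝ) - w.2 - 1 / 2⟩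

theorem half_int (a b : ℤ) : (1 : ℝ) / 4 ≤ ((a : ℝ) - b - 1 / 2) ^ 2 := by
  have h : (0 : ℤ) ≤ (a - b) * (a - b - 1) := by
    rcases le_or_gt (a - b) 0 with h | h
    · exact mul_nonneg_of_nonpos_of_nonpos h (by linarith)
    · exact mul_nonneg h.le (by linarith)
  have h' : (0 : ℝ) ≤ ((a : ℝ) - b) * (a - b - 1) := by exact_mod_cast h
  nlinarith only [h']

theorem uu_ne (w z : ℤ × ℤ) : uu w z ≠ 0 := by
  intro h
  have h1 : (uu w z).re = 0 := by rw [h]; rfl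
  have h2 := half_int z.1 w.1
  unfold uu at h1
  simp only at h1
  rw [h1] at h2
  norm_num at h2

theorem re_div_sign {u v : ℂ} (hv : v ≠ 0) (h : 0 ≤ u.re * v.re + u.im * v.im) :
    0 ≤ (u / v).re := by
  rw [Complex.div_re]
  have h1 : 0 < Complex.normSq v := Complex.normSq_pos.2 hv
  rw [← add_div]
  exact div_nonneg h h1.le

theorem re_div_sign' {u v : ℂ} (hv : v ≠ 0) (h : 0 < u.re * v.re + u.im * v.im) :
    0 < (u / v).re := by
  rw [Complex.div_re]
  have h1 : 0 < Complex.normSq v := Complex.normSq_pos.2 hv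
  rw [← add_div]
  exact div_pos h h1

/-- the increment along a bond is at most `π / 2` -/
theorem bond_le (w z : ℤ × ℤ) {e : ℤ × ℤ} (he : e = (1, 0) ∨ e = (0, 1)) :
    |Complex.arg (uu w z / uu w (z + e))| ≤ Real.pi / 2 := by
  rw [Complex.abs_arg_le_pi_div_two_iff]
  apply re_div_sign (uu_ne _ _)
  have h1 := half_int z.1 w.1
  have h2 := half_int z.2 w.2
  have h3 : (0 : ℤ) ≤ (z.1 - w.1) * (z.1 - w.1 - 1) := by
    rcases le_or_gt (z.1 - w.1) 0 with h | h
    · exact mul_nonneg_of_nonpos_of_nonpos h (by linarith)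
    · exact mul_nonneg h.le (by linarith)
  rcases he with he | he
  · subst he
    unfold uu
    simp only [Prod.fst_add, Prod.snd_add, add_zero]
    push_cast
    have h4 : -(1 : ℝ) / 4 ≤ ((z.1 : ℝ) - w.1 - 1 / 2) * ((z.1 : ℝ) + 1 - w.1 - 1 / 2) := by
      nlinarith only [sq_nonneg ((z.1 : ℝ) - w.1)]
    nlinarith only [h2, h4]
  · subst he
    unfold uu
    simp only [Prod.fst_add, Prod.snd_add, add_zero]
    push_cast
    have h4 : -(1 : ℝ) / 4 ≤ ((z.2 : ℝ) - w.2 - 1 / 2) * ((z.2 : ℝ) + 1 - w.2 - 1 / 2) := by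
      nlinarith only [sq_nonneg ((z.2 : ℝ) - w.2)]
    nlinarith only [h1, h4]

/-- the increment along a bond which does not belong to the cell `w` is less than `π / 2` -/
theorem bond_lt_h (w z : ℤ × ℤ) (h : z.2 < w.2 ∨ w.2 + 1 < z.2) :
    |Complex.arg (uu w z / uu w (z + (1, 0)))| < Real.pi / 2 := by
  rw [Complex.abs_arg_lt_pi_div_two_iff]
  left
  apply re_div_sign' (uu_ne _ _)
  unfold uu
  simp only [Prod.fst_add, Prod.snd_add, add_zero]
  push_cast
  have h4 : -(1 : ℝ) / 4 ≤ ((z.1 : ℝ) - w.1 - 1 / 2) * ((z.1 : ℝ) + 1 - w.1 - 1 / 2) := by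
    nlinarith only [sq_nonneg ((z.1 : ℝ) - w.1)]
  have h5 : (1 : ℝ) ≤ ((z.2 : ℝ) - w.2 - 1 / 2) ^ 2 := by
    rcases h with h | h
    · have h6 : (z.2 : ℝ) + 1 ≤ w.2 := by exact_mod_cast h
      nlinarith only [h6]
    · have h6 : (w.2 : ℝ) + 1 + 1 ≤ z.2 := by exact_mod_cast h
      nlinarith only [h6]
  nlinarith only [h4, h5]

theorem bond_lt_v (w z : ℤ × ℤ) (h : z.1 < w.1 ∨ w.1 + 1 < z.1) :
    |Complex.arg (uu w z / uu w (z + (0, 1)))| < Real.pi / 2 := by
  rw [Complex.abs_arg_lt_pi_div_two_iff]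
  left
  apply re_div_sign' (uu_ne _ _)
  unfold uu
  simp only [Prod.fst_add, Prod.snd_add, add_zero]
  push_cast
  have h4 : -(1 : ℝ) / 4 ≤ ((z.2 : ℝ) - w.2 - 1 / 2) * ((z.2 : ℝ) + 1 - w.2 - 1 / 2) := by
    nlinarith only [sq_nonneg ((z.2 : ℝ) - w.2)]
  have h5 : (1 : ℝ) ≤ ((z.1 : ℝ) - w.1 - 1 / 2) ^ 2 := by
    rcases h with h | h
    · have h6 : (z.1 : ℝ) + 1 ≤ w.1 := by exact_mod_cast h
      nlinarith only [h6]
    · have h6 : (w.1 : ℝ) + 1 + 1 ≤ z.1 := by exact_mod_cast h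
      nlinarith only [h6]
  nlinarith only [h4, h5]

/-- the four increments of the cell `z` -/
theorem curl_eq {L : ℕ} {P : ℂ} {w z : ℤ × ℤ}
    (h : ∀ y : ℤ × ℤ, (y.1 = 0 ∨ y.1 = 1) → (y.2 = 0 ∨ y.2 = 1) → wf L P (z + y) = uu w (z + y)) :
    curl (AA L P) z = Complex.arg (uu w (z + (0, 1)) / uu w (z + (0, 1) + (1, 0))) +
      Complex.arg (uu w z / uu w (z + (0, 1))) - Complex.arg (uu w z / uu w (z + (1, 0))) -
      Complex.arg (uu w (z + (1, 0)) / uu w (z + (1, 0) + (0, 1))) := by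
  have h00 := h 0 (Or.inl rfl) (Or.inl rfl)
  have h10 := h (1, 0) (Or.inr rfl) (Or.inl rfl)
  have h01 := h (0, 1) (Or.inl rfl) (Or.inr rfl)
  have h11 := h (1, 1) (Or.inr rfl) (Or.inr rfl)
  rw [add_zero] at h00
  have e1 : z + (0, 1) + (1, 0) = z + (1, 1) := by rw [add_assoc]; rfl
  have e2 : z + (1, 0) + (0, 1) = z + (1, 1) := by rw [add_assoc]; rfl
  have g1 : z + l1o (false, true) = z + (0, 1) := by simp [l1o]
  have g2 : z + l1p (false, true) = z + (1, 1) := by simp [l1o, l1p]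
  have g3 : z + l1o (true, false) = z := by simp [l1o]
  have g4 : z + l1p (true, false) = z + (0, 1) := by simp [l1o, l1p]
  have g5 : z + l1o (false, false) = z := by simp [l1o]
  have g6 : z + l1p (false, false) = z + (1, 0) := by simp [l1o, l1p]
  have g7 : z + l1o (true, true) = z + (1, 0) := by simp [l1o]
  have g8 : z + l1p (true, true) = z + (1, 1) := by simp [l1o, l1p]
  unfold curl AA inc
  rw [g1, g2, g3, g4, g5, g6, g7, g8, h00, h10, h01, h11, e1, e2]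

/-- the curl vanishes off the cell of the vortex -/
theorem curl_zero {L : ℕ} {P : ℂ} {w z : ℤ × ℤ}
    (h : ∀ y : ℤ × ℤ, (y.1 = 0 ∨ y.1 = 1) → (y.2 = 0 ∨ y.2 = 1) → wf L P (z + y) = uu w (z + y))
    (hz : z ≠ w) : curl (AA L P) z = 0 := by
  rw [curl_eq h]
  obtain ⟨a1, ha1⟩ : ∃ a, a = Complex.arg (uu w (z + (0, 1)) / uu w (z + (0, 1) + (1, 0))) :=
    ⟨_, rfl⟩
  obtain ⟨a2, ha2⟩ : ∃ a, a = Complex.arg (uu w z / uu w (z + (0, 1))) := ⟨_, rfl⟩
  obtain ⟨a3, ha3⟩ : ∃ a, a = Complex.arg (uu w z / uu w (z + (1, 0))) := ⟨_, rfl⟩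
  obtain ⟨a4, ha4⟩ : ∃ a, a = Complex.arg (uu w (z + (1, 0)) / uu w (z + (1, 0) + (0, 1))) :=
    ⟨_, rfl⟩
  rw [← ha1, ← ha2, ← ha3, ← ha4]
  have e1 : z + (0, 1) + (1, 0) = z + (1, 0) + (0, 1) := by abel
  have hang : ((a1 + a2 - a3 - a4 : ℝ) : Real.Angle) = 0 := by
    rw [Real.Angle.coe_sub, Real.Angle.coe_sub, Real.Angle.coe_add, ha1, ha2, ha3, ha4,
      Complex.arg_div_coe_angle (uu_ne _ _) (uu_ne _ _),
      Complex.arg_div_coe_angle (uu_ne _ _) (uu_ne _ _),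
      Complex.arg_div_coe_angle (uu_ne _ _) (uu_ne _ _),
      Complex.arg_div_coe_angle (uu_ne _ _) (uu_ne _ _), e1]
    abel
  rw [Real.Angle.coe_eq_zero_iff] at hang
  obtain ⟨n, hn⟩ := hang
  have b1 : |a1| ≤ Real.pi / 2 := by rw [ha1]; exact bond_le _ _ (Or.inl rfl)
  have b2 : |a2| ≤ Real.pi / 2 := by rw [ha2]; exact bond_le _ _ (Or.inr rfl)
  have b3 : |a3| ≤ Real.pi / 2 := by rw [ha3]; exact bond_le _ _ (Or.inl rfl)
  have b4 : |a4| ≤ Real.pi / 2 := by rw [ha4]; exact bond_le _ _ (Or.inr rfl)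
  have hs : |a1| < Real.pi / 2 ∨ |a2| < Real.pi / 2 ∨ |a3| < Real.pi / 2 ∨
      |a4| < Real.pi / 2 := by
    have hne : z.1 ≠ w.1 ∨ z.2 ≠ w.2 := by
      by_contra hc
      push Not at hc
      exact hz (Prod.ext hc.1 hc.2)
    rcases hne with hne | hne
    · rcases lt_or_gt_of_ne hne with h1 | h1
      · right; left
        rw [ha2]
        exact bond_lt_v w z (Or.inl h1)
      · right; right; right
        rw [ha4]
        refine bond_lt_v w (z + (1, 0)) (Or.inr ?_)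
        rw [Prod.fst_add]
        show w.1 + 1 < z.1 + 1
        omega
    · rcases lt_or_gt_of_ne hne with h1 | h1
      · right; right; left
        rw [ha3]
        exact bond_lt_h w z (Or.inl h1)
      · left
        rw [ha1]
        refine bond_lt_h w (z + (0, 1)) (Or.inr ?_)
        rw [Prod.snd_add]
        show w.2 + 1 < z.2 + 1
        omega
  rw [abs_le] at b1 b2 b3 b4
  have hlt : |a1 + a2 - a3 - a4| < 2 * Real.pi := by
    rw [abs_lt]
    rcases hs with hs | hs | hs | hs <;> rw [abs_lt] at hs <;> constructor <;> linarith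
  rw [← hn, zsmul_eq_mul, abs_mul, abs_of_pos Real.two_pi_pos] at hlt
  have hn0 : |(n : ℝ)| < 1 := by
    have := Real.two_pi_pos
    by_contra hc
    push Not at hc
    nlinarith only [hlt, this, hc]
  have hn1 : n = 0 := by
    rw [← Int.cast_abs] at hn0
    have : |n| < 1 := by exact_mod_cast hn0
    exact Int.abs_lt_one_iff.1 this
  rw [← hn, hn1, zero_smul]

/-- the curl on the cell of the vortex -/
theorem curl_w {L : ℕ} {P : ℂ} {w : ℤ × ℤ}
    (h : ∀ y : ℤ × ℤ, (y.1 = 0 ∨ y.1 = 1) → (y.2 = 0 ∨ y.2 = 1) → wf L P (w + y) = uu w (w + y)) :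
    curl (AA L P) w = 2 * Real.pi := by
  rw [curl_eq h]
  have u00 : uu w w = ⟨-(1 / 2), -(1 / 2)⟩ := by
    unfold uu; congr 1 <;> ring
  have u10 : uu w (w + (1, 0)) = ⟨1 / 2, -(1 / 2)⟩ := by
    unfold uu
    simp only [Prod.fst_add, Prod.snd_add, add_zero]
    push_cast
    congr 1 <;> ring
  have u01 : uu w (w + (0, 1)) = ⟨-(1 / 2), 1 / 2⟩ := by
    unfold uu
    simp only [Prod.fst_add, Prod.snd_add, add_zero]
    push_cast
    congr 1 <;> ring
  have u11 : uu w (w + (1, 0) + (0, 1)) = ⟨1 / 2, 1 / 2⟩ := by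
    unfold uu
    simp only [Prod.fst_add, Prod.snd_add, add_zero]
    push_cast
    congr 1 <;> ring
  have e1 : w + (0, 1) + (1, 0) = w + (1, 0) + (0, 1) := by abel
  rw [e1, u00, u10, u01, u11]
  have hI : ∀ u v : ℂ, v ≠ 0 → u = Complex.I * v → Complex.arg (u / v) = Real.pi / 2 := by
    intro u v hv huv
    rw [huv, mul_div_assoc, div_self hv, mul_one, Complex.arg_I]
  have hI' : ∀ u v : ℂ, v ≠ 0 → u = -Complex.I * v → Complex.arg (u / v) = -(Real.pi / 2) := by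
    intro u v hv huv
    rw [huv, mul_div_assoc, div_self hv, mul_one, Complex.arg_neg_I]
  have hne : ∀ x y : ℝ, x ≠ 0 → (⟨x, y⟩ : ℂ) ≠ 0 := by
    intro x y hx h0
    exact hx (congrArg Complex.re h0)
  rw [hI ⟨-(1 / 2), 1 / 2⟩ ⟨1 / 2, 1 / 2⟩ (hne _ _ (by norm_num)) (by
      apply Complex.ext <;> simp),
    hI ⟨-(1 / 2), -(1 / 2)⟩ ⟨-(1 / 2), 1 / 2⟩ (hne _ _ (by norm_num)) (by
      apply Complex.ext <;> simp),
    hI' ⟨-(1 / 2), -(1 / 2)⟩ ⟨1 / 2, -(1 / 2)⟩ (hne _ _ (by norm_num)) (by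
      apply Complex.ext <;> simp),
    hI' ⟨1 / 2, -(1 / 2)⟩ ⟨1 / 2, 1 / 2⟩ (hne _ _ (by norm_num)) (by
      apply Complex.ext <;> simp)]
  ring

/-- near the centre of the block the vortex function is the position relative to the core -/
theorem wf_uu {l0 a n i j : ℕ} (hl : 1 ≤ l0) (ha : 1 ≤ a) (hn : 4 ≤ n) {z : ℤ × ℤ}
    (h1 : |(z.1 : ℝ) - ctr (l0 * 2 ^ a * 2 ^ n)| ≤ ((l0 * 2 ^ a * 2 ^ n : ℕ) : ℝ) / 4)
    (h2 : |(z.2 : ℝ) - ctr (l0 * 2 ^ a * 2 ^ n)| ≤ ((l0 * 2 ^ a * 2 ^ n : ℕ) : ℝ) / 4) :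
    wf (l0 * 2 ^ a * 2 ^ n) (H529.PP (l0 * 2 ^ a) i j) z = uu (H529.qq0 (l0 * 2 ^ a) n i j) z := by
  have hL : 0 < l0 * 2 ^ a * 2 ^ n := by positivity
  have hk := kk_eq_one hL h1 h2
  have c1 := H529.cen1' (l0 := l0) (a := a) (n := n) (i := i) (j := j) ha hn
  have c2 := H529.cen2' (l0 := l0) (a := a) (n := n) (i := i) (j := j) ha hn
  unfold wf
  rw [hk]
  apply Complex.ext
  · simp only [zc, cc, uu, Complex.sub_re, Complex.mul_re, Complex.ofReal_re, Complex.ofReal_im]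
    linarith only [c1]
  · simp only [zc, cc, uu, Complex.sub_im, Complex.mul_im, Complex.ofReal_re, Complex.ofReal_im]
    linarith only [c2]

end Vale.Agent.P159.UJ.H253
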