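import Vale.Agent.P159.H253.Pyr

/-!
# Frusta: the fields of the tests
-/

set_option linter.all false

open MeasureTheory
open scoped BigOperators

namespace Vale.Agent.P159.UJ.H253

open H282

/-- the frustum: current of strength one through the annulus between the diamonds of radii
`t m` and `2 t m` -/
noncomputable def fr (t m : ℕ) (p : ℤ × ℤ) : Fld :=
  (1 / ((t * m : ℕ) : ℝ)) • (pyr (t * (2 * m)) p + (-1 : ℝ) • pyr (t * m) p)

/-- indices of the squares which meet the annulus -/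
noncomputable def Ks (m : ℕ) : Finset (ℤ × ℤ) :=
  (bk (2 * m)).filter fun k => (m : ℤ) ≤ nn k ∧ nn k ≤ ((2 * m : ℕ) : ℤ)

/-- the squares of the test -/
noncomputable def Sq1 (t m : ℕ) (p : ℤ × ℤ) : Finset (ℕ × (ℤ × ℤ)) := fm t p (Ks m)

/-- the cut squares -/
noncomputable def bad1 (t m : ℕ) (p : ℤ × ℤ) : Finset (ℕ × (ℤ × ℤ)) :=
  fm t p ((Ks m).filter fun k => nn k = m ∨ nn k = ((2 * m : ℕ) : ℤ))

theorem bad1_sub (t m : ℕ) (p : ℤ × ℤ) : bad1 t m p ⊆ Sq1 t m p :=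
  fm_mono (Finset.filter_subset _ _)

theorem bad1_card (t m : ℕ) (p : ℤ × ℤ) : (bad1 t m p).card ≤ 12 * m := by
  classical
  unfold bad1
  refine (fm_card _ _ _).trans ?_
  have h1 : ((Ks m).filter fun k => nn k = m ∨ nn k = ((2 * m : ℕ) : ℤ)) ⊆
      ((Ks m).filter fun k => nn k = m) ∪ ((Ks m).filter fun k => nn k = ((2 * m : ℕ) : ℤ)) := by
    intro k hk
    rw [Finset.mem_filter] at hk
    rw [Finset.mem_union, Finset.mem_filter, Finset.mem_filter]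
    rcases hk.2 with h | h
    · exact Or.inl ⟨hk.1, h⟩
    · exact Or.inr ⟨hk.1, h⟩
  refine ((Finset.card_le_card h1).trans (Finset.card_union_le _ _)).trans ?_
  have h2 := rim_card m (Ks m)
  have h3 := rim_card (2 * m) (Ks m)
  omega

theorem bk_card (N : ℕ) : (bk N).card = (2 * N) ^ 2 := by
  unfold bk
  rw [Finset.card_product, Int.card_Ico]
  have : ((N : ℤ) - -(N : ℤ)).toNat = 2 * N := by omega
  rw [this, pow_two]

theorem Sq1_card (t m : ℕ) (p : ℤ × ℤ) : (Sq1 t m p).card ≤ 16 * m ^ 2 := by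
  unfold Sq1 Ks
  refine ((fm_card _ _ _).trans (Finset.card_filter_le _ _)).trans ?_
  rw [bk_card]
  exact le_of_eq (by ring)

theorem Sq1_sub (t m : ℕ) (p : ℤ × ℤ) : Sq1 t m p ⊆ fm t p (bk (2 * m)) :=
  fm_mono (Finset.filter_subset _ _)

theorem Sq1_side {t m : ℕ} {p : ℤ × ℤ} {q : ℕ × (ℤ × ℤ)} (hq : q ∈ Sq1 t m p) : q.1 = t := by
  unfold Sq1 at hq
  rw [mem_fm] at hq
  obtain ⟨k, -, rfl⟩ := hq
  rfl

theorem fr_eq (t m : ℕ) (p : ℤ × ℤ) (s : Bool × Bool) (z : ℤ × ℤ) :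
    fr t m p s z = 1 / ((t * m : ℕ) : ℝ) * (pyr (t * (2 * m)) p s z - pyr (t * m) p s z) := by
  unfold fr
  simp only [Pi.smul_apply, Pi.add_apply, smul_eq_mul]
  ring

theorem fr_abs (t m : ℕ) (p : ℤ × ℤ) (s : Bool × Bool) (z : ℤ × ℤ) :
    |fr t m p s z| ≤ 2 / ((t * m : ℕ) : ℝ) := by
  rw [fr_eq, abs_mul, abs_of_nonneg (show (0 : ℝ) ≤ 1 / ((t * m : ℕ) : ℝ) by positivity)]
  have h1 := abs_pyr (t * (2 * m)) p s z
  have h2 := abs_pyr (t * m) p s z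
  have h3 := abs_sub (pyr (t * (2 * m)) p s z) (pyr (t * m) p s z)
  calc _ ≤ 1 / ((t * m : ℕ) : ℝ) * 2 :=
        mul_le_mul_of_nonneg_left (by linarith) (by positivity)
    _ = _ := by ring

/-- the frustum vanishes inside the small diamond and outside the large one -/
theorem fr_zero {t m : ℕ} {p z : ℤ × ℤ} (h : nn (z - p) < ((t * m : ℕ) : ℤ) ∨
    ((t * (2 * m) : ℕ) : ℤ) ≤ nn (z - p)) (s : Bool × Bool) : fr t m p s z = 0 := by
  have hm : ((t * m : ℕ) : ℤ) ≤ ((t * (2 * m) : ℕ) : ℤ) := by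
    exact_mod_cast Nat.mul_le_mul_left t (by omega)
  rw [fr_eq]
  rcases h with h | h
  · have h1 : nn (z - p) < ((t * (2 * m) : ℕ) : ℤ) := lt_of_lt_of_le h hm
    unfold pyr ph pv
    rw [if_pos h, if_pos h, if_pos h1, if_pos h1]
    ring
  · have h1 : ¬ nn (z - p) < ((t * (2 * m) : ℕ) : ℤ) := not_lt.2 h
    have h2 : ¬ nn (z - p) < ((t * m : ℕ) : ℤ) := not_lt.2 (hm.trans h)
    unfold pyr ph pv
    rw [if_neg h2, if_neg h2, if_neg h1, if_neg h1]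
    simp

theorem Cst_smul {g : Fld} {W : ℝ} {q : ℕ × (ℤ × ℤ)} (r : ℝ) (h : Cst g W q) :
    Cst (r • g) (|r| * W) q := by
  obtain ⟨x1, x2, h1, h2, h3⟩ := h
  refine ⟨r * x1, r * x2, ?_, ?_, ?_⟩
  · rw [abs_mul]; exact mul_le_mul_of_nonneg_left h1 (abs_nonneg _)
  · rw [abs_mul]; exact mul_le_mul_of_nonneg_left h2 (abs_nonneg _)
  · rw [rs_smul, h3, smul_add, smul_smul, smul_smul]

theorem Cst_add {g k : Fld} {W W' : ℝ} {q : ℕ × (ℤ × ℤ)} (h : Cst g W q) (h' : Cst k W' q) :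
    Cst (g + k) (W + W') q := by
  obtain ⟨x1, x2, h1, h2, h3⟩ := h
  obtain ⟨y1, y2, k1, k2, k3⟩ := h'
  refine ⟨x1 + y1, x2 + y2, (abs_add_le _ _).trans (add_le_add h1 k1),
    (abs_add_le _ _).trans (add_le_add h2 k2), ?_⟩
  rw [rs_add, h3, k3, add_smul, add_smul]
  abel

theorem fr_cst {t m : ℕ} (ht : 1 ≤ t) {p k : ℤ × ℤ} (h1 : nn k ≠ m)
    (h2 : nn k ≠ ((2 * m : ℕ) : ℤ)) :
    Cst (fr t m p) (2 / ((t * m : ℕ) : ℝ)) (t, p + cor t k) := by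
  have a1 := pyr_cst (p := p) ht h2
  have a2 := Cst_smul (-1) (pyr_cst (p := p) ht h1)
  have a3 := Cst_smul (1 / ((t * m : ℕ) : ℝ)) (Cst_add a1 a2)
  have e : |1 / ((t * m : ℕ) : ℝ)| * (1 + |(-1 : ℝ)| * 1) = 2 / ((t * m : ℕ) : ℝ) := by
    rw [abs_of_nonneg (by positivity), abs_neg, abs_one]
    ring
  rw [e] at a3
  exact a3

theorem fr_cst' {t m : ℕ} (ht : 1 ≤ t) {p : ℤ × ℤ} {q : ℕ × (ℤ × ℤ)} (hq : q ∈ Sq1 t m p)
    (hq' : q ∉ bad1 t m p) : Cst (fr t m p) (2 / ((t * m : ℕ) : ℝ)) q := by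
  unfold Sq1 at hq
  rw [mem_fm] at hq
  obtain ⟨k, hk, rfl⟩ := hq
  refine fr_cst ht ?_ ?_
  · intro h
    apply hq'
    unfold bad1
    rw [mem_fm]
    exact ⟨k, Finset.mem_filter.2 ⟨hk, Or.inl h⟩, rfl⟩
  · intro h
    apply hq'
    unfold bad1
    rw [mem_fm]
    exact ⟨k, Finset.mem_filter.2 ⟨hk, Or.inr h⟩, rfl⟩

/-- position of the block of the test in the big block -/
def Pos (L ρ : ℕ) (p : ℤ × ℤ) : Prop :=
  ((10 * ρ : ℕ) : ℤ) ≤ p.1 ∧ p.1 + ((10 * ρ : ℕ) : ℤ) ≤ L ∧ ((10 * ρ : ℕ) : ℤ) ≤ p.2 ∧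
    p.2 + ((10 * ρ : ℕ) : ℤ) ≤ L

theorem Pos.fam {L t m : ℕ} {p : ℤ × ℤ} (h : Pos L (t * m) p) (ht : 1 ≤ t) :
    Fam L (fm t p (bk (2 * m))) := by
  obtain ⟨h1, h2, h3, h4⟩ := h
  have e : ((t * (2 * m) : ℕ) : ℤ) ≤ ((10 * (t * m) : ℕ) : ℤ) := by
    have : t * (2 * m) ≤ 10 * (t * m) := by nlinarith
    exact_mod_cast this
  exact fm_fam ht (Finset.Subset.refl _) (by omega) (by omega) (by omega) (by omega)

theorem Pos.fam1 {L t m : ℕ} {p : ℤ × ℤ} (h : Pos L (t * m) p) (ht : 1 ≤ t) :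
    Fam L (Sq1 t m p) := (h.fam ht).mono (Sq1_sub t m p)

theorem sqrt_mul_le {c d r : ℝ} (hd : 0 ≤ d) (hcd : c ≤ d ^ 2) (hr : 0 ≤ r) :
    Real.sqrt (c * r) ≤ d * Real.sqrt r := by
  have h1 : Real.sqrt (c * r) ≤ Real.sqrt (d ^ 2 * r) :=
    Real.sqrt_le_sqrt (mul_le_mul_of_nonneg_right hcd hr)
  rw [Real.sqrt_mul (sq_nonneg d), Real.sqrt_sq hd] at h1
  exact h1

/-- **`vS` of the frustum** -/
theorem vS_fr {b Y0 C1 : ℝ} (hb : 0 < b) (hY0 : 0 ≤ Y0) (hC1 : 0 ≤ C1) (hR : RPb b Y0 C1)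
    {L t m : ℕ} (ht : 1 ≤ t) (hm : 1 ≤ m) (hev : 2 ∣ t * m) {p : ℤ × ℤ} (hp : Pos L (t * m) p)
    (hst : Y0 ≤ stiff t b) :
    vS b L (Sq1 t m p) (fr t m p) ≤ 40 * (stiff t b - Y0) + 48 * b / m +
      10 * C1 / Real.sqrt ((t * m : ℕ) : ℝ) := by
  have hF := hp.fam ht
  have hres : vS b L (Sq1 t m p) (fr t m p) = vS b L (fm t p (bk (2 * m))) (fr t m p) := by
    refine vS_restrict hF (Sq1_sub t m p) ?_
    intro q hq hq' z hz s
    rw [mem_fm] at hq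
    obtain ⟨k, hk, rfl⟩ := hq
    apply fr_zero
    by_contra hc
    push Not at hc
    apply hq'
    unfold Sq1 Ks
    rw [mem_fm]
    refine ⟨k, Finset.mem_filter.2 ⟨hk, ?_, ?_⟩, rfl⟩
    · exact nn_idx' ht hz hc.1
    · exact nn_idx ht hz hc.2.le
  have hρ1 : 1 ≤ t * m := Nat.mul_pos ht hm
  have hev2 : 2 ∣ t * (2 * m) := ⟨t * m, by ring⟩
  obtain ⟨h1, h2, h3, h4⟩ := hp
  have e1 : ((t * (2 * m) : ℕ) : ℤ) ≤ ((10 * (t * m) : ℕ) : ℤ) := by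
    have : t * (2 * m) ≤ 10 * (t * m) := by nlinarith
    exact_mod_cast this
  have v2 := vS_pyr (L := L) (N := 2 * m) (M := 2 * m) hb hY0 hR ht (by omega) hev2 le_rfl
    (p := p) (by omega) (by omega) (by omega) (by omega) hst
  have v1 := vS_pyr (L := L) (N := 2 * m) (M := m) hb hY0 hR ht hm hev (by omega)
    (p := p) (by omega) (by omega) (by omega) (by omega) hst
  have hsub := vS_sub_le hb.le hF (pyr (t * (2 * m)) p) (pyr (t * m) p)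
  rw [hres]
  unfold fr
  rw [vS_smul]
  obtain ⟨ρ, hρ⟩ : ∃ ρ : ℝ, ρ = ((t * m : ℕ) : ℝ) := ⟨_, rfl⟩
  have hρ0 : 1 ≤ ρ := by rw [hρ]; exact_mod_cast hρ1
  have e2 : ((t * (2 * m) : ℕ) : ℝ) = 2 * ρ := by rw [hρ]; push_cast; ring
  rw [e2] at v2
  rw [← hρ] at v1 ⊢
  have hm0 : (0 : ℝ) < m := by exact_mod_cast hm
  have ht0 : (0 : ℝ) < t := by exact_mod_cast ht
  have htm : (t : ℝ) = ρ / m := by rw [hρ]; push_cast; field_simp
  have hsq := sqrt_mul_le (c := 2) (d := 2) (r := ρ) (by norm_num) (by norm_num) (by linarith)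
  obtain ⟨x, hx⟩ : ∃ x : ℝ, x = Real.sqrt ρ := ⟨_, rfl⟩
  have hx0 : 0 < x := by rw [hx]; exact Real.sqrt_pos.2 (by linarith)
  have hxx : x * x = ρ := by rw [hx]; exact Real.mul_self_sqrt (by linarith)
  rw [← hx] at v1 hsq ⊢
  have c1 : C1 * (2 * ρ * Real.sqrt (2 * ρ)) ≤ C1 * (2 * ρ * (2 * x)) := by
    refine mul_le_mul_of_nonneg_left (mul_le_mul_of_nonneg_left hsq (by linarith)) hC1
  have key : 2 * vS b L (fm t p (bk (2 * m))) (pyr (t * (2 * m)) p) +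
      2 * vS b L (fm t p (bk (2 * m))) (pyr (t * m) p) ≤
      ρ ^ 2 * (40 * (stiff t b - Y0) + 48 * b / m + 10 * C1 / x) := by
    have e3 : ρ ^ 2 * (40 * (stiff t b - Y0) + 48 * b / m + 10 * C1 / x) =
        40 * (stiff t b - Y0) * ρ ^ 2 + 48 * b * (ρ / m) * ρ + 10 * C1 * ρ * x := by
      rw [← hxx]
      field_simp
    rw [e3, ← htm]
    linarith only [v1, v2, c1]
  have h5 : 0 < ρ := by linarith
  calc (1 / ρ) ^ 2 * vS b L (fm t p (bk (2 * m))) (pyr (t * (2 * m)) p + (-1 : ℝ) • pyr (t * m) p)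
      ≤ (1 / ρ) ^ 2 * (ρ ^ 2 * (40 * (stiff t b - Y0) + 48 * b / m + 10 * C1 / x)) :=
        mul_le_mul_of_nonneg_left (hsub.trans key) (by positivity)
    _ = _ := by field_simp

theorem cor_add (t : ℕ) (k k' : ℤ × ℤ) : cor t (k + k') = cor t k + cor t k' := by
  exact Prod.ext (mul_add _ _ _) (mul_add _ _ _)

/-- **deficits on the squares of the test** -/
theorem D_fr {b Y0 C1 : ℝ} (hb : 0 < b) (hY0 : 0 ≤ Y0) (hC1 : 0 ≤ C1) (hR : RPb b Y0 C1)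
    {L t m : ℕ} (ht : 1 ≤ t) (hm : 1 ≤ m) {p : ℤ × ℤ} (hp : Pos L (t * m) p)
    (hst : Y0 ≤ stiff t b) :
    ∑ q ∈ Sq1 t m p, Ev b L 0 (dfc b q.1 q.2 (hh + vv)) +
        ∑ q ∈ Sq1 t m p, Ev b L 0 (dfc b q.1 q.2 (hh + (-1 : ℝ) • vv)) ≤
      ((t * m : ℕ) : ℝ) ^ 2 * (512 * (stiff t b - Y0) + 128 * b / m +
        48 * C1 / Real.sqrt ((t * m : ℕ) : ℝ)) := by
  obtain ⟨h1, h2, h3, h4⟩ := hp
  have e8 : t * (8 * m) = 8 * (t * m) := by ring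
  have hev8 : 2 ∣ t * (8 * m) := ⟨4 * (t * m), by ring⟩
  have hρ1 : 1 ≤ t * m := Nat.mul_pos ht hm
  obtain ⟨ρ, hρ⟩ : ∃ ρ : ℝ, ρ = ((t * m : ℕ) : ℝ) := ⟨_, rfl⟩
  have hρ0 : 1 ≤ ρ := by rw [hρ]; exact_mod_cast hρ1
  have hm0 : (0 : ℝ) < m := by exact_mod_cast hm
  have ht0 : (0 : ℝ) < t := by exact_mod_cast ht
  have htm : (t : ℝ) = ρ / m := by rw [hρ]; push_cast; field_simp
  have hsq := sqrt_mul_le (c := 8) (d := 3) (r := ρ) (by norm_num) (by norm_num) (by linarith)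
  obtain ⟨x, hx⟩ : ∃ x : ℝ, x = Real.sqrt ρ := ⟨_, rfl⟩
  have hx0 : 0 < x := by rw [hx]; exact Real.sqrt_pos.2 (by linarith)
  have hxx : x * x = ρ := by rw [hx]; exact Real.mul_self_sqrt (by linarith)
  have e8' : ((t * (8 * m) : ℕ) : ℝ) = 8 * ρ := by rw [hρ, e8]; push_cast; ring
  -- one auxiliary pyramid
  have aux : ∀ p' : ℤ × ℤ, ((t * (8 * m) : ℕ) : ℤ) ≤ p'.1 → p'.1 + ((t * (8 * m) : ℕ) : ℤ) ≤ L →
      ((t * (8 * m) : ℕ) : ℤ) ≤ p'.2 → p'.2 + ((t * (8 * m) : ℕ) : ℤ) ≤ L →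
      vS b L (fm t p' (bk (8 * m))) (pyr (t * (8 * m)) p') ≤
        ρ ^ 2 * (256 * (stiff t b - Y0) + 64 * b / m + 24 * C1 / x) := by
    intro p' g1 g2 g3 g4
    have v := vS_pyr (L := L) (N := 8 * m) (M := 8 * m) hb hY0 hR ht (by omega) hev8 le_rfl
      (p := p') g1 g2 g3 g4 hst
    rw [e8'] at v
    rw [← hx] at hsq
    have c1 : C1 * (8 * ρ * Real.sqrt (8 * ρ)) ≤ C1 * (8 * ρ * (3 * x)) := by
      refine mul_le_mul_of_nonneg_left (mul_le_mul_of_nonneg_left hsq (by linarith)) hC1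
    have e3 : ρ ^ 2 * (256 * (stiff t b - Y0) + 64 * b / m + 24 * C1 / x) =
        256 * (stiff t b - Y0) * ρ ^ 2 + 64 * b * (ρ / m) * ρ + 24 * C1 * ρ * x := by
      rw [← hxx]
      field_simp
    rw [e3, ← htm]
    linarith only [v, c1]
  obtain ⟨M2, hM2⟩ : ∃ M2 : ℤ, M2 = ((2 * m : ℕ) : ℤ) := ⟨_, rfl⟩
  have hcor : (t : ℤ) * M2 = 2 * ((t * m : ℕ) : ℤ) := by rw [hM2]; push_cast; ring
  -- the first auxiliary pyramid
  obtain ⟨p1, hp1⟩ : ∃ p1 : ℤ × ℤ, p1 = p - cor t (M2, M2) := ⟨_, rfl⟩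
  obtain ⟨p2, hp2⟩ : ∃ p2 : ℤ × ℤ, p2 = p - cor t (-M2, M2) := ⟨_, rfl⟩
  have c11 : p1.1 = p.1 - 2 * ((t * m : ℕ) : ℤ) := by
    rw [hp1, Prod.fst_sub]; unfold cor; simp only; rw [hcor]
  have c12 : p1.2 = p.2 - 2 * ((t * m : ℕ) : ℤ) := by
    rw [hp1, Prod.snd_sub]; unfold cor; simp only; rw [hcor]
  have c21 : p2.1 = p.1 + 2 * ((t * m : ℕ) : ℤ) := by
    rw [hp2, Prod.fst_sub]; unfold cor; simp only; rw [mul_neg, hcor]; ring
  have c22 : p2.2 = p.2 - 2 * ((t * m : ℕ) : ℤ) := by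
    rw [hp2, Prod.snd_sub]; unfold cor; simp only; rw [hcor]
  have e10 : ((10 * (t * m) : ℕ) : ℤ) = 10 * ((t * m : ℕ) : ℤ) := by push_cast; ring
  have e8z : ((t * (8 * m) : ℕ) : ℤ) = 8 * ((t * m : ℕ) : ℤ) := by push_cast; ring
  rw [e10] at h1 h2 h3 h4
  have hF1 : Fam L (fm t p1 (bk (8 * m))) :=
    fm_fam ht (Finset.Subset.refl _) (by rw [e8z, c11]; omega) (by rw [e8z, c11]; omega)
      (by rw [e8z, c12]; omega) (by rw [e8z, c12]; omega)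
  have hF2 : Fam L (fm t p2 (bk (8 * m))) :=
    fm_fam ht (Finset.Subset.refl _) (by rw [e8z, c21]; omega) (by rw [e8z, c21]; omega)
      (by rw [e8z, c22]; omega) (by rw [e8z, c22]; omega)
  have a1 := aux p1 (by rw [e8z, c11]; omega) (by rw [e8z, c11]; omega)
      (by rw [e8z, c12]; omega) (by rw [e8z, c12]; omega)
  have a2 := aux p2 (by rw [e8z, c21]; omega) (by rw [e8z, c21]; omega)
      (by rw [e8z, c22]; omega) (by rw [e8z, c22]; omega)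
  have hk1 : ∀ k : ℤ × ℤ, p + cor t k = p1 + cor t (k + (M2, M2)) := by
    intro k
    rw [cor_add, hp1]
    abel
  have hk2 : ∀ k : ℤ × ℤ, p + cor t k = p2 + cor t (k + (-M2, M2)) := by
    intro k
    rw [cor_add, hp2]
    abel
  have hin : ∀ k ∈ Ks m, (-M2 ≤ k.1 ∧ k.1 < M2) ∧ (-M2 ≤ k.2 ∧ k.2 < M2) := by
    intro k hk
    unfold Ks at hk
    rw [Finset.mem_filter, mem_bk] at hk
    rw [hM2]
    exact hk.1
  have hM8 : ((8 * m : ℕ) : ℤ) = 4 * M2 := by rw [hM2]; push_cast; ring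
  have hM0 : 1 ≤ M2 := by rw [hM2]; push_cast; omega
  -- signs and positions of the shifted indices
  have f1 : ∀ k ∈ Ks m, nn (k + (M2, M2)) < ((8 * m : ℕ) : ℤ) ∧ sg (k + (M2, M2)).1 = 1 ∧
      sg (k + (M2, M2)).2 = 1 := by
    intro k hk
    obtain ⟨⟨b1, b2⟩, b3, b4⟩ := hin k hk
    rw [hM8]
    unfold nn sg
    simp only [Prod.fst_add, Prod.snd_add]
    rw [if_pos (by omega), if_pos (by omega)]
    exact ⟨by omega, by rw [if_pos (by omega)], by rw [if_pos (by omega)]⟩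
  have f2 : ∀ k ∈ Ks m, nn (k + (-M2, M2)) < ((8 * m : ℕ) : ℤ) ∧ sg (k + (-M2, M2)).1 = -1 ∧
      sg (k + (-M2, M2)).2 = 1 := by
    intro k hk
    obtain ⟨⟨b1, b2⟩, b3, b4⟩ := hin k hk
    rw [hM8]
    unfold nn sg
    simp only [Prod.fst_add, Prod.snd_add]
    rw [if_neg (by omega), if_pos (by omega)]
    exact ⟨by omega, by rw [if_neg (by omega)], by rw [if_pos (by omega)]⟩
  have d1 : ∑ q ∈ Sq1 t m p, Ev b L 0 (dfc b q.1 q.2 (hh + (-1 : ℝ) • vv)) ≤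
      vS b L (fm t p1 (bk (8 * m))) (pyr (t * (8 * m)) p1) := by
    refine dfc_aux hb.le hF1 ?_ (k := fun q => hh + (-1 : ℝ) • vv) ?_
    · intro q hq
      unfold Sq1 at hq
      rw [mem_fm] at hq ⊢
      obtain ⟨k, hk, rfl⟩ := hq
      exact ⟨k + (M2, M2), bk_of_nn (f1 k hk).1.le, by rw [hk1 k]⟩
    · intro q hq
      unfold Sq1 at hq
      rw [mem_fm] at hq
      obtain ⟨k, hk, rfl⟩ := hq
      obtain ⟨g1, g2, g3⟩ := f1 k hk
      left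
      show rs t (p + cor t k) _ = _
      rw [hk1 k, pyr_in ht g1, g2, g3]
      simp
  have d2 : ∑ q ∈ Sq1 t m p, Ev b L 0 (dfc b q.1 q.2 (hh + vv)) ≤
      vS b L (fm t p2 (bk (8 * m))) (pyr (t * (8 * m)) p2) := by
    refine dfc_aux hb.le hF2 ?_ (k := fun q => hh + vv) ?_
    · intro q hq
      unfold Sq1 at hq
      rw [mem_fm] at hq ⊢
      obtain ⟨k, hk, rfl⟩ := hq
      exact ⟨k + (-M2, M2), bk_of_nn (f2 k hk).1.le, by rw [hk2 k]⟩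
    · intro q hq
      unfold Sq1 at hq
      rw [mem_fm] at hq
      obtain ⟨k, hk, rfl⟩ := hq
      obtain ⟨g1, g2, g3⟩ := f2 k hk
      left
      show rs t (p + cor t k) _ = _
      rw [hk2 k, pyr_in ht g1, g2, g3]
      simp
  rw [← hρ, ← hx]
  have e9 : ρ ^ 2 * (512 * (stiff t b - Y0) + 128 * b / m + 48 * C1 / x) =
      2 * (ρ ^ 2 * (256 * (stiff t b - Y0) + 64 * b / m + 24 * C1 / x)) := by ring
  rw [e9]
  linarith only [a1, a2, d1, d2]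

/-- the Dirichlet product of the frustum and a field as a sum over a box -/
theorem nS_fr {L t m : ℕ} (ht : 1 ≤ t) {p : ℤ × ℤ} (hp : Pos L (t * m) p) (A : Fld)
    {B : Finset (ℤ × ℤ)} (hB : cov (Sq1 t m p) ⊆ B) :
    nS (Sq1 t m p) (fr t m p) A = 1 / ((t * m : ℕ) : ℝ) *
      (∑ z ∈ B, 1 / 2 * ∑ s : Bool × Bool, pyr (t * (2 * m)) p s z * A s z -
        ∑ z ∈ B, 1 / 2 * ∑ s : Bool × Bool, pyr (t * m) p s z * A s z) := by
  classical
  have hF := hp.fam1 ht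
  unfold nS
  rw [← Finset.mul_sum, ← sum_cov hF (fun z => ∑ s : Bool × Bool, fr t m p s z * A s z),
    Finset.sum_subset hB, ← Finset.sum_sub_distrib, Finset.mul_sum, Finset.mul_sum]
  · refine Finset.sum_congr rfl fun z _ => ?_
    have e : ∀ s : Bool × Bool, fr t m p s z * A s z = 1 / ((t * m : ℕ) : ℝ) *
        (pyr (t * (2 * m)) p s z * A s z) - 1 / ((t * m : ℕ) : ℝ) *
        (pyr (t * m) p s z * A s z) := by
      intro s
      rw [fr_eq]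
      ring
    simp only [e]
    rw [Finset.sum_sub_distrib, ← Finset.mul_sum, ← Finset.mul_sum]
    ring
  · intro z _ hz
    refine Finset.sum_eq_zero fun s _ => ?_
    rw [fr_zero, zero_mul]
    by_contra hc
    push Not at hc
    apply hz
    obtain ⟨k, hk⟩ := exists_sq ht p z
    unfold cov
    rw [Finset.mem_biUnion]
    refine ⟨(t, p + cor t k), ?_, hk⟩
    have h2 := nn_idx ht hk hc.2.le
    unfold Sq1 Ks
    rw [mem_fm]
    exact ⟨k, Finset.mem_filter.2 ⟨bk_of_nn h2, nn_idx' ht hk hc.1, h2⟩, rfl⟩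

/-- values of the frustum potential -/
theorem psi_in {t m : ℕ} {z : ℤ × ℤ} (h : nn z ≤ ((t * m : ℕ) : ℤ)) :
    (psi (t * (2 * m)) z : ℝ) - psi (t * m) z = ((t * m : ℕ) : ℝ) := by
  have e : ((t * (2 * m) : ℕ) : ℤ) = 2 * ((t * m : ℕ) : ℤ) := by push_cast; ring
  have h1 : psi (t * (2 * m)) z - psi (t * m) z = ((t * m : ℕ) : ℤ) := by
    unfold psi
    rw [e]
    rw [max_eq_right (by omega), max_eq_right (by omega)]
    ring
  have h2 : ((psi (t * (2 * m)) z - psi (t * m) z : ℤ) : ℝ) = (((t * m : ℕ) : ℤ) : ℝ) := by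
    rw [h1]
  rw [Int.cast_sub] at h2
  rw [h2, Int.cast_natCast]

theorem psi_out {t m : ℕ} {z : ℤ × ℤ} (h : ((t * (2 * m) : ℕ) : ℤ) ≤ nn z) :
    (psi (t * (2 * m)) z : ℝ) - psi (t * m) z = 0 := by
  have e : ((t * (2 * m) : ℕ) : ℤ) = 2 * ((t * m : ℕ) : ℤ) := by push_cast; ring
  unfold psi
  rw [max_eq_left (by omega), max_eq_left (by omega)]
  simp

end Vale.Agent.P159.UJ.H253
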