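import Vale.Agent.P159.H253.Sep
import Vale.Agent.P159.H529.Skl
import Vale.Agent.P159.H282.OneG

/-!
# One group of scales
-/

set_option linter.all false

open MeasureTheory
open scoped BigOperators

namespace Vale.Agent.P159.UJ.H253

open H282

/-- the current of a test -/
noncomputable def Tq (b : ℝ) (l0 a n : ℕ) (q : (_ : ℕ) × (ℤ × ℤ)) (x : Ginf) : ℝ :=
  H282.TT b (Sq1 (tt l0 q.1) (mm a q.1) (apx (l0 * 2 ^ a) n q.1 q.2))
    (fr (tt l0 q.1) (mm a q.1) (apx (l0 * 2 ^ a) n q.1 q.2)) x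

theorem gg_ge (s : ℕ) {κ : ℕ} (hκ : 4 ≤ κ) : 4 * (s : ℤ) ≤ gg s κ := by
  unfold gg
  have : 4 * s ≤ s * 2 ^ (κ - 2) := by
    have h1 : 2 ^ 2 ≤ 2 ^ (κ - 2) := Nat.pow_le_pow_right (by norm_num) (by omega)
    nlinarith
  exact_mod_cast this

/-- **skeleton invariance of the tests** -/
theorem skel_tests {b : ℝ} {l0 a n : ℕ} (hl : 1 ≤ l0) (ha : 3 ≤ a) (hn : 12 ≤ n) {w : ℕ × ℕ}
    (hw : w.1 < 2 ^ (n - 6) ∧ w.2 < 2 ^ (n - 6)) {q : (_ : ℕ) × (ℤ × ℤ)}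
    (hq : q ∈ Qs (l0 * 2 ^ a) n w) :
    ∀ p' ∈ H529.gt l0 a n w.1 w.2, ∀ x y,
      Tq b l0 a n q (x + PB p'.1 p'.2 y) = Tq b l0 a n q x := by
  obtain ⟨⟨k1, k2⟩, hu⟩ := mem_Qs hq
  obtain ⟨κ, u⟩ := q
  simp only at k1 k2 hu
  have hpow : 2 ^ (n - 6) ≤ 2 ^ (n - 3) := Nat.pow_le_pow_right (by norm_num) (by omega)
  refine H529.TT_skel (lam := lam κ) hl (by omega) (lt_of_lt_of_le hw.1 hpow)
    (lt_of_lt_of_le hw.2 hpow) _ ?_
  intro p hp
  have hmt := tt_mm l0 a k1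
  have hlam := lam_lt k1
  have hgt := lam_gt k1
  have hm8 : 8 ≤ mm a κ := by
    refine le_trans ?_ (mm_ge a k1)
    calc 8 = 2 ^ 3 := by norm_num
      _ ≤ 2 ^ a := Nat.pow_le_pow_right (by norm_num) ha
  obtain ⟨s, hs⟩ : ∃ s, s = l0 * 2 ^ a := ⟨_, rfl⟩
  have hs1 : 1 ≤ s := by rw [hs]; exact Nat.mul_pos hl (by positivity)
  have hDD : ((10 * (s * 2 ^ κ) : ℕ) : ℤ) ≤ (H529.DD l0 a (lam κ + 1) : ℤ) := by
    have : 10 * (s * 2 ^ κ) ≤ H529.DD l0 a (lam κ + 1) := by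
      unfold H529.DD
      rw [← hs]
      have h1 := Nat.mul_le_mul_left s hgt.le
      calc 10 * (s * 2 ^ κ) = s * (10 * 2 ^ κ) := by ring
        _ ≤ _ := h1
    exact_mod_cast this
  obtain ⟨t, ht⟩ : ∃ t, t = tt l0 κ := ⟨_, rfl⟩
  obtain ⟨m, hm⟩ : ∃ m, m = mm a κ := ⟨_, rfl⟩
  have ht1 : 1 ≤ t := by rw [ht]; exact Nat.mul_pos hl (by positivity)
  rw [← hs] at hmt hu hp ⊢
  rw [← ht] at hmt hp
  rw [← hm] at hmt hp hm8
  obtain ⟨D, hD⟩ : ∃ D : ℤ, D = (H529.DD l0 a (lam κ + 1) : ℤ) := ⟨_, rfl⟩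
  rw [← hD] at hDD ⊢
  unfold Sq1 at hp
  rw [mem_fm] at hp
  obtain ⟨k, hk, rfl⟩ := hp
  unfold Ks at hk
  rw [Finset.mem_filter, mem_bk] at hk
  obtain ⟨⟨⟨e1, e2⟩, e3, e4⟩, e5, e6⟩ := hk
  have hρg := rho_gg s k1
  have hg4 := gg_ge s k1
  have hg1 := gg_pos (κ := κ) hs1
  have hle := hu.le hs1
  have hd := qq0_apx s n κ w u
  -- bounds of the offsets
  have c0 := hle
  rw [nn_n1] at c0
  have c1 := n1_nonneg (dd s κ w u).1
  have c2 := n1_nonneg (dd s κ w u).2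
  obtain ⟨d1, d2⟩ := n1_lt (x := (dd s κ w u).1) (N := 32 * gg s κ) (by omega)
  obtain ⟨d3, d4⟩ := n1_lt (x := (dd s κ w u).2) (N := 32 * gg s κ) (by omega)
  have tm : (t : ℤ) * m = 4 * gg s κ := by rw [← hρg, ← hmt]; push_cast; ring
  have f1 : -(8 * gg s κ) ≤ (t : ℤ) * k.1 := by
    have := mul_le_mul_of_nonneg_left e1 (show (0 : ℤ) ≤ t by omega)
    push_cast at this
    linarith
  have f2 : (t : ℤ) * k.1 + t ≤ 8 * gg s κ := by
    have := mul_le_mul_of_nonneg_left (show k.1 + 1 ≤ ((2 * m : ℕ) : ℤ) from e2)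
      (show (0 : ℤ) ≤ t by omega)
    push_cast at this
    linarith
  have f3 : -(8 * gg s κ) ≤ (t : ℤ) * k.2 := by
    have := mul_le_mul_of_nonneg_left e3 (show (0 : ℤ) ≤ t by omega)
    push_cast at this
    linarith
  have f4 : (t : ℤ) * k.2 + t ≤ 8 * gg s κ := by
    have := mul_le_mul_of_nonneg_left (show k.2 + 1 ≤ ((2 * m : ℕ) : ℤ) from e4)
      (show (0 : ℤ) ≤ t by omega)
    push_cast at this
    linarith
  have t8 : 2 * (t : ℤ) ≤ gg s κ := by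
    have : (t : ℤ) * 8 ≤ t * m := by
      refine mul_le_mul_of_nonneg_left ?_ (by omega)
      exact_mod_cast hm8
    linarith
  have q1 : (H529.qq0 s n w.1 w.2).1 = (H529.cw s n w.1 w.2).1 + ((s / 2 : ℕ) : ℤ) := rfl
  have q2 : (H529.qq0 s n w.1 w.2).2 = (H529.cw s n w.1 w.2).2 + ((s / 2 : ℕ) : ℤ) := rfl
  have g1 : (apx s n κ u).1 = (H529.cw s n w.1 w.2).1 + ((s / 2 : ℕ) : ℤ) - (dd s κ w u).1 := by
    have := congrArg Prod.fst hd
    rw [Prod.fst_sub, q1] at this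
    linarith
  have g2 : (apx s n κ u).2 = (H529.cw s n w.1 w.2).2 + ((s / 2 : ℕ) : ℤ) - (dd s κ w u).2 := by
    have := congrArg Prod.snd hd
    rw [Prod.snd_sub, q2] at this
    linarith
  have h21 : (apx s n κ u + cor t k).1 = (H529.cw s n w.1 w.2).1 + ((s / 2 : ℕ) : ℤ) -
      (dd s κ w u).1 + t * k.1 := by
    rw [Prod.fst_add, g1]; rfl
  have h22 : (apx s n κ u + cor t k).2 = (H529.cw s n w.1 w.2).2 + ((s / 2 : ℕ) : ℤ) -
      (dd s κ w u).2 + t * k.2 := by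
    rw [Prod.snd_add, g2]; rfl
  have hDD' : 40 * gg s κ ≤ D := by
    have : ((10 * (s * 2 ^ κ) : ℕ) : ℤ) = 10 * ((s * 2 ^ κ : ℕ) : ℤ) := by push_cast; ring
    rw [this, hρg] at hDD
    linarith
  refine ⟨?_, ?_, ?_, ?_, ?_, ?_⟩
  · -- dyadic corners
    refine ⟨(2 ^ (a + n - 1 - lam κ) + 2 ^ (a + κ - 2 - lam κ) * u.1 + k.1,
      2 ^ (a + n - 1 - lam κ) + 2 ^ (a + κ - 2 - lam κ) * u.2 + k.2), ?_⟩
    have ht' : t = l0 * 2 ^ lam κ := ht
    have hsR : (s : ℤ) = l0 * 2 ^ a := by rw [hs]; push_cast; ring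
    have r1 : ((s * 2 ^ (n - 1) : ℕ) : ℤ) = ((l0 * 2 ^ lam κ : ℕ) : ℤ) *
        2 ^ (a + n - 1 - lam κ) := by
      have h3 : a + (n - 1) = lam κ + (a + n - 1 - lam κ) := by omega
      push_cast
      rw [hsR, mul_assoc, ← pow_add, h3, pow_add]
      ring
    have r2 : gg s κ = ((l0 * 2 ^ lam κ : ℕ) : ℤ) * 2 ^ (a + κ - 2 - lam κ) := by
      have h3 : a + (κ - 2) = lam κ + (a + κ - 2 - lam κ) := by omega
      unfold gg
      push_cast
      rw [hsR, mul_assoc, ← pow_add, h3, pow_add]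
      ring
    rw [ht']
    congr 1
    unfold apx cor
    apply Prod.ext
    · simp only [Prod.fst_add]
      rw [r1, r2]
      ring
    · simp only [Prod.snd_add]
      rw [r1, r2]
      ring
  · -- the square does not meet the core
    by_contra hc
    unfold H529.Sep at hc
    simp only at hc
    push Not at hc
    obtain ⟨j1, j2, j3, j4⟩ := hc
    obtain ⟨z, hz⟩ : ∃ z : ℤ × ℤ, z = (max (H529.cw s n w.1 w.2).1 (apx s n κ u + cor t k).1,
      max (H529.cw s n w.1 w.2).2 (apx s n κ u + cor t k).2) := ⟨_, rfl⟩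
    have z1 : z.1 = max (H529.cw s n w.1 w.2).1 (apx s n κ u + cor t k).1 := by rw [hz]
    have z2 : z.2 = max (H529.cw s n w.1 w.2).2 (apx s n κ u + cor t k).2 := by rw [hz]
    have hzu : z ∈ uc t (apx s n κ u + cor t k) := by
      rw [mem_uc, z1, z2]
      refine ⟨⟨?_, ?_⟩, ?_, ?_⟩ <;> omega
    obtain ⟨n1', n2'⟩ := nn_sq ht1 hzu
    have m1 : (t : ℤ) * m ≤ t * nn k := mul_le_mul_of_nonneg_left e5 (by omega)
    have m2 : (t : ℤ) * nn k ≤ t * (2 * m) := by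
      refine mul_le_mul_of_nonneg_left ?_ (by omega)
      push_cast at e6
      exact e6
    have lo : 4 * gg s κ - t + 1 ≤ nn (z - apx s n κ u) := by linarith
    have hi : nn (z - apx s n κ u) ≤ 8 * gg s κ + t - 1 := by linarith
    obtain ⟨v, hv⟩ : ∃ v : ℤ × ℤ, v = z - H529.qq0 s n w.1 w.2 := ⟨_, rfl⟩
    have hzv : z - apx s n κ u = dd s κ w u + v := by rw [hv, ← hd]; abel
    have v1 : v.1 = z.1 - ((H529.cw s n w.1 w.2).1 + ((s / 2 : ℕ) : ℤ)) := by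
      rw [hv, Prod.fst_sub, q1]
    have v2 : v.2 = z.2 - ((H529.cw s n w.1 w.2).2 + ((s / 2 : ℕ) : ℤ)) := by
      rw [hv, Prod.snd_sub, q2]
    have hv1 : |v.1| ≤ s := by
      rw [abs_le, v1, z1]
      constructor <;> omega
    have hv2 : |v.2| ≤ s := by
      rw [abs_le, v2, z2]
      constructor <;> omega
    have T1 := (nn_tri (dd s κ w u) v).1
    have T2 := (nn_tri (dd s κ w u + v) (-v)).1
    have e7 : dd s κ w u + v + -v = dd s κ w u := by abel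
    rw [e7, Prod.fst_neg, Prod.snd_neg, abs_neg, abs_neg] at T2
    rw [← hzv] at T1 T2
    rcases hu with hu | hu
    · omega
    · omega
  · show (apx s n κ u + cor t k).1 < _
    rw [h21]
    omega
  · show _ < (apx s n κ u + cor t k).1 + (t : ℤ) + D
    rw [h21]
    omega
  · show (apx s n κ u + cor t k).2 < _
    rw [h22]
    omega
  · show _ < (apx s n κ u + cor t k).2 + (t : ℤ) + D
    rw [h22]
    omega

end Vale.Agent.P159.UJ.H253
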