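import Vale.Agent.P159.H253.Grp

/-!
# The theorem on one group of scales
-/

set_option linter.all false

open MeasureTheory
open scoped BigOperators

namespace Vale.Agent.P159.UJ.H253

open H282

theorem geom_le (N : ℕ) : ∑ κ ∈ Finset.range N, (5 / 7 : ℝ) ^ κ ≤ 7 / 2 := by
  have h : ∀ N : ℕ, ∑ κ ∈ Finset.range N, (5 / 7 : ℝ) ^ κ = 7 / 2 - 7 / 2 * (5 / 7) ^ N := by
    intro N
    induction N with
    | zero => simp
    | succ N ih =>
      rw [Finset.sum_range_succ, ih, pow_succ]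
      ring
  rw [h]
  have : (0 : ℝ) ≤ 7 / 2 * (5 / 7) ^ N := by positivity
  linarith

theorem inv_sqrt_le {a' s κ : ℕ} (hs : 4 ^ a' ≤ s) :
    1 / Real.sqrt ((s * 2 ^ κ : ℕ) : ℝ) ≤ 1 / 2 ^ a' * (5 / 7 : ℝ) ^ κ := by
  have h1 : (2 ^ a' * (7 / 5 : ℝ) ^ κ) ^ 2 ≤ ((s * 2 ^ κ : ℕ) : ℝ) := by
    have h2 : ((7 / 5 : ℝ) ^ κ) ^ 2 ≤ 2 ^ κ := by
      rw [← pow_mul, mul_comm, pow_mul]
      exact pow_le_pow_left₀ (by norm_num) (by norm_num) κ
    have h3 : ((2 : ℝ) ^ a') ^ 2 ≤ s := by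
      rw [← pow_mul, mul_comm, pow_mul]
      norm_num
      exact_mod_cast hs
    rw [mul_pow]
    push_cast
    exact mul_le_mul h3 h2 (by positivity) (by positivity)
  have h2 : 2 ^ a' * (7 / 5 : ℝ) ^ κ ≤ Real.sqrt ((s * 2 ^ κ : ℕ) : ℝ) :=
    Real.le_sqrt_of_sq_le h1
  have e : 1 / 2 ^ a' * (5 / 7 : ℝ) ^ κ = 1 / (2 ^ a' * (7 / 5 : ℝ) ^ κ) := by
    rw [show (5 / 7 : ℝ) = (7 / 5)⁻¹ by norm_num, inv_pow]
    field_simp
  rw [e]
  exact one_div_le_one_div_of_le (by positivity) h2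

/-- the bound of the failure probability of one test -/
noncomputable def epk (b K : ℝ) (l0 a : ℕ) (κ : ℕ) : ℝ :=
  K * ((stiff (tt l0 κ) b - 2 / Real.pi) + 1 / (mm a κ : ℝ) +
    1 / Real.sqrt ((tt l0 κ * mm a κ : ℕ) : ℝ))

/-- **sum over the scales** -/
theorem sum_eps {b K c1 : ℝ} (hK : 0 ≤ K) {l0 a' n : ℕ} (hl : 1 ≤ l0)
    (hst : ∀ k, 2 / Real.pi ≤ stiff (l0 * 2 ^ k) b)
    (hsum : ∑ k ∈ Finset.range n, (stiff (l0 * 2 ^ k) b - 2 / Real.pi) ≤ c1) (w : ℕ × ℕ) :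
    ∑ q ∈ Qs (l0 * 2 ^ (2 * a')) n w, epk b K l0 (2 * a') q.1 ≤
      4489 * K * (3 * c1 + 64 / 2 ^ a') := by
  have hx0 : ∀ k, 0 ≤ stiff (l0 * 2 ^ k) b - 2 / Real.pi := fun k => sub_nonneg.2 (hst k)
  have hnn : ∀ κ ∈ Finset.Icc 4 (n - 6), 0 ≤ epk b K l0 (2 * a') κ := by
    intro κ _
    unfold epk
    have := hx0 (lam κ)
    unfold tt
    positivity
  refine (sum_Qs hnn).trans ?_
  rw [mul_assoc]
  refine mul_le_mul_of_nonneg_left ?_ (by norm_num)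
  unfold epk
  rw [← Finset.mul_sum]
  refine mul_le_mul_of_nonneg_left ?_ hK
  rw [Finset.sum_add_distrib, Finset.sum_add_distrib]
  have h1 : ∑ κ ∈ Finset.Icc 4 (n - 6), (stiff (tt l0 κ) b - 2 / Real.pi) ≤ 3 * c1 := by
    have h2 := sum_lam (N := n - 6) (n := n) (by omega)
      (f := fun k => stiff (l0 * 2 ^ k) b - 2 / Real.pi) hx0
    refine h2.trans ?_
    exact mul_le_mul_of_nonneg_left hsum (by norm_num)
  have h2 : ∑ κ ∈ Finset.Icc 4 (n - 6), 1 / (mm (2 * a') κ : ℝ) ≤ 60 / 2 ^ a' := by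
    have h3 : ∑ κ ∈ Finset.Icc 4 (n - 6), 1 / (mm (2 * a') κ : ℝ) ≤
        ∑ κ ∈ Finset.Icc 4 (n - 6), 10 / 2 ^ (2 * a') * (1 / ((lam κ : ℝ) + 1) ^ 2) := by
      refine Finset.sum_le_sum fun κ hκ => ?_
      exact mm_inv (2 * a') (Finset.mem_Icc.1 hκ).1
    refine h3.trans ?_
    have h4 := sum_lam (N := n - 6) (n := n) (by omega)
      (f := fun k => 1 / ((k : ℝ) + 1) ^ 2) (fun k => by positivity)
    have h5 := H529.sum_inv_sq_le n
    rw [← Finset.mul_sum]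
    have h6 : (0 : ℝ) ≤ 10 / 2 ^ (2 * a') := by positivity
    have h7 : ∑ κ ∈ Finset.Icc 4 (n - 6), 1 / ((lam κ : ℝ) + 1) ^ 2 ≤ 6 := by
      linarith
    calc _ ≤ 10 / 2 ^ (2 * a') * (6 : ℝ) := mul_le_mul_of_nonneg_left h7 h6
      _ = 60 / 2 ^ (2 * a') := by ring
      _ ≤ _ := by
          apply div_le_div_of_nonneg_left (by norm_num) (by positivity)
          exact pow_le_pow_right₀ (by norm_num) (by omega)
  have h3 : ∑ κ ∈ Finset.Icc 4 (n - 6), 1 / Real.sqrt ((tt l0 κ * mm (2 * a') κ : ℕ) : ℝ) ≤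
      4 / 2 ^ a' := by
    have h4 : ∑ κ ∈ Finset.Icc 4 (n - 6), 1 / Real.sqrt ((tt l0 κ * mm (2 * a') κ : ℕ) : ℝ) ≤
        ∑ κ ∈ Finset.Icc 4 (n - 6), 1 / 2 ^ a' * (5 / 7 : ℝ) ^ κ := by
      refine Finset.sum_le_sum fun κ hκ => ?_
      rw [tt_mm l0 (2 * a') (Finset.mem_Icc.1 hκ).1]
      apply inv_sqrt_le
      rw [pow_mul]
      calc 4 ^ a' = 1 * (2 ^ 2) ^ a' := by norm_num
        _ ≤ l0 * (2 ^ 2) ^ a' := Nat.mul_le_mul_right _ hl
    refine h4.trans ?_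
    rw [← Finset.mul_sum]
    have h5 : ∑ κ ∈ Finset.Icc 4 (n - 6), (5 / 7 : ℝ) ^ κ ≤ 7 / 2 := by
      refine le_trans ?_ (geom_le (n - 6 + 1))
      refine Finset.sum_le_sum_of_subset_of_nonneg ?_ fun κ _ _ => by positivity
      intro κ hκ
      rw [Finset.mem_Icc] at hκ
      rw [Finset.mem_range]
      omega
    calc _ ≤ 1 / 2 ^ a' * (7 / 2 : ℝ) := mul_le_mul_of_nonneg_left h5 (by positivity)
      _ = 7 / 2 / 2 ^ a' := by ring
      _ ≤ _ := div_le_div_of_nonneg_right (by norm_num) (by positivity)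
  have e : (64 : ℝ) / 2 ^ a' = 60 / 2 ^ a' + 4 / 2 ^ a' := by ring
  rw [e]
  linarith

/-- **ONE GROUP of scales**: if the sum of the excesses of the stiffness over the scales of the
group is small, the vortex ratio drops at most by a constant factor -/
theorem group (B C1 : ℝ) (hB : 0 < B) (hC1 : 0 ≤ C1) : ∃ (c1 c0 : ℝ) (a : ℕ), 0 < c1 ∧ 0 < c0 ∧
    1 ≤ a ∧ ∀ b : ℝ, 0 < b → b ≤ B → RPb b (2 / Real.pi) C1 → ∀ l0 n : ℕ, 1 ≤ l0 → 12 ≤ n →
      (∀ k, 2 / Real.pi ≤ stiff (l0 * 2 ^ k) b) →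
      ∑ k ∈ Finset.range n, (stiff (l0 * 2 ^ k) b - 2 / Real.pi) ≤ c1 →
      c0 * yy b (l0 * 2 ^ a) ≤ yy b (l0 * 2 ^ a * 2 ^ n) := by
  obtain ⟨C, s0, m0, hC, hm0, hT⟩ := test_loc B hB
  obtain ⟨c0, s1, hc0, hs1, hG⟩ := one_group B hB
  obtain ⟨K, hK⟩ : ∃ K : ℝ, K = C * (1 + C1) + 1 := ⟨_, rfl⟩
  have hK1 : 1 ≤ K := by
    rw [hK]
    have : 0 ≤ C * (1 + C1) := by positivity
    linarith
  obtain ⟨a', ha'⟩ := pow_unbounded_of_one_lt (max (max m0 (max s0 s1)) (8 * 4489 * K * 64))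
    (one_lt_two (α := ℝ))
  have h2m : m0 ≤ 2 ^ a' := ((le_max_left _ _).trans (le_max_left _ _)).trans ha'.le
  have h2s : s0 ≤ 2 ^ a' :=
    (((le_max_left _ _).trans (le_max_right _ _)).trans (le_max_left _ _)).trans ha'.le
  have h2s1 : s1 ≤ 2 ^ a' :=
    (((le_max_right _ _).trans (le_max_right _ _)).trans (le_max_left _ _)).trans ha'.le
  have h2K : 8 * 4489 * K * 64 ≤ 2 ^ a' := (le_max_right _ _).trans ha'.le
  have ha3 : 3 ≤ a' := by
    by_contra hc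
    have h1 : (2 : ℝ) ^ a' ≤ 2 ^ 2 := pow_le_pow_right₀ (by norm_num) (by omega)
    linarith
  refine ⟨min 1 (1 / (24 * 4489 * K)), c0 * (1 / 4 ^ 12), 2 * a', lt_min one_pos (by positivity),
    by positivity, by omega, ?_⟩
  intro b hb hbB hR l0 n hl hn hst hsum
  obtain ⟨s, hs⟩ : ∃ s, s = l0 * 2 ^ (2 * a') := ⟨_, rfl⟩
  have hpa : (2 : ℝ) ^ a' ≤ 2 ^ (2 * a') := pow_le_pow_right₀ (by norm_num) (by omega)
  have hs_ge : (2 : ℝ) ^ (2 * a') ≤ ((l0 * 2 ^ (2 * a') : ℕ) : ℝ) := by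
    have : 2 ^ (2 * a') ≤ l0 * 2 ^ (2 * a') := Nat.le_mul_of_pos_left _ (by omega)
    exact_mod_cast this
  have hs1' : 1 ≤ l0 * 2 ^ (2 * a') := Nat.mul_pos hl (by positivity)
  have hpow : 2 ^ (n - 6) ≤ 2 ^ (n - 3) := Nat.pow_le_pow_right (by norm_num) (by omega)
  have hsum1 : ∑ k ∈ Finset.range n, (stiff (l0 * 2 ^ k) b - 2 / Real.pi) ≤ 1 :=
    hsum.trans (min_le_left _ _)
  have hsum2 : ∑ k ∈ Finset.range n, (stiff (l0 * 2 ^ k) b - 2 / Real.pi) ≤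
      1 / (24 * 4489 * K) := hsum.trans (min_le_right _ _)
  have key := hG b hb hbB l0 (2 * a') n hl (by omega) (by omega)
    ((h2s1.trans hpa).trans hs_ge) hst hsum1 (Posn n) (by
      intro w hw
      have h := (mem_Posn hn hw).1
      exact ⟨lt_of_lt_of_le h.1 hpow, lt_of_lt_of_le h.2 hpow⟩)
    (Qs (l0 * 2 ^ (2 * a')) n) (Tq b l0 (2 * a') n) (ctg b l0 (l0 * 2 ^ (2 * a')))
    (fun w _ q _ => H282.TT_cont b _ _)
    (fun w _ q _ x => H282.TT_neg b _ _ x)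
    (fun w hw q hq => skel_tests hl (by omega) hn (mem_Posn hn hw).1 hq)
    (fun w hw w' hw' hne => sep_tests hs1' hn (fun κ => hst (lam κ)) hw hw' hne)
    (fun w q => epk b K l0 (2 * a') q.1)
    (by
      intro w hw q hq
      have hloc := loc_Qs hl (by omega) (by omega) (mem_Posn hn hw).1 hq
      obtain ⟨⟨k1, k2⟩, hu⟩ := mem_Qs hq
      have htm := tt_mm l0 (2 * a') k1
      have ht1 : 1 ≤ tt l0 q.1 := Nat.mul_pos hl (by positivity)
      have hlam := lam_lt k1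
      have hev : 2 ∣ tt l0 q.1 * mm (2 * a') q.1 := by
        unfold mm
        refine Dvd.dvd.mul_left ?_ _
        exact dvd_pow_self 2 (by omega)
      have hmm : m0 ≤ (mm (2 * a') q.1 : ℝ) := by
        have h1 : (2 : ℝ) ^ (2 * a') ≤ (mm (2 * a') q.1 : ℝ) := by
          exact_mod_cast mm_ge (2 * a') k1
        exact (h2m.trans hpa).trans h1
      have hss : s0 ≤ ((tt l0 q.1 * mm (2 * a') q.1 : ℕ) : ℝ) := by
        rw [htm]
        have h1 : l0 * 2 ^ (2 * a') ≤ l0 * 2 ^ (2 * a') * 2 ^ q.1 :=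
          Nat.le_mul_of_pos_right _ (by positivity)
        have h2 : ((l0 * 2 ^ (2 * a') : ℕ) : ℝ) ≤ ((l0 * 2 ^ (2 * a') * 2 ^ q.1 : ℕ) : ℝ) := by
          exact_mod_cast h1
        exact ((h2s.trans hpa).trans hs_ge).trans h2
      have hρg := rho_gg (l0 * 2 ^ (2 * a')) k1
      obtain ⟨G, G1, G2, G3, G4⟩ := hT b hb hbB (2 / Real.pi) C1 (by positivity) hC1 hR
        (l0 * 2 ^ (2 * a') * 2 ^ n) (tt l0 q.1) (mm (2 * a') q.1)
        (H529.PP (l0 * 2 ^ (2 * a')) w.1 w.2) (H529.qq0 (l0 * 2 ^ (2 * a')) n w.1 w.2)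
        (apx (l0 * 2 ^ (2 * a')) n q.1 q.2) ht1 hloc hev hmm hss (hst (lam q.1))
        (ctg b l0 (l0 * 2 ^ (2 * a')) w q) (by
          rw [qq0_apx, htm, hρg]
          unfold ctg
          rcases hu with hu | hu
          · left
            rw [if_pos hu]
            exact ⟨by omega, rfl⟩
          · right
            have hg1 := gg_pos (κ := q.1) hs1'
            rw [if_neg (by omega)]
            exact ⟨by omega, rfl⟩)
      refine ⟨G, G1, G2, G3, G4.trans ?_⟩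
      unfold epk
      refine mul_le_mul_of_nonneg_right ?_ ?_
      · rw [hK]; linarith
      · have := sub_nonneg.2 (hst (lam q.1))
        unfold tt
        positivity)
    (by
      intro w hw
      refine (sum_eps (by linarith) hl hst hsum2 w).trans ?_
      have hK0 : 0 < K := by linarith
      have e1 : 4489 * K * (3 * (1 / (24 * 4489 * K))) = 1 / 8 := by
        field_simp
        norm_num
      have e2 : 4489 * K * (64 / 2 ^ a') ≤ 1 / 8 := by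
        rw [mul_div_assoc', div_le_iff₀ (by positivity)]
        linarith
      rw [mul_add, e1]
      linarith)
  rw [Posn_card hn] at key
  exact key

end Vale.Agent.P159.UJ.H253
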