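import Vale.Agent.P159.H253.Frus
import Vale.Agent.P159.H253.Curl

/-!
# One test and one vortex
-/

set_option linter.all false

open MeasureTheory
open scoped BigOperators

namespace Vale.Agent.P159.UJ.H253

open H282

/-- position of a test and of a vortex in the big block -/
structure Loc (L ρ : ℕ) (P : ℂ) (w p : ℤ × ℤ) : Prop where
  pos : Pos L ρ p
  r1 : |(p.1 : ℝ) - ctr L| + (2 * ρ + 3) ≤ L / 4
  r2 : |(p.2 : ℝ) - ctr L| + (2 * ρ + 3) ≤ L / 4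
  wfu : ∀ z : ℤ × ℤ, |(z.1 : ℝ) - ctr L| ≤ L / 4 → |(z.2 : ℝ) - ctr L| ≤ L / 4 →
    wf L P z = uu w z
  w1 : |(w.1 : ℝ) - ctr L| + 1 ≤ L / 4
  w2 : |(w.2 : ℝ) - ctr L| + 1 ≤ L / 4
  nP : ‖P‖ ≤ L / 4

theorem Loc.near {L ρ : ℕ} {P : ℂ} {w p : ℤ × ℤ} (h : Loc L ρ P w p) {z : ℤ × ℤ}
    (h1 : |z.1 - p.1| ≤ 2 * ρ + 3) (h2 : |z.2 - p.2| ≤ 2 * ρ + 3) : wf L P z = uu w z := by
  have key : ∀ x y : ℤ, |x - y| ≤ 2 * ρ + 3 → |(y : ℝ) - ctr L| + (2 * ρ + 3) ≤ L / 4 →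
      |(x : ℝ) - ctr L| ≤ L / 4 := by
    intro x y h3 h4
    have h5 : |(x : ℝ) - y| ≤ 2 * ρ + 3 := by
      rw [← Int.cast_sub, ← Int.cast_abs]
      exact_mod_cast h3
    have h6 := abs_add_le ((x : ℝ) - y) ((y : ℝ) - ctr L)
    rw [sub_add_sub_cancel] at h6
    linarith
  exact h.wfu z (key _ _ h1 h.r1) (key _ _ h2 h.r2)

theorem n1_real (x : ℤ) : |(x : ℝ) + 1 / 2| = (n1 x : ℝ) + 1 / 2 := by
  unfold n1
  split_ifs with h
  · have h' : (0 : ℝ) ≤ x := by exact_mod_cast h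
    rw [abs_of_nonneg (by linarith)]
  · have h' : (x : ℝ) ≤ -1 := by
      have : x ≤ -1 := by omega
      exact_mod_cast this
    rw [abs_of_nonpos (by linarith)]
    push_cast
    ring

/-- distance of the closed cell from the origin -/
theorem cl_cell {t : ℕ} (ht : 1 ≤ t) {k y : ℤ} (h0 : 0 ≤ y) (h1 : y ≤ t) :
    (t : ℤ) * n1 k ≤ |t * k + y| ∧ |t * k + y| ≤ t * (n1 k + 1) := by
  have ht' : (1 : ℤ) ≤ t := by exact_mod_cast ht
  unfold n1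
  split_ifs with hk
  · have h2 : 0 ≤ (t : ℤ) * k := mul_nonneg (by omega) hk
    rw [abs_of_nonneg (by omega)]
    constructor <;> linarith
  · have h2 : (t : ℤ) * k ≤ t * (-1) := mul_le_mul_of_nonneg_left (by omega) (by omega)
    rw [abs_of_nonpos (by linarith)]
    constructor <;> linarith

theorem norm_low (u : ℂ) {x : ℝ} (h : x ≤ |u.re| + |u.im|) : x / 2 ≤ ‖u‖ := by
  have h1 := Complex.abs_re_le_norm u
  have h2 := Complex.abs_im_le_norm u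
  linarith

/-- lower bound of the distance of the squares of the test from the vortex -/
theorem Loc.low {L t m : ℕ} {P : ℂ} {w p : ℤ × ℤ} (h : Loc L (t * m) P w p) (ht : 1 ≤ t)
    (hm : 8 ≤ m) (hw : 4 * nn (w - p) ≤ ((t * m : ℕ) : ℤ) ∨
      9 * ((t * m : ℕ) : ℤ) ≤ 4 * nn (w - p)) {k y : ℤ × ℤ} (hk : k ∈ Ks m)
    (h1 : 0 ≤ y.1) (h2 : y.1 ≤ t) (h3 : 0 ≤ y.2) (h4 : y.2 ≤ t) :
    ((t * m : ℕ) : ℝ) / 4 / 4 ≤ ‖wf L P (p + cor t k + y)‖ := by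
  unfold Ks at hk
  rw [Finset.mem_filter] at hk
  obtain ⟨hk0, hk1, hk2⟩ := hk
  obtain ⟨a1, a2⟩ := cl_cell ht h1 h2 (k := k.1)
  obtain ⟨b1, b2⟩ := cl_cell ht h3 h4 (k := k.2)
  rw [nn_n1] at hk1 hk2
  have p1 := n1_nonneg k.1
  have p2 := n1_nonneg k.2
  have z1 : (p + cor t k + y).1 - p.1 = t * k.1 + y.1 := by
    simp only [Prod.fst_add, cor]; ring
  have z2 : (p + cor t k + y).2 - p.2 = t * k.2 + y.2 := by
    simp only [Prod.snd_add, cor]; ring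
  have hρ : ((t * m : ℕ) : ℤ) = (t : ℤ) * m := by push_cast; ring
  have ht' : (1 : ℤ) ≤ t := by exact_mod_cast ht
  have q1 : (t : ℤ) * (n1 k.1 + 1) ≤ t * (2 * m) :=
    mul_le_mul_of_nonneg_left (by push_cast at hk2; omega) (by omega)
  have q2 : (t : ℤ) * (n1 k.2 + 1) ≤ t * (2 * m) :=
    mul_le_mul_of_nonneg_left (by push_cast at hk2; omega) (by omega)
  have hnear : wf L P (p + cor t k + y) = uu w (p + cor t k + y) := by
    apply h.near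
    · rw [z1, hρ]; linarith
    · rw [z2, hρ]; linarith
  rw [hnear]
  have e1 : (uu w (p + cor t k + y)).re = (((t : ℤ) * k.1 + y.1 : ℤ) : ℝ) -
      (((w - p).1 : ℤ) + 1 / 2 : ℝ) := by
    rw [← z1]
    unfold uu
    simp only [Prod.fst_sub]
    push_cast
    ring
  have e2 : (uu w (p + cor t k + y)).im = (((t : ℤ) * k.2 + y.2 : ℤ) : ℝ) -
      (((w - p).2 : ℤ) + 1 / 2 : ℝ) := by
    rw [← z2]
    unfold uu
    simp only [Prod.snd_sub]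
    push_cast
    ring
  have n1' := n1_real (w - p).1
  have n2' := n1_real (w - p).2
  have hnn : (nn (w - p) : ℝ) = n1 (w - p).1 + n1 (w - p).2 + 1 := by rw [nn_n1]; push_cast; ring
  obtain ⟨X1, hX1⟩ : ∃ X : ℤ, X = (t : ℤ) * k.1 + y.1 := ⟨_, rfl⟩
  obtain ⟨X2, hX2⟩ : ∃ X : ℤ, X = (t : ℤ) * k.2 + y.2 := ⟨_, rfl⟩
  rw [← hX1] at a1 a2 e1
  rw [← hX2] at b1 b2 e2
  obtain ⟨ρ, hρR⟩ : ∃ ρ : ℝ, ρ = ((t * m : ℕ) : ℝ) := ⟨_, rfl⟩
  have s1 : (t : ℤ) * (m - 1) ≤ |X1| + |X2| := by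
    have : (t : ℤ) * (m - 1) ≤ t * (n1 k.1 + n1 k.2) :=
      mul_le_mul_of_nonneg_left (by omega) (by omega)
    linarith
  have s2 : |X1| + |X2| ≤ (t : ℤ) * (2 * m + 1) := by
    have : (t : ℤ) * (n1 k.1 + n1 k.2 + 2) ≤ t * (2 * m + 1) :=
      mul_le_mul_of_nonneg_left (by push_cast at hk2; omega) (by omega)
    linarith
  have t8 : 8 * (t : ℝ) ≤ ρ := by
    rw [hρR]
    have : 8 * t ≤ t * m := by nlinarith
    exact_mod_cast this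
  have s1' : ρ - t ≤ |(X1 : ℝ)| + |(X2 : ℝ)| := by
    have : (((t : ℤ) * (m - 1) : ℤ) : ℝ) ≤ ((|X1| + |X2| : ℤ) : ℝ) := by exact_mod_cast s1
    push_cast at this
    rw [hρR]
    push_cast
    linarith
  have s2' : |(X1 : ℝ)| + |(X2 : ℝ)| ≤ 2 * ρ + t := by
    have : ((|X1| + |X2| : ℤ) : ℝ) ≤ (((t : ℤ) * (2 * m + 1) : ℤ) : ℝ) := by exact_mod_cast s2
    push_cast at this
    rw [hρR]
    push_cast
    linarith
  have hlow : ρ / 8 ≤ |(uu w (p + cor t k + y)).re| + |(uu w (p + cor t k + y)).im| := by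
    rw [e1, e2]
    have c1 := abs_sub_abs_le_abs_sub (X1 : ℝ) (((w - p).1 : ℤ) + 1 / 2 : ℝ)
    have c2 := abs_sub_abs_le_abs_sub (X2 : ℝ) (((w - p).2 : ℤ) + 1 / 2 : ℝ)
    have d1 := abs_sub_abs_le_abs_sub (((w - p).1 : ℤ) + 1 / 2 : ℝ) (X1 : ℝ)
    have d2 := abs_sub_abs_le_abs_sub (((w - p).2 : ℤ) + 1 / 2 : ℝ) (X2 : ℝ)
    rw [abs_sub_comm] at d1 d2
    rw [n1'] at c1 d1
    rw [n2'] at c2 d2
    rcases hw with hw | hw
    · have hw' : 4 * (nn (w - p) : ℝ) ≤ ρ := by rw [hρR]; exact_mod_cast hw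
      linarith
    · have hw' : 9 * ρ ≤ 4 * (nn (w - p) : ℝ) := by rw [hρR]; exact_mod_cast hw
      linarith
  have h5 := norm_low _ hlow
  rw [← hρR]
  linarith

theorem exists_BI {t : ℕ} {c z : ℤ × ℤ} (hz : z ∈ uc t c) (s : Bool × Bool) :
    ∃ e : BI t, e.2 = s ∧ c + (((e.1.1 : ℕ) : ℤ), ((e.1.2 : ℕ) : ℤ)) = z := by
  rw [mem_uc] at hz
  obtain ⟨⟨h1, h2⟩, h3, h4⟩ := hz
  refine ⟨((⟨(z.1 - c.1).toNat, by omega⟩, ⟨(z.2 - c.2).toNat, by omega⟩), s), rfl, ?_⟩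
  apply Prod.ext
  · show c.1 + (((z.1 - c.1).toNat : ℕ) : ℤ) = z.1
    omega
  · show c.2 + (((z.2 - c.2).toNat : ℕ) : ℤ) = z.2
    omega

/-- the bounds of the increments on the squares of the test -/
theorem Loc.inc_bd {C0 s0 : ℝ} (hgeo : ∀ (L l : ℕ) (P : ℂ) (c : ℤ × ℤ) (r : ℝ),
    1 ≤ l → s0 ≤ r → r ≤ 8 * L → ‖P‖ ≤ L / 4 →
    (∀ y : ℤ × ℤ, 0 ≤ y.1 → y.1 ≤ l → 0 ≤ y.2 → y.2 ≤ l → r / 4 ≤ ‖wf L P (c + y)‖) →
    ∀ e : BI l, |inc L P (c + bu e) (c + bv e)| ≤ C0 / r ∧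
      ∀ e' : BI l, hh e = hh e' → |inc L P (c + bu e) (c + bv e) -
        inc L P (c + bu e') (c + bv e')| ≤ C0 * l / r ^ 2)
    {L t m : ℕ} {P : ℂ} {w p : ℤ × ℤ} (h : Loc L (t * m) P w p) (ht : 1 ≤ t)
    (hm : 8 ≤ m) (hs : 4 * s0 ≤ ((t * m : ℕ) : ℝ)) (hw : 4 * nn (w - p) ≤ ((t * m : ℕ) : ℤ) ∨
      9 * ((t * m : ℕ) : ℤ) ≤ 4 * nn (w - p)) {q : ℕ × (ℤ × ℤ)} (hq : q ∈ Sq1 t m p) :
    Inc (ang L P) (AA L P) q.1 q.2 ∧
    (∀ z ∈ uc q.1 q.2, ∀ s, |AA L P s z| ≤ 4 * C0 / ((t * m : ℕ) : ℝ)) ∧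
    (∀ z ∈ uc q.1 q.2, ∀ z' ∈ uc q.1 q.2, ∀ s s' : Bool × Bool, s.1 = s'.1 →
        |AA L P s z - AA L P s' z'| ≤ 16 * C0 * t / ((t * m : ℕ) : ℝ) ^ 2) := by
  unfold Sq1 at hq
  rw [mem_fm] at hq
  obtain ⟨k, hk, rfl⟩ := hq
  have hlow := fun y h1 h2 h3 h4 => h.low ht hm hw (y := y) hk h1 h2 h3 h4
  have hρ0 : (0 : ℝ) < ((t * m : ℕ) : ℝ) := by
    have : 0 < t * m := Nat.mul_pos ht (by omega)
    exact_mod_cast this
  have hρL : ((t * m : ℕ) : ℝ) ≤ L := by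
    have h1 := h.pos.1
    have h2 := h.pos.2.1
    have : ((t * m : ℕ) : ℤ) ≤ L := by push_cast at h1 h2 ⊢; nlinarith
    exact_mod_cast this
  have hG := hgeo L t P (p + cor t k) (((t * m : ℕ) : ℝ) / 4) ht (by linarith) (by linarith)
    h.nP (fun y h1 h2 h3 h4 => hlow y h1 h2 h3 h4)
  have hA : ∀ e : BI t, AA L P e.2 (p + cor t k + (((e.1.1 : ℕ) : ℤ), ((e.1.2 : ℕ) : ℤ))) =
      inc L P (p + cor t k + bu e) (p + cor t k + bv e) := by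
    intro e
    rw [l1_bu, l1_bv]
    rfl
  refine ⟨?_, ?_, ?_⟩
  · intro z hz s
    obtain ⟨e, he, hz'⟩ := exists_BI hz s
    have h1 := hA e
    subst he
    rw [hz'] at h1
    rw [h1]
    have u := g2_bu e
    have v := g2_bv e
    have hne : ∀ y : ℤ × ℤ, 0 ≤ y.1 ∧ y.1 ≤ t ∧ 0 ≤ y.2 ∧ y.2 ≤ t →
        wf L P (p + cor t k + y) ≠ 0 := by
      intro y hy h0
      have h5 := hlow y hy.1 hy.2.1 hy.2.2.1 hy.2.2.2
      rw [h0, norm_zero] at h5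
      linarith
    rw [H529.inc_coe (hne _ u) (hne _ v)]
    unfold dT
    rw [← hz', ← l1_bu, ← l1_bv]
  · intro z hz s
    obtain ⟨e, he, hz'⟩ := exists_BI hz s
    have h1 := hA e
    subst he
    rw [hz'] at h1
    rw [h1]
    refine (hG e).1.trans (le_of_eq ?_)
    field_simp
  · intro z hz z' hz' s s' hss
    obtain ⟨e, he, hz1⟩ := exists_BI hz s
    obtain ⟨e', he', hz1'⟩ := exists_BI hz' s'
    have h1 := hA e
    have h1' := hA e'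
    subst he
    subst he'
    rw [hz1] at h1
    rw [hz1'] at h1'
    rw [h1, h1']
    refine ((hG e).2 e' ?_).trans (le_of_eq ?_)
    · unfold hh; rw [hss]
    · field_simp
      ring

/-- the box used for the circulation -/
noncomputable def bxp (ρ : ℕ) (p : ℤ × ℤ) : Finset (ℤ × ℤ) :=
  Finset.Icc (p.1 - (2 * ρ + 1)) (p.1 + (2 * ρ + 1)) ×ˢ
    Finset.Icc (p.2 - (2 * ρ + 1)) (p.2 + (2 * ρ + 1))

theorem mem_bxp {ρ : ℕ} {p z : ℤ × ℤ} : z ∈ bxp ρ p ↔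
    (p.1 - (2 * ρ + 1) ≤ z.1 ∧ z.1 ≤ p.1 + (2 * ρ + 1)) ∧
      (p.2 - (2 * ρ + 1) ≤ z.2 ∧ z.2 ≤ p.2 + (2 * ρ + 1)) := by
  unfold bxp
  rw [Finset.mem_product, Finset.mem_Icc, Finset.mem_Icc]

/-- **the circulation of the vortex against the test** -/
theorem Loc.circ {L t m : ℕ} {P : ℂ} {w p : ℤ × ℤ} (h : Loc L (t * m) P w p) (ht : 1 ≤ t)
    (hm : 1 ≤ m) {Y : ℝ} (hY : ∀ q ∈ Sq1 t m p, ∀ z ∈ uc q.1 q.2, ∀ s, |AA L P s z| ≤ Y) :
    |nS (Sq1 t m p) (fr t m p) (AA L P) - 2 * Real.pi * (((psi (t * (2 * m)) (w - p) : ℝ) -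
      psi (t * m) (w - p)) / ((t * m : ℕ) : ℝ))| ≤ 24 * Y := by
  have e2 : ((t * (2 * m) : ℕ) : ℤ) = 2 * ((t * m : ℕ) : ℤ) := by push_cast; ring
  have hρ0 : (0 : ℝ) < ((t * m : ℕ) : ℝ) := by
    have : 0 < t * m := Nat.mul_pos ht (by omega)
    exact_mod_cast this
  have hcurl : ∀ z ∈ bxp (t * m) p, ∀ y : ℤ × ℤ, (y.1 = 0 ∨ y.1 = 1) → (y.2 = 0 ∨ y.2 = 1) →
      wf L P (z + y) = uu w (z + y) := by
    intro z hz y h1 h2
    rw [mem_bxp] at hz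
    apply h.near
    · rw [Prod.fst_add, abs_le]
      constructor <;> rcases h1 with h1 | h1 <;> rw [h1] <;> omega
    · rw [Prod.snd_add, abs_le]
      constructor <;> rcases h2 with h2 | h2 <;> rw [h2] <;> omega
  have hw : curl (AA L P) w = 2 * Real.pi := by
    apply curl_w
    intro y h1 h2
    have key : ∀ x v : ℤ, (x = 0 ∨ x = 1) → |(v : ℝ) - ctr L| + 1 ≤ L / 4 →
        |((v + x : ℤ) : ℝ) - ctr L| ≤ L / 4 := by
      intro x v hx hv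
      have h3 : ((v + x : ℤ) : ℝ) - ctr L = ((v : ℝ) - ctr L) + x := by push_cast; ring
      rw [h3]
      refine (abs_add_le _ _).trans ?_
      have h4 : |(x : ℝ)| ≤ 1 := by rcases hx with hx | hx <;> rw [hx] <;> simp
      linarith
    exact h.wfu _ (key _ _ h1 h.w1) (key _ _ h2 h.w2)
  have hcov : cov (Sq1 t m p) ⊆ bxp (t * m) p := by
    intro z hz
    unfold cov at hz
    rw [Finset.mem_biUnion] at hz
    obtain ⟨q, hq, hz⟩ := hz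
    unfold Sq1 at hq
    rw [mem_fm] at hq
    obtain ⟨k, hk, rfl⟩ := hq
    obtain ⟨y, y1, y2, y3, y4, y5⟩ := mem_sq hz
    unfold Ks at hk
    rw [Finset.mem_filter, mem_bk] at hk
    obtain ⟨⟨⟨b1, b2⟩, b3, b4⟩, -⟩ := hk
    have f1 : z.1 - p.1 = t * k.1 + y.1 := congrArg Prod.fst y5
    have f2 : z.2 - p.2 = t * k.2 + y.2 := congrArg Prod.snd y5
    have g1 : (t : ℤ) * (-((2 * m : ℕ) : ℤ)) ≤ t * k.1 := mul_le_mul_of_nonneg_left b1 (by omega)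
    have g2 : (t : ℤ) * (k.1 + 1) ≤ t * ((2 * m : ℕ) : ℤ) :=
      mul_le_mul_of_nonneg_left b2 (by omega)
    have g3 : (t : ℤ) * (-((2 * m : ℕ) : ℤ)) ≤ t * k.2 := mul_le_mul_of_nonneg_left b3 (by omega)
    have g4 : (t : ℤ) * (k.2 + 1) ≤ t * ((2 * m : ℕ) : ℤ) :=
      mul_le_mul_of_nonneg_left b4 (by omega)
    rw [mem_bxp]
    push_cast at g1 g2 g3 g4 ⊢
    refine ⟨⟨?_, ?_⟩, ?_, ?_⟩ <;> linarith
  have hB : ∀ r : ℕ, (r : ℤ) ≤ 2 * ((t * m : ℕ) : ℤ) → ∀ z, nn (z - p) ≤ r →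
      z ∈ bxp (t * m) p ∧ z + (1, 0) ∈ bxp (t * m) p ∧ z + (0, 1) ∈ bxp (t * m) p := by
    intro r hr z hz
    rw [nn_n1] at hz
    have n1' := n1_nonneg (z - p).1
    have n2' := n1_nonneg (z - p).2
    have m1 := n1_lt (x := (z - p).1) (N := r) (by omega)
    have m2 := n1_lt (x := (z - p).2) (N := r) (by omega)
    rw [Prod.fst_sub] at m1
    rw [Prod.snd_sub] at m2
    rw [mem_bxp, mem_bxp, mem_bxp]
    simp only [Prod.fst_add, Prod.snd_add]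
    refine ⟨⟨⟨?_, ?_⟩, ?_, ?_⟩, ⟨⟨?_, ?_⟩, ?_, ?_⟩, ⟨?_, ?_⟩, ?_, ?_⟩ <;> omega
  have hrim : ∀ M : ℕ, m ≤ M → M ≤ 2 * m → ∀ z, nn (z - p) = ((t * M : ℕ) : ℤ) → ∀ s,
      |AA L P s z| ≤ Y := by
    intro M h1 h2 z hz s
    obtain ⟨k, hk⟩ := exists_sq ht p z
    have k1 := nn_idx ht hk hz.le
    have k2 := nn_idx' ht hk hz.ge
    refine hY (t, p + cor t k) ?_ z hk s
    unfold Sq1 Ks
    rw [mem_fm]
    refine ⟨k, Finset.mem_filter.2 ⟨bk_of_nn (k1.trans (by exact_mod_cast h2)), ?_, ?_⟩, rfl⟩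
    · exact le_trans (by exact_mod_cast h1) k2
    · exact k1.trans (by exact_mod_cast h2)
  have c2 := circ_pyr (cns_AA L P) (q := p) (w := w) (r := t * (2 * m)) (B := bxp (t * m) p)
    (hB _ (by rw [e2])) (fun z hz hne => curl_zero (hcurl z hz) hne) hw
    (hrim (2 * m) (by omega) le_rfl)
  have c1 := circ_pyr (cns_AA L P) (q := p) (w := w) (r := t * m) (B := bxp (t * m) p)
    (hB _ (by omega)) (fun z hz hne => curl_zero (hcurl z hz) hne) hw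
    (hrim m le_rfl (by omega))
  rw [nS_fr ht h.pos _ hcov]
  obtain ⟨ρ, hρ⟩ : ∃ ρ : ℝ, ρ = ((t * m : ℕ) : ℝ) := ⟨_, rfl⟩
  have e3 : ((t * (2 * m) : ℕ) : ℝ) = 2 * ρ := by rw [hρ]; push_cast; ring
  rw [e3] at c2
  rw [← hρ] at c1 hρ0 ⊢
  obtain ⟨U2, hU2⟩ : ∃ x : ℝ, x = ∑ z ∈ bxp (t * m) p, 1 / 2 * ∑ s : Bool × Bool,
    pyr (t * (2 * m)) p s z * AA L P s z := ⟨_, rfl⟩
  obtain ⟨U1, hU1⟩ : ∃ x : ℝ, x = ∑ z ∈ bxp (t * m) p, 1 / 2 * ∑ s : Bool × Bool,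
    pyr (t * m) p s z * AA L P s z := ⟨_, rfl⟩
  rw [← hU2] at c2 ⊢
  rw [← hU1] at c1 ⊢
  have e4 : 1 / ρ * (U2 - U1) - 2 * Real.pi * (((psi (t * (2 * m)) (w - p) : ℝ) -
      psi (t * m) (w - p)) / ρ) = 1 / ρ * ((U2 - 2 * Real.pi * (psi (t * (2 * m)) (w - p) : ℝ)) -
        (U1 - 2 * Real.pi * (psi (t * m) (w - p) : ℝ))) := by ring
  rw [e4, abs_mul, abs_of_pos (by positivity)]
  have h6 := abs_sub (U2 - 2 * Real.pi * (psi (t * (2 * m)) (w - p) : ℝ))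
    (U1 - 2 * Real.pi * (psi (t * m) (w - p) : ℝ))
  calc _ ≤ 1 / ρ * (8 * (2 * ρ) * Y + 8 * ρ * Y) :=
        mul_le_mul_of_nonneg_left (by linarith) (by positivity)
    _ = 24 * Y := by field_simp; ring

/-- **test theorem for one test and one vortex** -/
theorem test_loc (B : ℝ) (hB : 0 < B) : ∃ C s0 m0 : ℝ, 0 ≤ C ∧ 8 ≤ m0 ∧ ∀ b : ℝ, 0 < b → b ≤ B →
    ∀ Y0 C1 : ℝ, 0 ≤ Y0 → 0 ≤ C1 → RPb b Y0 C1 → ∀ (L t m : ℕ) (P : ℂ) (w p : ℤ × ℤ), 1 ≤ t →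
      Loc L (t * m) P w p → 2 ∣ t * m → m0 ≤ m → s0 ≤ ((t * m : ℕ) : ℝ) → Y0 ≤ stiff t b →
      ∀ v : ℝ, ((4 * nn (w - p) ≤ ((t * m : ℕ) : ℤ) ∧ v = 2 * Real.pi * stiff t b) ∨
        (9 * ((t * m : ℕ) : ℤ) ≤ 4 * nn (w - p) ∧ v = 0)) →
      ∃ G : Ginf → ℝ, Continuous G ∧ (∀ x, 0 ≤ G x) ∧
        (∀ x, 1 < |H282.TT b (Sq1 t m p) (fr t m p) (x + ang L P) - v| → 1 ≤ G x) ∧
        Ev b L 0 G ≤ C * (1 + C1) * ((stiff t b - Y0) + 1 / m +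
          1 / Real.sqrt ((t * m : ℕ) : ℝ)) := by
  obtain ⟨C0, s1, hC0, hs1, hgeo⟩ := H529.geo_inc'
  obtain ⟨C, hC, hT⟩ := test_T B hB
  refine ⟨720 + 32768 * C0 ^ 2 + (864 * B + 8192 * B * C0 ^ 2 +
    4 * C * (4608 * C0 ^ 2 + 608 * C0)) + (180 + 3072 * C0 ^ 2), max (4 * s1) (192 * B * C0),
    max 8 (4 * C0), by positivity, le_max_left _ _, ?_⟩
  intro b hb hbB Y0 C1 hY0 hC1 hR L t m P w p ht hloc hev hm hs hst v hv
  have hm8 : (8 : ℝ) ≤ m := (le_max_left _ _).trans hm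
  have hm8' : 8 ≤ m := by exact_mod_cast hm8
  have hmC : 4 * C0 ≤ m := (le_max_right _ _).trans hm
  have hs4 : 4 * s1 ≤ ((t * m : ℕ) : ℝ) := (le_max_left _ _).trans hs
  have hsB : 192 * B * C0 ≤ ((t * m : ℕ) : ℝ) := (le_max_right _ _).trans hs
  have hw : 4 * nn (w - p) ≤ ((t * m : ℕ) : ℤ) ∨ 9 * ((t * m : ℕ) : ℤ) ≤ 4 * nn (w - p) := by
    rcases hv with hv | hv
    · exact Or.inl hv.1
    · exact Or.inr hv.1
  have hbd := fun q hq => hloc.inc_bd hgeo ht hm8' hs4 hw (q := q) hq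
  obtain ⟨ρ, hρ⟩ : ∃ ρ : ℝ, ρ = ((t * m : ℕ) : ℝ) := ⟨_, rfl⟩
  have hm0 : (0 : ℝ) < m := by linarith
  have ht0 : (0 : ℝ) < t := by exact_mod_cast ht
  have hρtm : ρ = t * m := by rw [hρ]; push_cast; ring
  have hρ0 : 0 < ρ := by rw [hρtm]; positivity
  have htm : (t : ℝ) = ρ / m := by rw [hρtm]; field_simp
  have hC00 : 0 < C0 := by linarith
  have hF := hloc.pos.fam1 ht
  have hV := vS_fr hb hY0 hC1 hR ht (by omega) hev hloc.pos hst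
  have hD := D_fr hb hY0 hC1 hR ht (by omega) hloc.pos hst
  have hcirc := hloc.circ ht (by omega) (fun q hq => (hbd q hq).2.1)
  rw [← hρ] at hV hD hcirc hsB hbd ⊢
  obtain ⟨x, hx⟩ : ∃ x : ℝ, x = Real.sqrt ρ := ⟨_, rfl⟩
  have hx0 : 0 < x := by rw [hx]; exact Real.sqrt_pos.2 hρ0
  rw [← hx] at hV hD ⊢
  obtain ⟨S, hS⟩ : ∃ S : ℝ, S = stiff t b - Y0 := ⟨_, rfl⟩
  have hS0 : 0 ≤ S := by rw [hS]; linarith
  rw [← hS] at hV hD ⊢
  obtain ⟨G, G1, G2, G3, G4⟩ := hT b hb hbB L t (Sq1 t m p) (bad1 t m p) ht (bad1_sub t m p) hF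
    (fun q hq => Sq1_side hq) (ang L P) (AA L P) (fr t m p) (2 / ρ) (4 * C0 / ρ)
    (16 * C0 * t / ρ ^ 2) (40 * S + 48 * b / m + 10 * C1 / x)
    (ρ ^ 2 * (512 * S + 128 * b / m + 48 * C1 / x)) (1 / 2) (by norm_num) (by positivity)
    (by positivity) (by positivity)
    (by
      rw [htm]
      have : ρ / m * (4 * C0 / ρ) = 4 * C0 / m := by field_simp
      rw [this, div_le_one hm0]
      exact hmC)
    (fun q hq => (hbd q hq).1) (fun q hq => (hbd q hq).2.1) (fun q hq => (hbd q hq).2.2)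
    (fun q hq z _ s => by rw [hρ]; exact fr_abs t m p s z)
    (fun q hq hq' => by rw [hρ]; exact fr_cst' ht hq hq') hV hD
  refine ⟨G, G1, G2, ?_, G4.trans ?_⟩
  · intro y hy
    apply G3
    -- the value of the mean
    have hval : |stiff t b * nS (Sq1 t m p) (fr t m p) (AA L P) - v| ≤ 1 / 2 := by
      have hst0 := stiff_nonneg' hb.le ht
      have hstb := h3_stiff_le hb ht
      have h1 : v = stiff t b * (2 * Real.pi * (((psi (t * (2 * m)) (w - p) : ℝ) -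
          psi (t * m) (w - p)) / ρ)) := by
        rcases hv with ⟨h2, h3⟩ | ⟨h2, h3⟩
        · rw [psi_in (by
            have hnn := nn_pos (w - p)
            omega), ← hρ, div_self hρ0.ne', h3]
          ring
        · rw [psi_out (by
            have : ((t * (2 * m) : ℕ) : ℤ) = 2 * ((t * m : ℕ) : ℤ) := by push_cast; ring
            omega), h3]
          simp
      rw [h1, ← mul_sub, abs_mul, abs_of_nonneg hst0]
      calc _ ≤ B * (24 * (4 * C0 / ρ)) :=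
            mul_le_mul (hstb.trans hbB) hcirc (abs_nonneg _) hB.le
        _ = (96 * B * C0) / ρ := by ring
        _ ≤ 1 / 2 := by
            rw [div_le_iff₀ hρ0]
            linarith
    have h4 := abs_add_le (H282.TT b (Sq1 t m p) (fr t m p) (y + ang L P) -
      stiff t b * nS (Sq1 t m p) (fr t m p) (AA L P))
      (stiff t b * nS (Sq1 t m p) (fr t m p) (AA L P) - v)
    rw [sub_add_sub_cancel] at h4
    linarith
  · have c1 : ((Sq1 t m p).card : ℝ) ≤ 16 * (m : ℝ) ^ 2 := by exact_mod_cast Sq1_card t m p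
    have c2 : ((bad1 t m p).card : ℝ) ≤ 12 * (m : ℝ) := by exact_mod_cast bad1_card t m p
    have hm1 : (1 : ℝ) ≤ m := by linarith
    have d1 : ((Sq1 t m p).card : ℝ) * ((t : ℝ) ^ 2 * (16 * C0 * t / ρ ^ 2) ^ 2 +
        (t : ℝ) ^ 3 * (2 / ρ) * (4 * C0 / ρ) ^ 2 + (t : ℝ) ^ 2 * (2 / ρ) * (16 * C0 * t / ρ ^ 2)) ≤
        (4608 * C0 ^ 2 + 512 * C0) / m := by
      refine (mul_le_mul_of_nonneg_right c1 (by positivity)).trans ?_
      have e1 : 16 * (m : ℝ) ^ 2 * ((t : ℝ) ^ 2 * (16 * C0 * t / ρ ^ 2) ^ 2 +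
        (t : ℝ) ^ 3 * (2 / ρ) * (4 * C0 / ρ) ^ 2 + (t : ℝ) ^ 2 * (2 / ρ) * (16 * C0 * t / ρ ^ 2)) =
          (4096 * C0 ^ 2 / m + (512 * C0 ^ 2 + 512 * C0)) / m := by
        rw [htm]
        field_simp
        ring
      rw [e1]
      apply div_le_div_of_nonneg_right _ hm0.le
      have : 4096 * C0 ^ 2 / m ≤ 4096 * C0 ^ 2 := div_le_self (by positivity) hm1
      linarith
    have d2 : ((bad1 t m p).card : ℝ) * ((t : ℝ) ^ 2 * (2 / ρ) * (4 * C0 / ρ)) ≤ 96 * C0 / m := by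
      refine (mul_le_mul_of_nonneg_right c2 (by positivity)).trans (le_of_eq ?_)
      rw [htm]
      field_simp
      ring
    have d3 : (4 * C0 / ρ) ^ 2 * (ρ ^ 2 * (512 * S + 128 * b / m + 48 * C1 / x)) =
        16 * C0 ^ 2 * (512 * S + 128 * b / m + 48 * C1 / x) := by
      field_simp
      norm_num
    have d4 := add_le_add d1 d2
    have d5 := mul_le_mul_of_nonneg_left d4 hC
    have d6 : C * ((4608 * C0 ^ 2 + 512 * C0) / m + 96 * C0 / m) =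
        C * (4608 * C0 ^ 2 + 608 * C0) / m := by ring
    rw [d6] at d5
    rw [d3]
    have k1 : 4 / (1 / 2 : ℝ) ^ 2 = 16 := by norm_num
    have k2 : 2 / (1 / 2 : ℝ) = 4 := by norm_num
    rw [k1, k2]
    have hb1 : b / m ≤ B / m := div_le_div_of_nonneg_right hbB hm0.le
    have f1 : 48 * b / m ≤ 48 * B / m := div_le_div_of_nonneg_right (by linarith) hm0.le
    have f2 : 128 * b / m ≤ 128 * B / m := div_le_div_of_nonneg_right (by linarith) hm0.le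
    have f3 := mul_le_mul_of_nonneg_left f2 (show 0 ≤ 16 * C0 ^ 2 by positivity)
    have g1 : (0 : ℝ) ≤ 1 / m := by positivity
    have g2 : (0 : ℝ) ≤ 1 / x := by positivity
    obtain ⟨K, hK⟩ : ∃ K : ℝ, K = 720 + 32768 * C0 ^ 2 + (864 * B + 8192 * B * C0 ^ 2 +
      4 * C * (4608 * C0 ^ 2 + 608 * C0)) + (180 + 3072 * C0 ^ 2) := ⟨_, rfl⟩
    have u1 : 720 + 32768 * C0 ^ 2 ≤ K := by
      rw [hK]
      have : 0 ≤ 864 * B + 8192 * B * C0 ^ 2 + 4 * C * (4608 * C0 ^ 2 + 608 * C0) := by positivity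
      nlinarith only [this, sq_nonneg C0]
    have u2 : 864 * B + 8192 * B * C0 ^ 2 + 4 * C * (4608 * C0 ^ 2 + 608 * C0) ≤ K := by
      rw [hK]
      nlinarith only [sq_nonneg C0]
    have u3 : 180 + 3072 * C0 ^ 2 ≤ K := by
      rw [hK]
      have : 0 ≤ 864 * B + 8192 * B * C0 ^ 2 + 4 * C * (4608 * C0 ^ 2 + 608 * C0) := by positivity
      nlinarith only [this, sq_nonneg C0]
    rw [← hK]
    have hK0 : 0 ≤ K := le_trans (by positivity) u1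
    have w1 := mul_le_mul_of_nonneg_right u1 hS0
    have w2 := mul_le_mul_of_nonneg_right u2 g1
    have w3 := mul_le_mul_of_nonneg_right u3 (show 0 ≤ C1 * (1 / x) by positivity)
    have w4 : 0 ≤ K * C1 * (S + 1 / m) := by positivity
    have w5 : 0 ≤ K * (1 / x) := by positivity
    have t1 : 16 * (40 * S + 48 * b / m + 10 * C1 / x) + 4 * ((40 * S + 48 * b / m +
        10 * C1 / x) / 2 + 16 * C0 ^ 2 * (512 * S + 128 * b / m + 48 * C1 / x) +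
        C * (4608 * C0 ^ 2 + 608 * C0) / m) ≤
        (720 + 32768 * C0 ^ 2) * S + (864 * B + 8192 * B * C0 ^ 2 +
        4 * C * (4608 * C0 ^ 2 + 608 * C0)) * (1 / m) + (180 + 3072 * C0 ^ 2) *
        (C1 * (1 / x)) := by
      have r1 : (720 + 32768 * C0 ^ 2) * S + (864 * B + 8192 * B * C0 ^ 2 +
        4 * C * (4608 * C0 ^ 2 + 608 * C0)) * (1 / m) + (180 + 3072 * C0 ^ 2) *
        (C1 * (1 / x)) = 16 * (40 * S + 48 * B / m + 10 * C1 / x) + 4 * ((40 * S + 48 * B / m +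
        10 * C1 / x) / 2 + (16 * C0 ^ 2 * (512 * S + 48 * C1 / x) + 16 * C0 ^ 2 * (128 * B / m)) +
        C * (4608 * C0 ^ 2 + 608 * C0) / m) := by ring
      rw [r1]
      linarith only [f1, f3]
    linarith only [t1, d5, w1, w2, w3, w4, w5]

end Vale.Agent.P159.UJ.H253
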