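import Vale.Agent.P159.H253.Grp2
import Vale.Agent.P159.H282.Glue

/-!
# Lower bound of the vortex ratio and growth of the sum of the excesses of the stiffness
-/

set_option linter.all false

open Filter Topology
open scoped BigOperators

namespace Vale.Agent.P159.UJ.H253

open H282

/-- **V_low'** for the block: at a coupling with `helicity b = 2 / π` the vortex ratio is at least
`c exp(-C₃ T_n)` and the sum `T_N` of the excesses of the stiffness grows at least like
`κ log N` -/
theorem low {b C1 : ℝ} (hb : 0 < b) (hC1 : 0 ≤ C1) (hhel : helicity b = 2 / Real.pi)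
    (hR : RPb b (helicity b) C1) :
    (∃ c C3 : ℝ, 0 < c ∧ 0 < C3 ∧
      ∀ n, c * Real.exp (-(C3 * ∑ i ∈ Finset.range n, xs b i)) ≤ yy b (2 ^ n)) ∧
    ∃ κ : ℝ, 0 < κ ∧ ∀ᶠ N : ℕ in atTop, κ * Real.log N ≤ ∑ i ∈ Finset.range N, xs b i := by
  obtain ⟨c1, c0, a, hc1, hc0, ha, hG⟩ := group b C1 hb hC1
  rw [hhel] at hR
  have hst : ∀ t : ℕ, 1 ≤ t → 2 / Real.pi ≤ stiff t b := by
    intro t ht
    rw [← hhel]
    exact Vale.Agent.P159.H177.helicity_le hb.le ht
  refine glue hb (by rw [hhel]; positivity) (a := a) (n0 := 12) (i0 := 0) hc1 hc0 ?_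
  intro i n _ hn hsum
  have h := hG b hb le_rfl hR (2 ^ i) n Nat.one_le_two_pow hn
    (fun k => hst _ (Nat.mul_pos Nat.one_le_two_pow (by positivity))) (by
      refine le_trans (le_of_eq ?_) hsum
      refine Finset.sum_congr rfl fun k _ => ?_
      unfold xs
      rw [hhel, pow_add])
  rw [pow_add, pow_add, pow_add]
  exact h

end Vale.Agent.P159.UJ.H253
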