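import Vale.Agent.P159.H856.Arr

/-!
P159 (helper253), finite size pyramid bound, part 1: rectangles, reflections of horizontal fields,
the reversed reflection positivity.
-/

set_option linter.all false

open MeasureTheory Filter Topology
open scoped BigOperators

namespace Vale.Agent.P159.H253

open Vale.Agent.P159 Vale.Agent.P159.UJ Vale.Agent.P159.H950 Vale.Agent.P159.H856

noncomputable section

/-! ### symmetry and the reversed reflection positivity -/

theorem ac_ac (r : Refl) (y : HF) : ac r (ac r y) = y := by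
  funext t c
  show r.sg t.1 * (r.sg (r.tm t).1 * y (r.tm (r.tm t)) (r.cm (r.cm c))) = y t c
  rw [r.tm_dm, r.sg_dm, r.tm_tm, r.cm_cm, ← mul_assoc]
  have : r.sg t.1 * r.sg t.1 = 1 := by rcases r.sg_or t.1 with h | h <;> rw [h] <;> norm_num
  rw [this, one_mul]

/-- the form is invariant under a symmetry of the region -/
theorem qG_ac (r : Refl) {b : ℝ} {R : Finset (ℤ × ℤ)} (h : r.Sym R) (y : HF) :
    qG b R (ac r y) = qG b R y := by
  have hinj : Function.Injective r.s := by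
    intro u v huv
    rw [← r.s_s u, huv, r.s_s]
  have hproj : ∀ (x : Ginf) (v : ℤ × ℤ), proj (intR R) (relabel r.s x) v =
      proj (intR R) x (r.s v) := by
    intro x v
    rw [relabel_proj (intR R) r.s h.2]
    rfl
  have hsq : ∀ d, r.sg d * r.sg d = 1 := by
    intro d
    rcases r.sg_or d with h | h <;> rw [h] <;> norm_num
  refine Qform_tr muInf (J := fun _ : KR R => b / 2) (χ := chiR R)
    (J' := fun _ : KR R => b / 2) (χ' := chiR R) (rE r h)
    (fun x => relabel r.s x) (fun F hF => integral_relabel r.s hinj muInf muInf hF)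
    (fun e => r.sg e.2.1) (fun e => r.sg_or _) (fun e => rfl) (fun e x => ?_) (fun e x => ?_)
    (fun e => ?_)
  · show cosT (proj (intR R) x (hu e.1 e.2) - proj (intR R) x (hv e.1 e.2)) =
      cosT (proj (intR R) (relabel r.s x) (hu (r.cm e.1) (r.tm e.2)) -
        proj (intR R) (relabel r.s x) (hv (r.cm e.1) (r.tm e.2)))
    rw [hproj, hproj]
    rcases r.ends e.1 e.2 with ⟨_, h1, h2⟩ | ⟨_, h1, h2⟩
    · rw [h1, h2, r.s_s, r.s_s]
    · rw [h1, h2, r.s_s, r.s_s, ← cosT_neg]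
      congr 1
      abel
  · show sinT (proj (intR R) x (hu e.1 e.2) - proj (intR R) x (hv e.1 e.2)) =
      r.sg e.2.1 * sinT (proj (intR R) (relabel r.s x) (hu (r.cm e.1) (r.tm e.2)) -
        proj (intR R) (relabel r.s x) (hv (r.cm e.1) (r.tm e.2)))
    rw [hproj, hproj]
    rcases r.ends e.1 e.2 with ⟨h0, h1, h2⟩ | ⟨h0, h1, h2⟩
    · rw [h0, h1, h2, one_mul, r.s_s, r.s_s]
    · rw [h0, h1, h2, neg_one_mul, ← sinT_neg, r.s_s, r.s_s]
      congr 1
      abel
  · rfl

theorem qG_par (b : ℝ) (R : Finset (ℤ × ℤ)) (y z : HF) :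
    qG b R (y + z) + qG b R (y - z) = 2 * qG b R y + 2 * qG b R z :=
  Qform_par muInf _ _ (fun e : KR R => y e.2 e.1) (fun e : KR R => z e.2 e.1)

theorem qG_neg (b : ℝ) (R : Finset (ℤ × ℤ)) (y : HF) : qG b R (-y) = qG b R y :=
  Qform_neg muInf _ _ (fun e : KR R => y e.2 e.1)

/-- **reversed reflection positivity**: the odd extension -/
theorem rpG' (r : Refl) {b : ℝ} {R : Finset (ℤ × ℤ)} (h : r.Sym R) (y : HF)
    (hy : ∀ c ∈ R, ∀ t, ¬ r.left c t → y t c = 0) :
    2 * qG b R y ≤ qG b R (y - ac r y) := by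
  have h1 := rpG r (b := b) h y hy
  have h2 := qG_par b R y (ac r y)
  rw [qG_ac r h] at h2
  linarith

/-! ### rectangles -/

/-- the cells of the rectangle with lower left corner `(x, y)`, width `w` and height `h` -/
def rct (x y : ℤ) (w h : ℕ) : Finset (ℤ × ℤ) := Finset.Ico x (x + w) ×ˢ Finset.Ico y (y + h)

theorem mem_rct {x y : ℤ} {w h : ℕ} {c : ℤ × ℤ} : c ∈ rct x y w h ↔
    x ≤ c.1 ∧ c.1 < x + w ∧ y ≤ c.2 ∧ c.2 < y + h := by
  unfold rct
  rw [Finset.mem_product, Finset.mem_Ico, Finset.mem_Ico]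
  tauto

theorem mem_intR_rct {x y : ℤ} {w h : ℕ} {v : ℤ × ℤ} : v ∈ intR (rct x y w h) ↔
    x < v.1 ∧ v.1 < x + w ∧ y < v.2 ∧ v.2 < y + h := by
  unfold intR
  simp only [Set.mem_setOf_eq, mem_rct, Prod.fst_sub, Prod.snd_sub]
  omega

theorem rct_blk (p : ℤ × ℤ) (L : ℕ) : rct p.1 p.2 L L = blk p L := rfl

theorem card_rct (x y : ℤ) (w h : ℕ) : (rct x y w h).card = w * h := by
  unfold rct
  rw [Finset.card_product, Int.card_Ico, Int.card_Ico]
  simp only [add_sub_cancel_left, Int.toNat_natCast]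

theorem rct_sub {x y x' y' : ℤ} {w h w' h' : ℕ} (h1 : x' ≤ x) (h2 : x + w ≤ x' + w')
    (h3 : y' ≤ y) (h4 : y + h ≤ y' + h') : rct x y w h ⊆ rct x' y' w' h' := by
  intro c hc
  rw [mem_rct] at hc ⊢
  omega

theorem symH {x y a : ℤ} {w h : ℕ} (ha : 2 * a = 2 * y + h) : (rH a).Sym (rct x y w h) := by
  refine ⟨fun c => ?_, fun v => ?_⟩
  · show (c.1, 2 * a - 1 - c.2) ∈ _ ↔ _
    rw [mem_rct, mem_rct]; simp only; omega
  · show (v.1, 2 * a - v.2) ∈ _ ↔ _
    rw [mem_intR_rct, mem_intR_rct]; simp only; omega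

/-! ### fields on horizontal bonds depending only on the row -/

/-- the field with value `f y` on the horizontal bonds of the row `y` -/
def hF (f : ℤ → ℝ) : HF := bF (fun v => f v.2) (fun _ => 0)

theorem hF_h (f : ℤ → ℝ) (s : Bool) (c : ℤ × ℤ) :
    hF f (false, s) c = f (c.2 + if s then 1 else 0) := by
  unfold hF bF hu
  simp

theorem hF_v (f : ℤ → ℝ) (s : Bool) (c : ℤ × ℤ) : hF f (true, s) c = 0 := by
  unfold hF bF
  simp

theorem ac_hF (a : ℤ) (f : ℤ → ℝ) : ac (rH a) (hF f) = hF fun y => f (2 * a - y) := by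
  funext t c
  rcases t with ⟨_ | _, s⟩
  · show (1 : ℝ) * hF f (false, !s) (c.1, 2 * a - 1 - c.2) = _
    rw [hF_h, hF_h, one_mul]
    simp only
    congr 1
    cases s <;> simp <;> ring
  · show (-1 : ℝ) * hF f (true, s) (c.1, 2 * a - 1 - c.2) = _
    rw [hF_v, hF_v, mul_zero]

theorem hF_left {a : ℤ} {f : ℤ → ℝ} (hf : ∀ y, a ≤ y → f y = 0) (R : Finset (ℤ × ℤ)) :
    ∀ c ∈ R, ∀ t, ¬ (rH a).left c t → hF f t c = 0 := by
  intro c _ t h
  have h' : ¬ c.2 < a := h
  rcases t with ⟨_ | _, s⟩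
  · rw [hF_h]
    refine hf _ ?_
    split_ifs <;> omega
  · exact hF_v f s c

theorem hF_add (f g : ℤ → ℝ) : hF f + hF g = hF fun y => f y + g y := by
  funext t c
  rcases t with ⟨_ | _, s⟩
  · show hF f _ c + hF g _ c = _
    rw [hF_h, hF_h, hF_h]
  · show hF f _ c + hF g _ c = _
    rw [hF_v, hF_v, hF_v, add_zero]

theorem hF_sub (f g : ℤ → ℝ) : hF f - hF g = hF fun y => f y - g y := by
  funext t c
  rcases t with ⟨_ | _, s⟩
  · show hF f _ c - hF g _ c = _
    rw [hF_h, hF_h, hF_h]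
  · show hF f _ c - hF g _ c = _
    rw [hF_v, hF_v, hF_v, sub_zero]

/-- even extension through the line `y = a` -/
theorem even_ext {b : ℝ} {x y a : ℤ} {w h : ℕ} (ha : 2 * a = 2 * y + h) {f : ℤ → ℝ}
    (hf : ∀ y, a ≤ y → f y = 0) :
    qG b (rct x y w h) (hF fun y => f y + f (2 * a - y)) ≤ 2 * qG b (rct x y w h) (hF f) := by
  have h1 := rpG (rH a) (b := b) (symH (x := x) (w := w) ha) (hF f) (hF_left hf _)
  rw [ac_hF, hF_add] at h1
  exact h1

/-- odd extension through the line `y = a` -/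
theorem odd_ext {b : ℝ} {x y a : ℤ} {w h : ℕ} (ha : 2 * a = 2 * y + h) {f : ℤ → ℝ}
    (hf : ∀ y, a ≤ y → f y = 0) :
    2 * qG b (rct x y w h) (hF f) ≤ qG b (rct x y w h) (hF fun y => f y - f (2 * a - y)) := by
  have h1 := rpG' (rH a) (b := b) (symH (x := x) (w := w) ha) (hF f) (hF_left hf _)
  rw [ac_hF, hF_sub] at h1
  exact h1

end

end Vale.Agent.P159.H253
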