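import Vale.Agent.P159.H253.Pf1

/-!
P159 (helper253), finite size pyramid bound, part 2: tilings of arbitrary regions, monotonicity in
the region, translations.
-/

set_option linter.all false

open MeasureTheory Filter Topology
open scoped BigOperators

namespace Vale.Agent.P159.H253

open Vale.Agent.P159 Vale.Agent.P159.UJ Vale.Agent.P159.H950 Vale.Agent.P159.H856

noncomputable section

/-- the twist given by a half-bond field -/
def twG (R : Finset (ℤ × ℤ)) (y : HF) (e : KR R) : ℝ := y e.2 e.1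

/-- ratio of partition functions of the region at an imaginary twist -/
def rG (b : ℝ) (R : Finset (ℤ × ℤ)) (y : HF) : ℝ :=
  rho muInf (fun _ : KR R => b / 2) (chiR R) (twG R y)

theorem qG_smul (b : ℝ) (R : Finset (ℤ × ℤ)) (s : ℝ) (y : HF) :
    qG b R (s • y) = s ^ 2 * qG b R y :=
  Qform_smul muInf _ _ s (twG R y)

theorem rG_ge {b : ℝ} (hb : 0 ≤ b) (R : Finset (ℤ × ℤ)) (y : HF) :
    Real.exp (qG b R y / 2) ≤ rG b R y :=
  rho_ge muInf _ _ G_div2 (half_nonneg' hb R) _

theorem rG_pos {b : ℝ} (hb : 0 ≤ b) (R : Finset (ℤ × ℤ)) (y : HF) : 0 < rG b R y :=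
  lt_of_lt_of_le (Real.exp_pos _) (rG_ge hb R y)

theorem rG_upper {b : ℝ} (hb : 0 ≤ b) (R : Finset (ℤ × ℤ)) (y : HF) {δ : ℝ} (hδ0 : 0 ≤ δ)
    (hδ1 : δ ≤ 1) (hδ : 4 * b * R.card * δ ≤ 1) (hy : ∀ c ∈ R, ∀ t, |y t c| ≤ δ) :
    rG b R y ≤ Real.exp (qG b R y / 2 + K5 (2 * b * R.card) * δ ^ 4) := by
  have h := rho_second muInf (fun _ : KR R => b / 2) (chiR R) (half_nonneg' hb R)
    (H950.sum_half b R) (twG R y) (Y := δ) hδ1 (by linarith) (fun e => hy e.1 e.1.2 e.2) hδ0
  refine h.trans ?_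
  have h2 := Real.add_one_le_exp (qG b R y / 2 + K5 (2 * b * R.card) * δ ^ 4)
  unfold qG K5 at *
  have h3 : (fun e : KR R => y e.2 e.1) = twG R y := rfl
  rw [h3] at h2 ⊢
  linarith

theorem rhoG_fib (b : ℝ) {ι : Type*} [DecidableEq ι] (R : Finset (ℤ × ℤ)) (τ : ℤ × ℤ → ι) (k : ι)
    (y : HF) :
    rho muInf (fun e : {e : KR R // τ e.1 = k} => b / 2)
      (fun e : {e : KR R // τ e.1 = k} => (chiR R e.1).comp
        (proj (intR (R.filter fun c => τ c = k))) (proj_cont _)) (fun e => twG R y e.1) =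
    rG b (R.filter fun c => τ c = k) y := by
  have h := rho_tr muInf (J := fun e : {e : KR R // τ e.1 = k} => b / 2)
    (χ := fun e : {e : KR R // τ e.1 = k} => (chiR R e.1).comp
        (proj (intR (R.filter fun c => τ c = k))) (proj_cont _))
    (J' := fun _ : KR (R.filter fun c => τ c = k) => b / 2)
    (χ' := chiR (R.filter fun c => τ c = k))
    (fibE R τ k) (fun x => x) (fun F _ => rfl) (fun _ => 1)
    (fun _ => Or.inl rfl) (fun e => rfl) (fun e x => fib_c R τ k e x)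
    (fun e x => by rw [one_mul]; exact fib_s R τ k e x)
    (y := fun e => twG R y e.1) (y' := twG (R.filter fun c => τ c = k) y)
    (fun e => by rw [one_mul]; rfl)
  exact h

theorem rG_tile {b : ℝ} (hb : 0 ≤ b) {ι : Type*} [DecidableEq ι] (R : Finset (ℤ × ℤ))
    (S : Finset ι) (τ : ℤ × ℤ → ι) (hτ : ∀ c ∈ R, τ c ∈ S) (y : HF) :
    rG b R y ≤ ∏ k ∈ S, rG b (R.filter fun c => τ c = k) y := by
  have h := tile_bound muInf (fun _ : KR R => b / 2) (chiR R) G_div2 (half_nonneg' hb R) S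
    (fun e : KR R => τ e.1) (fun e => hτ e.1 e.1.2)
    (fun k => proj (intR (R.filter fun c => τ c = k))) (fun k => proj_cont _)
    (fun k e he x => tile_indep R τ k e he x) (twG R y)
  have h2 : ∀ k ∈ S, rho muInf (fun e : {e : KR R // τ e.1 = k} => b / 2)
      (fun e : {e : KR R // τ e.1 = k} => (chiR R e.1).comp
        (proj (intR (R.filter fun c => τ c = k))) (proj_cont _)) (fun e => twG R y e.1) =
      rG b (R.filter fun c => τ c = k) y := fun k _ => rhoG_fib b R τ k y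
  rw [← Finset.prod_congr rfl h2]
  exact h

/-- **subadditivity of the quadratic form** for arbitrary tilings -/
theorem qG_tile {b : ℝ} (hb : 0 ≤ b) {ι : Type*} [DecidableEq ι] (R : Finset (ℤ × ℤ))
    (S : Finset ι) (τ : ℤ × ℤ → ι) (hτ : ∀ c ∈ R, τ c ∈ S) (y : HF) :
    qG b R y ≤ ∑ k ∈ S, qG b (R.filter fun c => τ c = k) y := by
  obtain ⟨M, hM1, hM⟩ : ∃ M : ℝ, 1 ≤ M ∧ ∀ c ∈ R, ∀ t, |y t c| ≤ M := by
    refine ⟨1 + ∑ c ∈ R, ∑ t, |y t c|, ?_, fun c hc t => ?_⟩
    · have : 0 ≤ ∑ c ∈ R, ∑ t, |y t c| :=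
        Finset.sum_nonneg fun c _ => Finset.sum_nonneg fun t _ => abs_nonneg _
      linarith
    · have h1 : |y t c| ≤ ∑ t, |y t c| :=
        Finset.single_le_sum (f := fun t => |y t c|) (fun t _ => abs_nonneg _)
          (Finset.mem_univ t)
      have h2 : ∑ t, |y t c| ≤ ∑ c ∈ R, ∑ t, |y t c| :=
        Finset.single_le_sum (f := fun c => ∑ t, |y t c|)
          (fun c _ => Finset.sum_nonneg fun t _ => abs_nonneg _) hc
      linarith
  set k0 : ℝ := ∑ k ∈ S, K5 (2 * b * (R.filter fun c => τ c = k).card) with hk0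
  have hk00 : 0 ≤ k0 := Finset.sum_nonneg fun k _ => K5_nonneg (by positivity)
  have key : ∀ u : ℝ, 0 < u → u * M ≤ 1 → 4 * b * R.card * (u * M) ≤ 1 →
      qG b R y ≤ (∑ k ∈ S, qG b (R.filter fun c => τ c = k) y) + 2 * k0 * M ^ 4 * u ^ 2 := by
    intro u hu h1 h2
    have h3 := (rG_ge hb R (u • y)).trans (rG_tile hb R S τ hτ (u • y))
    have h4 : ∏ k ∈ S, rG b (R.filter fun c => τ c = k) (u • y) ≤
        ∏ k ∈ S, Real.exp (qG b (R.filter fun c => τ c = k) (u • y) / 2 +
          K5 (2 * b * (R.filter fun c => τ c = k).card) * (u * M) ^ 4) := by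
      refine Finset.prod_le_prod (fun k _ => (rG_pos hb _ _).le) fun k _ => ?_
      refine rG_upper hb _ _ (by positivity) h1 ?_ fun c hc t => ?_
      · refine le_trans ?_ h2
        have : ((R.filter fun c => τ c = k).card : ℝ) ≤ R.card := by
          exact_mod_cast Finset.card_le_card (Finset.filter_subset _ _)
        have hM0 : 0 ≤ u * M := by positivity
        gcongr
      · rw [Pi.smul_apply, Pi.smul_apply, smul_eq_mul, abs_mul, abs_of_pos hu]
        exact mul_le_mul_of_nonneg_left (hM c (Finset.mem_filter.1 hc).1 t) hu.le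
    have h5 := h3.trans h4
    rw [← Real.exp_sum, Real.exp_le_exp] at h5
    simp only [qG_smul] at h5
    rw [Finset.sum_add_distrib, ← Finset.sum_mul, ← hk0, ← Finset.sum_div, ← Finset.mul_sum] at h5
    have hu2 : 0 < u ^ 2 := by positivity
    have h6 : u ^ 2 * qG b R y ≤ u ^ 2 * ((∑ k ∈ S, qG b (R.filter fun c => τ c = k) y) +
        2 * k0 * M ^ 4 * u ^ 2) := by
      nlinarith only [h5]
    exact le_of_mul_le_mul_left h6 hu2
  have htend : Tendsto (fun n : ℕ => (2 : ℝ)⁻¹ ^ n) atTop (𝓝 0) :=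
    tendsto_pow_atTop_nhds_zero_of_lt_one (by norm_num) (by norm_num)
  have hlim : Tendsto (fun n : ℕ => (∑ k ∈ S, qG b (R.filter fun c => τ c = k) y) +
      2 * k0 * M ^ 4 * ((2 : ℝ)⁻¹ ^ n) ^ 2) atTop
      (𝓝 ((∑ k ∈ S, qG b (R.filter fun c => τ c = k) y) + 2 * k0 * M ^ 4 * 0 ^ 2)) :=
    tendsto_const_nhds.add (tendsto_const_nhds.mul (htend.pow 2))
  have c1 := (htend.mul_const M).eventually (ge_mem_nhds (by norm_num : (0:ℝ) * M < 1))
  have c2 := ((htend.mul_const M).const_mul (4 * b * R.card)).eventually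
    (ge_mem_nhds (by norm_num : 4 * b * R.card * ((0:ℝ) * M) < 1))
  have := ge_of_tendsto hlim (by
    filter_upwards [c1, c2] with n h1 h2
    exact key _ (by positivity) h1 h2)
  simpa using this

theorem qG_zero' {b : ℝ} (hb : 0 ≤ b) {R : Finset (ℤ × ℤ)} {y : HF}
    (h : ∀ c ∈ R, ∀ t, y t c = 0) : qG b R y = 0 := by
  have h1 := qG_le hb R y
  have h2 : nG R y = 0 := Finset.sum_eq_zero fun e _ => by rw [h e.1 e.1.2 e.2]; norm_num
  rw [h2, mul_zero] at h1
  exact le_antisymm h1 (qG_nonneg hb R y)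

/-- **monotonicity**: the form decreases when the region becomes larger -/
theorem qG_anti {b : ℝ} (hb : 0 ≤ b) {R R' : Finset (ℤ × ℤ)} (h : R ⊆ R') {y : HF}
    (hy : ∀ c ∈ R', c ∉ R → ∀ t, y t c = 0) : qG b R' y ≤ qG b R y := by
  classical
  have h1 := qG_tile hb R' (Finset.univ : Finset Bool) (fun c => decide (c ∈ R))
    (fun c _ => Finset.mem_univ _) y
  have e1 : (R'.filter fun c => decide (c ∈ R) = true) = R := by
    ext c
    simp only [Finset.mem_filter, decide_eq_true_eq]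
    exact ⟨fun h => h.2, fun h' => ⟨h h', h'⟩⟩
  have e2 : qG b (R'.filter fun c => decide (c ∈ R) = false) y = 0 := by
    refine qG_zero' hb fun c hc t => ?_
    simp only [Finset.mem_filter, decide_eq_false_iff_not] at hc
    exact hy c hc.1 hc.2 t
  rw [Fintype.sum_bool, e1, e2, add_zero] at h1
  exact h1

/-- tiling by a finite family of pairwise disjoint regions up to a rest -/
theorem qG_union {b : ℝ} (hb : 0 ≤ b) {ι : Type*} [DecidableEq ι] (S : Finset ι)
    (T : ι → Finset (ℤ × ℤ)) (hd : ∀ i ∈ S, ∀ j ∈ S, i ≠ j → Disjoint (T i) (T j))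
    {R : Finset (ℤ × ℤ)} (hT : ∀ i ∈ S, T i ⊆ R) (y : HF) :
    qG b R y ≤ (∑ i ∈ S, qG b (T i) y) + b / 2 * nG (R.filter fun c => ∀ i ∈ S, c ∉ T i) y := by
  classical
  -- the tile of a cell
  let τ : ℤ × ℤ → Option ι := fun c => if h : ∃ i ∈ S, c ∈ T i then some h.choose else none
  have hτ : ∀ i ∈ S, ∀ c, c ∈ T i → τ c = some i := by
    intro i hi c hc
    have hex : ∃ j ∈ S, c ∈ T j := ⟨i, hi, hc⟩
    have h1 : τ c = some hex.choose := dif_pos hex
    rw [h1]
    by_contra h2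
    have h3 : hex.choose ≠ i := fun h => h2 (by rw [h])
    exact Finset.disjoint_left.1 (hd _ hex.choose_spec.1 _ hi h3) hex.choose_spec.2 hc
  have hτ' : ∀ i, ∀ c, τ c = some i → i ∈ S ∧ c ∈ T i := by
    intro i c h
    by_cases hex : ∃ j ∈ S, c ∈ T j
    · have h1 : τ c = some hex.choose := dif_pos hex
      rw [h1, Option.some.injEq] at h
      rw [← h]
      exact hex.choose_spec
    · have h1 : τ c = none := dif_neg hex
      rw [h1] at h
      exact absurd h (by simp)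
  have h1 := qG_tile hb R (Finset.insertNone S) τ (fun c _ => by
    rw [Finset.mem_insertNone]
    intro i hi
    exact (hτ' i c hi).1) y
  rw [Finset.sum_insertNone] at h1
  have e1 : (R.filter fun c => τ c = none) = R.filter fun c => ∀ i ∈ S, c ∉ T i := by
    refine Finset.filter_congr fun c _ => ?_
    constructor
    · intro h i hi hc
      rw [hτ i hi c hc] at h
      exact absurd h (by simp)
    · intro h
      exact dif_neg (fun ⟨i, hi, hc⟩ => h i hi hc)
  have e2 : ∀ i ∈ S, qG b (R.filter fun c => τ c = some i) y = qG b (T i) y := by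
    intro i hi
    congr 1
    ext c
    rw [Finset.mem_filter]
    exact ⟨fun h => (hτ' i c h.2).2, fun h => ⟨hT i hi h, hτ i hi c h⟩⟩
  rw [e1, Finset.sum_congr rfl e2] at h1
  have h2 := qG_le hb (R.filter fun c => ∀ i ∈ S, c ∉ T i) y
  linarith

/-! ### translations -/

/-- the translate of a region -/
def trR (q : ℤ × ℤ) (R : Finset (ℤ × ℤ)) : Finset (ℤ × ℤ) :=
  R.map (Equiv.addRight q).toEmbedding

theorem mem_trR {q : ℤ × ℤ} {R : Finset (ℤ × ℤ)} {c : ℤ × ℤ} : c ∈ trR q R ↔ c - q ∈ R := by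
  unfold trR
  rw [Finset.mem_map_equiv]
  simp only [Equiv.addRight_symm, Equiv.coe_addRight]
  rw [← sub_eq_add_neg]

theorem intR_trR {q : ℤ × ℤ} {R : Finset (ℤ × ℤ)} {v : ℤ × ℤ} :
    v + q ∈ intR (trR q R) ↔ v ∈ intR R := by
  unfold intR
  simp only [Set.mem_setOf_eq, mem_trR]
  rw [add_sub_cancel_right, show v + q - (1, 0) - q = v - (1, 0) by abel,
    show v + q - (0, 1) - q = v - (0, 1) by abel, show v + q - (1, 1) - q = v - (1, 1) by abel]

/-- indexing of the half-bonds of a translate -/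
def eTr (q : ℤ × ℤ) (R : Finset (ℤ × ℤ)) : KR (trR q R) ≃ KR R where
  toFun e := (⟨e.1.1 - q, mem_trR.1 e.1.2⟩, e.2)
  invFun e := (⟨e.1.1 + q, mem_trR.2 (by rw [add_sub_cancel_right]; exact e.1.2)⟩, e.2)
  left_inv e := by
    ext <;> simp
  right_inv e := by
    ext <;> simp

theorem proj_trR (q : ℤ × ℤ) (R : Finset (ℤ × ℤ)) (x : Ginf) (v : ℤ × ℤ) :
    proj (intR (trR q R)) x v =
      proj (intR R) (relabel (fun v : ℤ × ℤ => q + v) x) (v - q) := by
  have hiff : v ∈ intR (trR q R) ↔ v - q ∈ intR R := by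
    have := intR_trR (q := q) (R := R) (v := v - q)
    rw [sub_add_cancel] at this
    exact this
  by_cases h : v ∈ intR (trR q R)
  · rw [proj_of_mem h, proj_of_mem (hiff.1 h)]
    show x v = x (q + (v - q))
    congr 1
    abel
  · rw [proj_of_notMem h, proj_of_notMem (fun h' => h (hiff.2 h'))]

theorem hu_sub (c q : ℤ × ℤ) (t : HT) : hu (c - q) t = hu c t - q := by
  unfold hu
  ext
  · simp only [Prod.fst_sub]; ring
  · simp only [Prod.snd_sub]; ring

theorem hv_sub (c q : ℤ × ℤ) (t : HT) : hv (c - q) t = hv c t - q := by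
  unfold hv
  rw [hu_sub]
  abel

/-- **translation** of the form for arbitrary regions -/
theorem qG_trR (b : ℝ) (q : ℤ × ℤ) (R : Finset (ℤ × ℤ)) (y : HF) :
    qG b (trR q R) y = qG b R (shF q y) := by
  refine Qform_tr muInf (J := fun _ : KR (trR q R) => b / 2) (χ := chiR (trR q R))
    (J' := fun _ : KR R => b / 2) (χ' := chiR R) (eTr q R)
    (fun x => relabel (fun v : ℤ × ℤ => q + v) x) (int_tr_real q) (fun _ => 1)
    (fun _ => Or.inl rfl) (fun e => rfl) (fun e x => ?_)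
    (fun e x => ?_) (fun e => ?_)
  · show cosT (proj (intR (trR q R)) x (hu e.1 e.2) - proj (intR (trR q R)) x (hv e.1 e.2)) =
      cosT (proj (intR R) (relabel (fun v : ℤ × ℤ => q + v) x) (hu (e.1.1 - q) e.2) -
        proj (intR R) (relabel (fun v : ℤ × ℤ => q + v) x) (hv (e.1.1 - q) e.2))
    rw [proj_trR, proj_trR, hu_sub, hv_sub]
  · rw [one_mul]
    show sinT (proj (intR (trR q R)) x (hu e.1 e.2) - proj (intR (trR q R)) x (hv e.1 e.2)) =
      sinT (proj (intR R) (relabel (fun v : ℤ × ℤ => q + v) x) (hu (e.1.1 - q) e.2) -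
        proj (intR R) (relabel (fun v : ℤ × ℤ => q + v) x) (hv (e.1.1 - q) e.2))
    rw [proj_trR, proj_trR, hu_sub, hv_sub]
  · rw [one_mul]
    show y e.2 e.1.1 = y e.2 (e.1.1 - q + q)
    rw [sub_add_cancel]

theorem nG_trR (q : ℤ × ℤ) (R : Finset (ℤ × ℤ)) (y : HF) :
    nG (trR q R) y = nG R (shF q y) := by
  unfold nG
  rw [← Equiv.sum_comp (eTr q R)]
  refine Finset.sum_congr rfl fun e _ => ?_
  show y e.2 e.1.1 ^ 2 = y e.2 (e.1.1 - q + q) ^ 2
  rw [sub_add_cancel]

theorem nG_sum (R : Finset (ℤ × ℤ)) (y : HF) :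
    nG R y = ∑ c ∈ R, ∑ t : HT, y t c ^ 2 := by
  unfold nG
  rw [Fintype.sum_prod_type, ← Finset.sum_coe_sort R]

theorem nG_mono {R R' : Finset (ℤ × ℤ)} (h : R ⊆ R') (y : HF) : nG R y ≤ nG R' y := by
  rw [nG_sum, nG_sum]
  exact Finset.sum_le_sum_of_subset_of_nonneg h fun c _ _ =>
    Finset.sum_nonneg fun t _ => sq_nonneg _

end

end Vale.Agent.P159.H253
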