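import Vale.Agent.P159.H253.Pf2

/-!
P159 (helper253), finite size pyramid bound, part 3: steps (5) and (6) of helper856: the horizontal
square wave in a wired square has at least the stiffness of a larger wired square.
-/

set_option linter.all false

open MeasureTheory Filter Topology
open scoped BigOperators

namespace Vale.Agent.P159.H253

open Vale.Agent.P159 Vale.Agent.P159.UJ Vale.Agent.P159.H950 Vale.Agent.P159.H856

noncomputable section

/-! ### the stripe fields -/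

/-- the square wave in the rows `0 < y < n` -/
def Gs (p : ℕ) (n : ℕ) (y : ℤ) : ℝ := if 0 < y ∧ y < n then sqw p y else 0

/-- the squared square wave in the rows `0 < y < n` -/
def Hs (p : ℕ) (n : ℕ) (y : ℤ) : ℝ := if 0 < y ∧ y < n then sqw p y ^ 2 else 0

theorem sqw_mul {p : ℤ} (hp : 0 < p) (k : ℤ) : sqw p (p * k) = 0 := by
  have h1 := sqw_per hp 0 k
  rw [zero_add, sqw_zero hp] at h1
  have h2 := sqw_neg hp (p * k)
  have h3 := sqw_per hp (-(p * k)) k
  rw [show -(p * k) + 2 * p * k = p * k by ring, h2] at h3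
  linarith

theorem sqw_flip {p : ℤ} (hp : 0 < p) (k y : ℤ) : sqw p (2 * (p * k) - y) = - sqw p y := by
  rw [show 2 * (p * k) - y = -y + 2 * p * k by ring, sqw_per hp, sqw_neg hp]

theorem Gs_step {p : ℕ} (hp : 1 ≤ p) (k : ℕ) (y : ℤ) :
    Gs p (2 * (p * k)) y = Gs p (p * k) y - Gs p (p * k) (2 * ((p * k : ℕ) : ℤ) - y) := by
  have hp' : (0 : ℤ) < p := by exact_mod_cast hp
  have hf := sqw_flip hp' (k : ℤ) y
  have hm := sqw_mul hp' (k : ℤ)
  unfold Gs
  push_cast
  have hk : (0 : ℤ) ≤ (p : ℤ) * k := by positivity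
  set a : ℤ := (p : ℤ) * k with ha
  by_cases h1 : 0 < y ∧ y < a
  · rw [if_pos (by omega), if_pos h1, if_neg (by omega), sub_zero]
  · by_cases h2 : a < y ∧ y < 2 * a
    · rw [if_pos (by omega), if_neg h1, if_pos (by omega), hf]
      ring
    · by_cases h3 : y = a
      · subst h3
        have h4 : ¬ (0 < 2 * a - a ∧ 2 * a - a < a) := by omega
        rw [if_neg h1, if_neg h4, hm, ite_self, sub_zero]
      · rw [if_neg (by omega), if_neg h1, if_neg (by omega), sub_zero]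

theorem Hs_step {p : ℕ} (hp : 1 ≤ p) (k : ℕ) (y : ℤ) :
    Hs p (2 * (p * k)) y = Hs p (p * k) y + Hs p (p * k) (2 * ((p * k : ℕ) : ℤ) - y) := by
  have hp' : (0 : ℤ) < p := by exact_mod_cast hp
  have hf := sqw_flip hp' (k : ℤ) y
  have hm := sqw_mul hp' (k : ℤ)
  unfold Hs
  push_cast
  have hk : (0 : ℤ) ≤ (p : ℤ) * k := by positivity
  set a : ℤ := (p : ℤ) * k with ha
  by_cases h1 : 0 < y ∧ y < a
  · rw [if_pos (by omega), if_pos h1, if_neg (by omega), add_zero]
  · by_cases h2 : a < y ∧ y < 2 * a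
    · rw [if_pos (by omega), if_neg h1, if_pos (by omega), hf]
      ring
    · by_cases h3 : y = a
      · subst h3
        have h4 : ¬ (0 < 2 * a - a ∧ 2 * a - a < a) := by omega
        rw [if_neg h1, if_neg h4, hm]
        norm_num
      · rw [if_neg (by omega), if_neg h1, if_neg (by omega), add_zero]

theorem Gs_Hs {p : ℕ} : Gs p p = Hs p p := by
  funext y
  unfold Gs Hs
  by_cases h : 0 < y ∧ y < (p : ℤ)
  · rw [if_pos h, if_pos h, sqw_pos h.1 h.2, one_pow]
  · rw [if_neg h, if_neg h]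

/-- monotonicity for row fields in rectangles -/
theorem hF_anti {b : ℝ} (hb : 0 ≤ b) {x y y' : ℤ} {w h h' : ℕ} (h1 : y' ≤ y)
    (h2 : y + h ≤ y' + h') {f : ℤ → ℝ} (hf : ∀ r, r ≤ y ∨ y + h ≤ r → f r = 0) :
    qG b (rct x y' w h') (hF f) ≤ qG b (rct x y w h) (hF f) := by
  refine qG_anti hb (rct_sub le_rfl le_rfl h1 h2) fun c hc hn t => ?_
  rw [mem_rct] at hc hn
  rcases t with ⟨_ | _, s⟩
  · rw [hF_h]
    refine hf _ ?_
    split_ifs <;> omega
  · exact hF_v f s c

/-! ### step (5): the reversed chessboard -/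

theorem step5 {b : ℝ} (hb : 0 ≤ b) {p : ℕ} (hp : 1 ≤ p) (x : ℤ) (w T : ℕ) (m : ℕ)
    (hT : p * 2 ^ m ≤ T) :
    2 ^ m * qG b (rct x (-(T : ℤ)) w (2 * T)) (hF (Gs p p)) ≤
      qG b (rct x (((p * 2 ^ m : ℕ) : ℤ) - T) w (2 * T - p * 2 ^ m)) (hF (Gs p (p * 2 ^ m))) := by
  induction m with
  | zero =>
    rw [pow_zero, pow_zero, one_mul, mul_one]
    rw [pow_zero, mul_one] at hT
    refine hF_anti hb (by omega) (by omega) fun r hr => ?_
    unfold Gs
    rw [if_neg (by omega)]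
  | succ m ih =>
    have h2 : p * 2 ^ (m + 1) = 2 * (p * 2 ^ m) := by ring
    rw [h2] at hT ⊢
    have ih' := ih (by omega)
    set a : ℕ := p * 2 ^ m with ha
    have h3 := odd_ext (b := b) (x := x) (y := ((2 * a : ℕ) : ℤ) - T) (a := (a : ℤ)) (w := w)
      (h := 2 * T - 2 * a) (by omega) (f := Gs p a) (by
        intro y hy
        unfold Gs
        rw [if_neg (by omega)])
    have h4 : (fun y => Gs p a y - Gs p a (2 * (a : ℤ) - y)) = Gs p (2 * a) := by
      funext y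
      rw [ha, Gs_step hp]
    rw [h4] at h3
    have h5 : qG b (rct x ((a : ℤ) - T) w (2 * T - a)) (hF (Gs p a)) ≤
        qG b (rct x (((2 * a : ℕ) : ℤ) - T) w (2 * T - 2 * a)) (hF (Gs p a)) := by
      refine hF_anti hb (by omega) (by omega) fun r hr => ?_
      unfold Gs
      rw [if_neg (by omega)]
    rw [pow_succ]
    linarith

/-! ### step (6): the forward chessboard for the stripe -/

theorem step6 {b : ℝ} (hb : 0 ≤ b) {p : ℕ} (hp : 1 ≤ p) (x : ℤ) (w N : ℕ) (hN : p ≤ N) (j : ℕ) :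
    qG b (rct x (-(N : ℤ)) w (2 * N + p * 2 ^ j)) (hF (Hs p (p * 2 ^ j))) ≤
      2 ^ j * qG b (rct x (-(N : ℤ)) w (2 * N)) (hF (Hs p p)) := by
  induction j with
  | zero =>
    rw [pow_zero, pow_zero, one_mul, mul_one]
    refine hF_anti hb (by omega) (by omega) fun r hr => ?_
    unfold Hs
    rw [if_neg (by omega)]
  | succ j ih =>
    have h2 : p * 2 ^ (j + 1) = 2 * (p * 2 ^ j) := by ring
    rw [h2]
    set a : ℕ := p * 2 ^ j with ha
    have h3 := even_ext (b := b) (x := x) (y := -(N : ℤ)) (a := (a : ℤ)) (w := w)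
      (h := 2 * N + 2 * a) (by push_cast; ring) (f := Hs p a) (by
        intro y hy
        unfold Hs
        rw [if_neg (by omega)])
    have h4 : (fun y => Hs p a y + Hs p a (2 * (a : ℤ) - y)) = Hs p (2 * a) := by
      funext y
      rw [ha, Hs_step hp]
    rw [h4] at h3
    have h5 : qG b (rct x (-(N : ℤ)) w (2 * N + 2 * a)) (hF (Hs p a)) ≤
        qG b (rct x (-(N : ℤ)) w (2 * N + a)) (hF (Hs p a)) := by
      refine hF_anti hb (by omega) (by omega) fun r hr => ?_
      unfold Hs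
      rw [if_neg (by omega)]
    rw [pow_succ]
    linarith

/-! ### the uniform field -/

theorem qG_unif (b : ℝ) (p : ℤ × ℤ) {L : ℕ} (hL : 1 ≤ L) :
    qG b (blk p L) (hF fun _ => 1) = (L : ℝ) ^ 2 * stiff L b := by
  have h := qR_const b p L hL 1 0
  rw [one_pow, zero_pow (by norm_num), add_zero, mul_one] at h
  rw [← h]
  unfold qG qR
  congr 1

theorem shF_hF (q : ℤ) (f : ℤ → ℝ) : shF (q, 0) (hF f) = hF f := by
  funext t c
  show hF f t (c + (q, 0)) = hF f t c
  rcases t with ⟨_ | _, s⟩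
  · rw [hF_h, hF_h, Prod.snd_add]
    simp
  · rw [hF_v, hF_v]

theorem trR_rct (q x y : ℤ) (w h : ℕ) : trR (q, 0) (rct x y w h) = rct (x + q) y w h := by
  ext c
  rw [mem_trR, mem_rct, mem_rct]
  simp only [Prod.fst_sub, Prod.snd_sub, sub_zero]
  omega

/-- the square of side `n w` is tiled by `n` rectangles of width `w` -/
theorem strip_tile {b : ℝ} (hb : 0 ≤ b) (x y : ℤ) (w n : ℕ) (f : ℤ → ℝ) (h : ℕ) :
    qG b (rct x y (n * w) h) (hF f) ≤ n * qG b (rct x y w h) (hF f) := by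
  classical
  have h1 := qG_union hb (Finset.range n) (fun i => rct (x + (i * w : ℕ)) y w h) (by
    intro i _ j _ hij
    rw [Finset.disjoint_left]
    intro c hc hc'
    rw [mem_rct] at hc hc'
    rcases Nat.lt_or_gt_of_ne hij with hlt | hlt
    · have : (i + 1) * w ≤ j * w := Nat.mul_le_mul_right w hlt
      have h2 : ((i + 1) * w : ℕ) = i * w + w := by ring
      rw [h2] at this
      omega
    · have : (j + 1) * w ≤ i * w := Nat.mul_le_mul_right w hlt
      have h2 : ((j + 1) * w : ℕ) = j * w + w := by ring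
      rw [h2] at this
      omega) (R := rct x y (n * w) h) (by
    intro i hi c hc
    rw [Finset.mem_range] at hi
    rw [mem_rct] at hc ⊢
    have : (i + 1) * w ≤ n * w := Nat.mul_le_mul_right w hi
    have h2 : ((i + 1) * w : ℕ) = i * w + w := by ring
    rw [h2] at this
    omega) (hF f)
  have e1 : ∀ i ∈ Finset.range n, qG b (rct (x + (i * w : ℕ)) y w h) (hF f) =
      qG b (rct x y w h) (hF f) := by
    intro i _
    rw [← trR_rct, qG_trR, shF_hF]
  have e2 : nG ((rct x y (n * w) h).filter fun c => ∀ i ∈ Finset.range n,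
      c ∉ rct (x + (i * w : ℕ)) y w h) (hF f) = 0 := by
    rw [nG_sum]
    rw [Finset.filter_false_of_mem, Finset.sum_empty]
    intro c hc hn
    rw [mem_rct] at hc
    have hw : 0 < w := by
      rcases Nat.eq_zero_or_pos w with h0 | h0
      · subst h0
        rw [mul_zero] at hc
        omega
      · exact h0
    have hw' : (0 : ℤ) < w := by exact_mod_cast hw
    have h3 : 0 ≤ c.1 - x := by omega
    obtain ⟨d, hd⟩ : ∃ d : ℕ, c.1 - x = d := ⟨(c.1 - x).toNat, by omega⟩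
    have h4 : d < n * w := by omega
    have h5 : d / w < n := (Nat.div_lt_iff_lt_mul hw).2 h4
    refine hn (d / w) (Finset.mem_range.2 h5) ?_
    rw [mem_rct]
    have h6 : d / w * w ≤ d := Nat.div_mul_le_self d w
    have h7 : d < d / w * w + w := Nat.lt_div_mul_add hw
    omega
  rw [Finset.sum_congr rfl e1, e2, Finset.sum_const, Finset.card_range, nsmul_eq_mul, mul_zero,
    add_zero] at h1
  exact h1

/-! ### the defect of the stripe field -/

/-- the defect in a row -/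
def vd (p n : ℕ) (y : ℤ) : ℝ := (1 - Hs p n y) ^ 2

theorem vd_le (p n : ℕ) (y : ℤ) : vd p n y ≤ 1 := by
  unfold vd Hs
  have h := sqw_sq p y
  have h' := sq_nonneg (sqw p y)
  split_ifs
  · nlinarith
  · norm_num

theorem vd_mid {p n : ℕ} (hp : 1 ≤ p) {y : ℤ} (h0 : 0 ≤ y) (h1 : y < n) :
    vd p n y ≤ if (p : ℤ) ∣ y then 1 else 0 := by
  have hp' : (0 : ℤ) < p := by exact_mod_cast hp
  by_cases h : (p : ℤ) ∣ y
  · rw [if_pos h]; exact vd_le p n y
  · rw [if_neg h]
    have hy : y ≠ 0 := fun h' => h (by rw [h']; exact dvd_zero _)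
    have h2 : sqw p y ^ 2 = 1 := by
      obtain ⟨r, k, hr0, hr1, hrk⟩ := wave_rep hp' y
      rw [hrk, sqw_of k hr0 hr1]
      unfold g0
      have hr : r ≠ 0 := by
        intro h'
        exact h (by rw [hrk, h', zero_add]; exact ⟨2 * k, by ring⟩)
      have hr' : r ≠ p := by
        intro h'
        exact h (by rw [hrk, h']; exact ⟨1 + 2 * k, by ring⟩)
      rw [if_neg (by tauto)]
      split_ifs <;> norm_num
    unfold vd Hs
    rw [if_pos ⟨by omega, h1⟩, h2]
    norm_num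

theorem sum_vd {p : ℕ} (hp : 1 ≤ p) (q : ℕ) (α β : ℕ) :
    ∑ y ∈ Finset.Ico (-(α : ℤ)) ((p * q : ℕ) + β), vd p (p * q) y ≤ α + q + β := by
  have hp' : (0 : ℤ) < p := by exact_mod_cast hp
  rw [← Finset.Ico_union_Ico_eq_Ico (a := -(α : ℤ)) (b := 0) (c := ((p * q : ℕ) : ℤ) + β)
    (by omega) (by positivity),
    ← Finset.Ico_union_Ico_eq_Ico (a := (0 : ℤ)) (b := ((p * q : ℕ) : ℤ))
    (c := ((p * q : ℕ) : ℤ) + β) (by positivity) (by omega)]
  rw [Finset.sum_union (by
    rw [Finset.disjoint_left]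
    intro y hy hy'
    simp only [Finset.mem_union, Finset.mem_Ico] at hy hy'
    omega), Finset.sum_union (by
    rw [Finset.disjoint_left]
    intro y hy hy'
    simp only [Finset.mem_Ico] at hy hy'
    omega)]
  have h1 : ∑ y ∈ Finset.Ico (-(α : ℤ)) 0, vd p (p * q) y ≤ α := by
    refine (Finset.sum_le_card_nsmul _ _ 1 fun y _ => vd_le p _ y).trans ?_
    rw [Int.card_Ico]
    simp
  have h3 : ∑ y ∈ Finset.Ico ((p * q : ℕ) : ℤ) ((p * q : ℕ) + β), vd p (p * q) y ≤ β := by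
    refine (Finset.sum_le_card_nsmul _ _ 1 fun y _ => vd_le p _ y).trans ?_
    rw [Int.card_Ico]
    simp
  have h2 : ∑ y ∈ Finset.Ico (0 : ℤ) ((p * q : ℕ) : ℤ), vd p (p * q) y ≤ q := by
    refine (Finset.sum_le_sum fun y hy => vd_mid hp (Finset.mem_Ico.1 hy).1
      (Finset.mem_Ico.1 hy).2).trans ?_
    rw [← Finset.sum_filter, Finset.sum_const, nsmul_eq_mul, mul_one]
    have h4 : (Finset.Ico (0 : ℤ) ((p * q : ℕ) : ℤ)).filter (fun y => (p : ℤ) ∣ y) ⊆
        (Finset.Ico (0 : ℤ) (q : ℤ)).image fun k => (p : ℤ) * k := by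
      intro y hy
      rw [Finset.mem_filter, Finset.mem_Ico] at hy
      obtain ⟨⟨h5, h6⟩, k, hk⟩ := hy
      rw [Finset.mem_image]
      refine ⟨k, ?_, hk.symm⟩
      rw [Finset.mem_Ico]
      rw [hk] at h5 h6
      push_cast at h6
      exact ⟨nonneg_of_mul_nonneg_right h5 hp', lt_of_mul_lt_mul_left h6 hp'.le⟩
    have h5 := (Finset.card_le_card h4).trans Finset.card_image_le
    rw [Int.card_Ico] at h5
    have h6 : ((q : ℤ) - 0).toNat = q := by simp
    rw [h6] at h5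
    exact_mod_cast h5
  linarith

theorem nG_hF (x y : ℤ) (w h : ℕ) (f : ℤ → ℝ) :
    nG (rct x y w h) (hF f) =
      w * ((∑ r ∈ Finset.Ico y (y + h), f r ^ 2) + ∑ r ∈ Finset.Ico y (y + h), f (r + 1) ^ 2) := by
  rw [nG_sum]
  have h1 : ∀ c : ℤ × ℤ, ∑ t : HT, hF f t c ^ 2 = f c.2 ^ 2 + f (c.2 + 1) ^ 2 := by
    intro c
    rw [Fintype.sum_prod_type]
    simp only [Fintype.sum_bool, hF_h, hF_v]
    simp
    ring
  rw [Finset.sum_congr rfl fun c _ => h1 c]
  unfold rct
  rw [Finset.sum_product]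
  simp only [Finset.sum_const, Int.card_Ico, add_sub_cancel_left, Int.toNat_natCast, nsmul_eq_mul,
    Finset.sum_add_distrib]

theorem defect {p : ℕ} (hp : 1 ≤ p) (x : ℤ) (w N q : ℕ) :
    nG (rct x (-(N : ℤ)) w (2 * N + p * q)) (hF (fun _ => 1) - hF (Hs p (p * q))) ≤
      w * (2 * (2 * N + q)) := by
  rw [hF_sub, nG_hF]
  refine mul_le_mul_of_nonneg_left ?_ (Nat.cast_nonneg w)
  have h1 := sum_vd hp q N N
  have e1 : -(N : ℤ) + ((2 * N + p * q : ℕ) : ℤ) = ((p * q : ℕ) : ℤ) + N := by push_cast; ring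
  rw [e1]
  have h2 : ∑ r ∈ Finset.Ico (-(N : ℤ)) (((p * q : ℕ) : ℤ) + N), (1 - Hs p (p * q) (r + 1)) ^ 2 ≤
      (N : ℝ) + q + N := by
    have e2 : ∑ r ∈ Finset.Ico (-(N : ℤ)) (((p * q : ℕ) : ℤ) + N),
        (1 - Hs p (p * q) (r + 1)) ^ 2 =
        ∑ r ∈ Finset.Ico (-(N : ℤ) + 1) (((p * q : ℕ) : ℤ) + N + 1), vd p (p * q) r := by
      rw [← Finset.sum_Ico_add' (f := fun r => vd p (p * q) r)]
      rfl
    rw [e2]
    rcases Nat.eq_zero_or_pos N with h0 | h0
    · subst h0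
      rcases Nat.eq_zero_or_pos q with hq | hq
      · subst hq
        simp
      · have h3 : Finset.Ico (-((0 : ℕ) : ℤ) + 1) (((p * q : ℕ) : ℤ) + ((0 : ℕ) : ℤ) + 1) ⊆
            Finset.Ico (1 : ℤ) ((p * q : ℕ) + 1) := by
          intro r hr
          rw [Finset.mem_Ico] at hr ⊢
          omega
        have hpq : (1 : ℤ) ≤ ((p * q : ℕ) : ℤ) := by
          have : 1 ≤ p * q := Nat.mul_pos hp hq
          exact_mod_cast this
        have h4 := sum_vd hp q 0 0
        -- the values at 0 and at `p q` are both one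
        have h5 : ∑ r ∈ Finset.Ico (1 : ℤ) (((p * q : ℕ) : ℤ) + 1), vd p (p * q) r =
            ∑ r ∈ Finset.Ico (0 : ℤ) ((p * q : ℕ) : ℤ), vd p (p * q) r := by
          have h6 := Finset.sum_Ioo_add_eq_sum_Ico (f := vd p (p * q))
            (show (0 : ℤ) < ((p * q : ℕ) : ℤ) by omega)
          have h7 := Finset.sum_Ioo_add_eq_sum_Ioc (f := vd p (p * q))
            (show (0 : ℤ) < ((p * q : ℕ) : ℤ) by omega)
          have h8 : Finset.Ico (1 : ℤ) (((p * q : ℕ) : ℤ) + 1) =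
              Finset.Ioc (0 : ℤ) ((p * q : ℕ) : ℤ) := by
            ext r
            rw [Finset.mem_Ico, Finset.mem_Ioc]
            omega
          have h9 : vd p (p * q) 0 = 1 := by
            unfold vd Hs
            rw [if_neg (by omega)]
            norm_num
          have h10 : vd p (p * q) ((p * q : ℕ) : ℤ) = 1 := by
            unfold vd Hs
            rw [if_neg (by omega)]
            norm_num
          rw [h8, ← h7, ← h6, h9, h10]
        refine (Finset.sum_le_sum_of_subset_of_nonneg (f := vd p (p * q)) h3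
          fun r _ _ => sq_nonneg _).trans ?_
        rw [h5]
        simp only [Nat.cast_zero, neg_zero, add_zero, zero_add] at h4 ⊢
        exact h4
    · have h4 := sum_vd hp q (N - 1) (N + 1)
      have e3 : -((N - 1 : ℕ) : ℤ) = -(N : ℤ) + 1 := by omega
      have e4 : ((p * q : ℕ) : ℤ) + ((N + 1 : ℕ) : ℤ) = ((p * q : ℕ) : ℤ) + N + 1 := by
        push_cast; ring
      rw [e3, e4] at h4
      refine h4.trans (le_of_eq ?_)
      rw [Nat.cast_sub h0]
      push_cast
      ring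
  have h3 : ∑ r ∈ Finset.Ico (-(N : ℤ)) (((p * q : ℕ) : ℤ) + N), (1 - Hs p (p * q) r) ^ 2 ≤
      (N : ℝ) + q + N := h1
  linarith

/-! ### the theorem -/

/-- **steps (5) and (6)**: `D = [x, x + N] × [0, N]`, `N = p 2^m`, square wave of period `2 p` on
the horizontal bonds; `L₃ = (2^k + 2) N` -/
theorem wave_ge {b : ℝ} (hb : 0 ≤ b) {p : ℕ} (hp : 1 ≤ p) (x : ℤ) (m k : ℕ) {η : ℝ}
    (hη : 0 < η) :
    ((p * 2 ^ m : ℕ) : ℝ) ^ 2 * (stiff ((2 ^ k + 2) * (p * 2 ^ m)) b / (1 + η) -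
      b / η * (2 / 2 ^ k + 1 / p)) ≤
      qG b (rct x 0 (p * 2 ^ m) (p * 2 ^ m)) (hF (sqw p)) := by
  set N : ℕ := p * 2 ^ m with hN
  have hp0 : (0 : ℝ) < p := by exact_mod_cast hp
  have hpN : p ≤ N := Nat.le_mul_of_pos_right p (by positivity)
  have hN1 : 1 ≤ N := hp.trans hpN
  have hp' : (0 : ℤ) < p := by exact_mod_cast hp
  -- (5)
  have h5 := step5 hb hp x N N m le_rfl
  rw [← hN] at h5
  have e5 : qG b (rct x ((N : ℤ) - N) N (2 * N - N)) (hF (Gs p N)) =
      qG b (rct x 0 N N) (hF (sqw p)) := by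
    rw [sub_self, show 2 * N - N = N by omega]
    refine qG_congr b fun c hc t => ?_
    rw [mem_rct] at hc
    rcases t with ⟨_ | _, s⟩
    · rw [hF_h, hF_h]
      unfold Gs
      by_cases h : 0 < c.2 + (if s then 1 else 0) ∧ c.2 + (if s then 1 else 0) < (N : ℤ)
      · rw [if_pos h]
      · rw [if_neg h]
        have h1 : c.2 + (if s then 1 else 0) = 0 ∨ c.2 + (if s then 1 else 0) = (N : ℤ) := by
          cases s
          · simp only [Bool.false_eq_true, if_false] at h ⊢; omega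
          · simp only [if_true] at h ⊢; omega
        rcases h1 with h1 | h1
        · rw [h1, sqw_zero hp']
        · rw [h1, hN]
          push_cast
          rw [sqw_mul hp']
    · rw [hF_v, hF_v]
  rw [e5, Gs_Hs] at h5
  -- (6)
  have h6 := step6 hb hp x N N hpN (m + k)
  have e6 : p * 2 ^ (m + k) = N * 2 ^ k := by rw [hN, pow_add]; ring
  have e6' : p * 2 ^ (m + k) = p * (2 ^ (m + k)) := rfl
  -- the nearly full field
  have h7 := qG_add_le hb (rct x (-(N : ℤ)) N (2 * N + p * 2 ^ (m + k)))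
    (hF (Hs p (p * 2 ^ (m + k)))) (hF (fun _ => 1) - hF (Hs p (p * 2 ^ (m + k)))) hη
  rw [add_sub_cancel] at h7
  have h8 := qG_le hb (rct x (-(N : ℤ)) N (2 * N + p * 2 ^ (m + k)))
    (hF (fun _ => 1) - hF (Hs p (p * 2 ^ (m + k))))
  have h9 := defect hp x N N (2 ^ (m + k))
  -- the tiling of the large square
  have h10 := strip_tile hb x (-(N : ℤ)) N (2 ^ k + 2) (fun _ => 1) ((2 ^ k + 2) * N)
  have h11 := qG_unif b (x, -(N : ℤ)) (L := (2 ^ k + 2) * N) (Nat.mul_pos (by positivity) hN1)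
  rw [← rct_blk] at h11
  rw [h11] at h10
  have e12 : (2 ^ k + 2) * N = 2 * N + p * 2 ^ (m + k) := by rw [e6]; ring
  have h10' : (((2 ^ k + 2) * N : ℕ) : ℝ) ^ 2 * stiff ((2 ^ k + 2) * N) b ≤
      ((2 ^ k + 2 : ℕ) : ℝ) * qG b (rct x (-(N : ℤ)) N (2 * N + p * 2 ^ (m + k)))
        (hF fun _ => 1) := by
    rw [← e12]
    exact h10
  set S : ℝ := stiff ((2 ^ k + 2) * N) b with hS
  set Q1 : ℝ := qG b (rct x 0 N N) (hF (sqw p)) with hQ1
  set Q2 : ℝ := qG b (rct x (-(N : ℤ)) N (2 * N)) (hF (Hs p p)) with hQ2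
  set Q3 : ℝ := qG b (rct x (-(N : ℤ)) N (2 * N + p * 2 ^ (m + k)))
    (hF (Hs p (p * 2 ^ (m + k)))) with hQ3
  set Q4 : ℝ := qG b (rct x (-(N : ℤ)) N (2 * N + p * 2 ^ (m + k))) (hF fun _ => 1) with hQ4
  set Q5 : ℝ := qG b (rct x (-(N : ℤ)) N (2 * N + p * 2 ^ (m + k)))
    (hF (fun _ => 1) - hF (Hs p (p * 2 ^ (m + k)))) with hQ5
  have hK : (0 : ℝ) < 2 ^ k := by positivity
  have hM : (0 : ℝ) < 2 ^ m := by positivity
  have hNr : (N : ℝ) = p * 2 ^ m := by rw [hN]; push_cast; ring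
  have hN0 : (0 : ℝ) < N := by exact_mod_cast hN1
  have h13 : ((2 : ℝ) ^ k + 2) * (N : ℝ) ^ 2 * S ≤ Q4 := by
    have h14 : ((2 : ℝ) ^ k + 2) * (((2 : ℝ) ^ k + 2) * (N : ℝ) ^ 2 * S) ≤ ((2 : ℝ) ^ k + 2) * Q4 := by
      push_cast at h10'
      nlinarith only [h10']
    exact le_of_mul_le_mul_left h14 (by positivity)
  have h14 : Q5 ≤ b / 2 * (N * (2 * (2 * N + 2 ^ (m + k)))) := by
    refine h8.trans (mul_le_mul_of_nonneg_left ?_ (by positivity))
    push_cast at h9
    exact h9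
  have h15 : Q4 ≤ (1 + η) * (2 ^ (m + k) * Q2) +
      (1 + 1 / η) * (b / 2 * (N * (2 * (2 * N + 2 ^ (m + k))))) := by
    refine h7.trans (add_le_add (mul_le_mul_of_nonneg_left h6 (by positivity))
      (mul_le_mul_of_nonneg_left h14 (by positivity)))
  have h16 : 2 ^ (m + k) * Q2 ≤ 2 ^ k * Q1 := by
    rw [pow_add]
    nlinarith only [h5, hK]
  have h17 : ((2 : ℝ) ^ k + 2) * (N : ℝ) ^ 2 * S ≤ (1 + η) * (2 ^ k * Q1) +
      (1 + 1 / η) * (b / 2 * (N * (2 * (2 * N + 2 ^ (m + k))))) := by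
    refine h13.trans (h15.trans (add_le_add_left ?_ _))
    exact mul_le_mul_of_nonneg_left h16 (by positivity)
  have hS0 : 0 ≤ (N : ℝ) ^ 2 * S * 2 := by
    have h18 := qG_nonneg hb (blk (x, -(N : ℤ)) ((2 ^ k + 2) * N)) (hF fun _ => 1)
    rw [qG_unif b _ (Nat.mul_pos (by positivity) hN1)] at h18
    have h19 : 0 ≤ S := by
      by_contra h20
      push Not at h20
      have h21 : (0 : ℝ) < (((2 ^ k + 2) * N : ℕ) : ℝ) ^ 2 := by
        have : 0 < (2 ^ k + 2) * N := Nat.mul_pos (by positivity) hN1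
        positivity
      have := mul_neg_of_pos_of_neg h21 h20
      linarith
    positivity
  -- conclusion
  have e18 : (2 : ℝ) ^ (m + k) = 2 ^ k * (N / p) := by
    rw [hNr, pow_add]
    field_simp
  rw [e18] at h17
  have h19 : (N : ℝ) ^ 2 * (S / (1 + η) - b / η * (2 / 2 ^ k + 1 / p)) =
      (2 ^ k * (N : ℝ) ^ 2 * S - (1 + 1 / η) * (b / 2 * (N * (2 * (2 * N + 2 ^ k * (N / p)))))) /
        ((1 + η) * 2 ^ k) := by
    field_simp
    ring
  rw [h19, div_le_iff₀ (by positivity)]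
  nlinarith only [h17, hS0]

end

end Vale.Agent.P159.H253
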