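import Vale.Agent.P159.H253.Pf3

/-!
P159 (helper253), finite size pyramid bound, part 4: steps (3) and (4) of helper856: tiling of an
axis parallel square by rotated squares, the two components of the array of diamonds.
-/

set_option linter.all false

open MeasureTheory Filter Topology
open scoped BigOperators

namespace Vale.Agent.P159.H253

open Vale.Agent.P159 Vale.Agent.P159.UJ Vale.Agent.P159.H950 Vale.Agent.P159.H856

noncomputable section

/-! ### rotated squares -/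

/-- half open rotated square -/
def T0 (M : ℕ) : Finset (ℤ × ℤ) := (blk (-(M : ℤ), -(M : ℤ)) (2 * M)).filter fun c =>
  (-(M : ℤ) ≤ c.1 + c.2 + 1 ∧ c.1 + c.2 + 1 < M) ∧ (-(M : ℤ) ≤ c.1 - c.2 ∧ c.1 - c.2 < M)

/-- open rotated square of half diagonal `M` centred at the origin -/
def rot (M : ℕ) : Finset (ℤ × ℤ) := (blk (-(M : ℤ), -(M : ℤ)) (2 * M)).filter fun c =>
  (-(M : ℤ) < c.1 + c.2 + 1 ∧ c.1 + c.2 + 1 < M) ∧ (-(M : ℤ) < c.1 - c.2 ∧ c.1 - c.2 < M)

theorem mem_T0 {M : ℕ} {c : ℤ × ℤ} : c ∈ T0 M ↔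
    (-(M : ℤ) ≤ c.1 + c.2 + 1 ∧ c.1 + c.2 + 1 < M) ∧ (-(M : ℤ) ≤ c.1 - c.2 ∧ c.1 - c.2 < M) := by
  unfold T0
  rw [Finset.mem_filter, mem_blk]
  push_cast
  constructor
  · exact fun h => h.2
  · intro h
    exact ⟨by omega, h⟩

theorem mem_rot {M : ℕ} {c : ℤ × ℤ} : c ∈ rot M ↔
    (-(M : ℤ) < c.1 + c.2 + 1 ∧ c.1 + c.2 + 1 < M) ∧ (-(M : ℤ) < c.1 - c.2 ∧ c.1 - c.2 < M) := by
  unfold rot
  rw [Finset.mem_filter, mem_blk]
  push_cast
  constructor
  · exact fun h => h.2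
  · intro h
    exact ⟨by omega, h⟩

theorem rot_sub (M : ℕ) : rot M ⊆ T0 M := by
  intro c hc
  rw [mem_rot] at hc
  rw [mem_T0]
  omega

theorem card_T0 (M : ℕ) : 2 * M ^ 2 ≤ (T0 M).card := by
  have h := Finset.card_le_card_of_injOn
    (s := Finset.Ico (-(M : ℤ)) M ×ˢ Finset.Ico (0 : ℤ) M) (t := T0 M)
    (fun u => ((u.1 - 1 + (-(M : ℤ) + 2 * u.2 + (u.1 + M + 1) % 2)) / 2,
      (u.1 - 1 - (-(M : ℤ) + 2 * u.2 + (u.1 + M + 1) % 2)) / 2)) (by
    intro u hu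
    rw [Finset.mem_coe, Finset.mem_product, Finset.mem_Ico, Finset.mem_Ico] at hu
    rw [Finset.mem_coe, mem_T0]
    simp only
    omega) (by
    intro u hu v hv h
    rw [Finset.mem_coe, Finset.mem_product, Finset.mem_Ico, Finset.mem_Ico] at hu hv
    simp only [Prod.mk.injEq] at h
    ext
    · omega
    · omega)
  rw [Finset.card_product, Int.card_Ico, Int.card_Ico] at h
  have e1 : ((M : ℤ) - -(M : ℤ)).toNat = 2 * M := by omega
  have e2 : ((M : ℤ) - 0).toNat = M := by omega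
  rw [e1, e2] at h
  calc 2 * M ^ 2 = 2 * M * M := by ring
    _ ≤ _ := h

theorem card_rim (M : ℕ) : (T0 M \ rot M).card ≤ 4 * M := by
  have h1 : T0 M \ rot M ⊆
      ((Finset.Ico (-(M : ℤ)) M).image fun i => ((i, -(M : ℤ) - 1 - i) : ℤ × ℤ)) ∪
      ((Finset.Ico (-(M : ℤ)) M).image fun i => ((i, i + (M : ℤ)) : ℤ × ℤ)) := by
    intro c hc
    rw [Finset.mem_sdiff, mem_T0, mem_rot] at hc
    rw [Finset.mem_union, Finset.mem_image, Finset.mem_image]
    obtain ⟨c1, c2⟩ := c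
    simp only [Finset.mem_Ico, Prod.mk.injEq] at hc ⊢
    by_cases h : c1 + c2 + 1 = -(M : ℤ)
    · left
      exact ⟨c1, by omega, rfl, by omega⟩
    · right
      exact ⟨c1, by omega, rfl, by omega⟩
  have h2 := (Finset.card_le_card h1).trans (Finset.card_union_le _ _)
  have h3 : ((Finset.Ico (-(M : ℤ)) M).image fun i => ((i, -(M : ℤ) - 1 - i) : ℤ × ℤ)).card ≤
      2 * M := by
    refine Finset.card_image_le.trans ?_
    rw [Int.card_Ico]
    omega
  have h4 : ((Finset.Ico (-(M : ℤ)) M).image fun i => ((i, i + (M : ℤ)) : ℤ × ℤ)).card ≤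
      2 * M := by
    refine Finset.card_image_le.trans ?_
    rw [Int.card_Ico]
    omega
  omega

/-- the lattice of the tiles -/
def lat (M : ℕ) (u : ℤ × ℤ) : ℤ × ℤ := ((M : ℤ) * (u.1 + u.2), (M : ℤ) * (u.1 - u.2))

/-- the index of the tile of a cell -/
def ti (M : ℕ) (c : ℤ × ℤ) : ℤ × ℤ :=
  ((c.1 + c.2 + 1 + M) / (2 * M), (c.1 - c.2 + M) / (2 * M))

theorem mem_tile {M : ℕ} {u c : ℤ × ℤ} : c ∈ trR (lat M u) (T0 M) ↔
    (2 * (M : ℤ) * u.1 ≤ c.1 + c.2 + 1 + M ∧ c.1 + c.2 + 1 + M < 2 * (M : ℤ) * u.1 + 2 * M) ∧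
      (2 * (M : ℤ) * u.2 ≤ c.1 - c.2 + M ∧ c.1 - c.2 + M < 2 * (M : ℤ) * u.2 + 2 * M) := by
  rw [mem_trR, mem_T0]
  unfold lat
  simp only [Prod.fst_sub, Prod.snd_sub]
  have e1 : c.1 - (M : ℤ) * (u.1 + u.2) + (c.2 - (M : ℤ) * (u.1 - u.2)) =
      c.1 + c.2 - 2 * (M : ℤ) * u.1 := by ring
  have e2 : c.1 - (M : ℤ) * (u.1 + u.2) - (c.2 - (M : ℤ) * (u.1 - u.2)) =
      c.1 - c.2 - 2 * (M : ℤ) * u.2 := by ring
  rw [e1, e2]
  constructor <;> intro h <;> omega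

theorem mem_ti {M : ℕ} (hM : 1 ≤ M) (c : ℤ × ℤ) : c ∈ trR (lat M (ti M c)) (T0 M) := by
  rw [mem_tile]
  unfold ti
  simp only
  have hM' : (0 : ℤ) < 2 * M := by omega
  have h1 := Int.mul_ediv_self_le (x := c.1 + c.2 + 1 + M) (k := 2 * (M : ℤ)) hM'.ne'
  have h2 := Int.lt_mul_ediv_self_add (x := c.1 + c.2 + 1 + M) (k := 2 * (M : ℤ)) hM'
  have h3 := Int.mul_ediv_self_le (x := c.1 - c.2 + M) (k := 2 * (M : ℤ)) hM'.ne'
  have h4 := Int.lt_mul_ediv_self_add (x := c.1 - c.2 + M) (k := 2 * (M : ℤ)) hM'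
  exact ⟨⟨h1, h2⟩, h3, h4⟩

theorem eq_of_win {a x i j : ℤ} (ha : 0 < a) (h1 : a * i ≤ x) (h2 : x < a * i + a)
    (h3 : a * j ≤ x) (h4 : x < a * j + a) : i = j := by
  by_contra h
  rcases lt_or_gt_of_ne h with h | h
  · have : a * (i + 1) ≤ a * j := mul_le_mul_of_nonneg_left (by omega) ha.le
    rw [mul_add, mul_one] at this
    omega
  · have : a * (j + 1) ≤ a * i := mul_le_mul_of_nonneg_left (by omega) ha.le
    rw [mul_add, mul_one] at this
    omega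

theorem ti_unique {M : ℕ} (hM : 1 ≤ M) {c u v : ℤ × ℤ} (h : c ∈ trR (lat M u) (T0 M))
    (h' : c ∈ trR (lat M v) (T0 M)) : u = v := by
  rw [mem_tile] at h h'
  have hM' : (0 : ℤ) < 2 * M := by omega
  ext
  · exact eq_of_win hM' h.1.1 h.1.2 h'.1.1 h'.1.2
  · exact eq_of_win hM' h.2.1 h.2.2 h'.2.1 h'.2.2

theorem card_trR (q : ℤ × ℤ) (R : Finset (ℤ × ℤ)) : (trR q R).card = R.card := by
  unfold trR
  exact Finset.card_map _

theorem trR_mono (q : ℤ × ℤ) {R R' : Finset (ℤ × ℤ)} (h : R ⊆ R') : trR q R ⊆ trR q R' := by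
  intro c hc
  rw [mem_trR] at hc ⊢
  exact h hc

theorem nG_card {R : Finset (ℤ × ℤ)} {y : HF} (hy : ∀ c ∈ R, ∀ t, y t c ^ 2 ≤ 1) :
    nG R y ≤ 4 * R.card := by
  rw [nG_sum]
  calc ∑ c ∈ R, ∑ t : HT, y t c ^ 2 ≤ ∑ c ∈ R, ∑ t : HT, (1 : ℝ) :=
        Finset.sum_le_sum fun c hc => Finset.sum_le_sum fun t _ => hy c hc t
    _ = 4 * R.card := by
        simp only [Finset.sum_const, Finset.card_univ, Fintype.card_prod, Fintype.card_bool,
          nsmul_eq_mul]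
        push_cast
        ring

/-- **step (3)**: tiling of the square by rotated squares -/
theorem tile_rot {b : ℝ} (hb : 0 ≤ b) {M : ℕ} (hM : 1 ≤ M) (o : ℤ × ℤ) (N : ℕ) (W : HF)
    (hW : ∀ c t, W t c ^ 2 ≤ 1) (hinv : ∀ u, qG b (rot M) (shF (lat M u) W) = qG b (rot M) W) :
    qG b (blk o N) W ≤
      (N : ℝ) ^ 2 / (2 * M ^ 2) * (qG b (rot M) W + 8 * b * M) + 16 * b * M * N := by
  classical
  set D := blk o N with hD
  set S : Finset (ℤ × ℤ) := (D.image (ti M)).filter fun u => trR (lat M u) (T0 M) ⊆ D with hS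
  have hM0 : (0 : ℝ) < M := by exact_mod_cast hM
  have hdis : ∀ i ∈ S, ∀ j ∈ S, i ≠ j →
      Disjoint (trR (lat M i) (T0 M)) (trR (lat M j) (T0 M)) := by
    intro i _ j _ hij
    rw [Finset.disjoint_left]
    exact fun c hc hc' => hij (ti_unique hM hc hc')
  have hsub : ∀ i ∈ S, trR (lat M i) (T0 M) ⊆ D := fun i hi => (Finset.mem_filter.1 hi).2
  -- the number of tiles
  have hcount : (S.card : ℝ) * (2 * M ^ 2) ≤ (N : ℝ) ^ 2 := by
    have h1 : (S.biUnion fun u => trR (lat M u) (T0 M)).card ≤ D.card :=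
      Finset.card_le_card (Finset.biUnion_subset.2 hsub)
    rw [Finset.card_biUnion hdis] at h1
    simp only [card_trR, Finset.sum_const, smul_eq_mul] at h1
    rw [hD, card_blk] at h1
    have h2 : S.card * (2 * M ^ 2) ≤ N ^ 2 := (Nat.mul_le_mul_left _ (card_T0 M)).trans h1
    exact_mod_cast h2
  have h1 := qG_union hb S (fun u => trR (lat M u) (rot M)) (fun i hi j hj hij =>
    (hdis i hi j hj hij).mono (trR_mono _ (rot_sub M)) (trR_mono _ (rot_sub M))) (R := D)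
    (fun i hi => (trR_mono _ (rot_sub M)).trans (hsub i hi)) W
  have e1 : ∀ u ∈ S, qG b (trR (lat M u) (rot M)) W = qG b (rot M) W := by
    intro u _
    rw [qG_trR, hinv]
  rw [Finset.sum_congr rfl e1, Finset.sum_const, nsmul_eq_mul] at h1
  -- the rest
  have hrest : ((D.filter fun c => ∀ u ∈ S, c ∉ trR (lat M u) (rot M)).card : ℝ) ≤
      S.card * (4 * M) + 8 * M * N := by
    have h2 : (D.filter fun c => ∀ u ∈ S, c ∉ trR (lat M u) (rot M)) ⊆
        (S.biUnion fun u => trR (lat M u) (T0 M \ rot M)) ∪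
          ((rct o.1 o.2 (2 * M) N ∪ rct (o.1 + N - 2 * M) o.2 (2 * M) N) ∪
            (rct o.1 o.2 N (2 * M) ∪ rct o.1 (o.2 + N - 2 * M) N (2 * M))) := by
      intro c hc
      rw [Finset.mem_filter] at hc
      obtain ⟨hcD, hcn⟩ := hc
      rw [Finset.mem_union]
      by_cases h3 : ti M c ∈ S
      · left
        rw [Finset.mem_biUnion]
        refine ⟨ti M c, h3, ?_⟩
        have h4 := mem_ti hM c
        have h5 := hcn _ h3
        rw [mem_trR] at h4 h5 ⊢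
        exact Finset.mem_sdiff.2 ⟨h4, h5⟩
      · right
        have h4 : ¬ trR (lat M (ti M c)) (T0 M) ⊆ D := by
          intro h5
          exact h3 (Finset.mem_filter.2 ⟨Finset.mem_image_of_mem _ hcD, h5⟩)
        obtain ⟨d, hd, hdD⟩ := Finset.not_subset.1 h4
        have h5 := mem_ti hM c
        rw [mem_tile] at hd h5
        rw [hD, mem_blk] at hcD hdD
        simp only [Finset.mem_union, mem_rct]
        push_cast
        omega
    have h3 := Finset.card_le_card h2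
    have h4 : ((S.biUnion fun u => trR (lat M u) (T0 M \ rot M)) ∪
          ((rct o.1 o.2 (2 * M) N ∪ rct (o.1 + N - 2 * M) o.2 (2 * M) N) ∪
            (rct o.1 o.2 N (2 * M) ∪ rct o.1 (o.2 + N - 2 * M) N (2 * M)))).card ≤
        S.card * (4 * M) + ((2 * M * N + 2 * M * N) + (N * (2 * M) + N * (2 * M))) := by
      refine (Finset.card_union_le _ _).trans (add_le_add ?_ ?_)
      · refine Finset.card_biUnion_le.trans ?_
        refine (Finset.sum_le_card_nsmul _ _ (4 * M) fun u _ => ?_).trans (le_of_eq ?_)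
        · rw [card_trR]
          exact card_rim M
        · rw [smul_eq_mul]
      · refine (Finset.card_union_le _ _).trans (add_le_add ?_ ?_)
        · refine (Finset.card_union_le _ _).trans (le_of_eq ?_)
          rw [card_rct, card_rct]
        · refine (Finset.card_union_le _ _).trans (le_of_eq ?_)
          rw [card_rct, card_rct]
    have h5 := h3.trans h4
    have h6 : (((D.filter fun c => ∀ u ∈ S, c ∉ trR (lat M u) (rot M)).card : ℕ) : ℝ) ≤
        ((S.card * (4 * M) + ((2 * M * N + 2 * M * N) + (N * (2 * M) + N * (2 * M))) : ℕ) : ℝ) := by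
      exact_mod_cast h5
    push_cast at h6
    linarith
  have h2 := nG_card (R := D.filter fun c => ∀ u ∈ S, c ∉ trR (lat M u) (rot M)) (y := W)
    fun c _ t => hW c t
  have hQ := qG_nonneg hb (rot M) W
  set Q := qG b (rot M) W with hQd
  have h3 : qG b D W ≤ S.card * Q + b / 2 * (4 * (S.card * (4 * M) + 8 * M * N)) := by
    refine h1.trans (add_le_add_right (mul_le_mul_of_nonneg_left (h2.trans ?_) (by positivity)) _)
    exact mul_le_mul_of_nonneg_left hrest (by norm_num)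
  have h4 : (S.card : ℝ) ≤ (N : ℝ) ^ 2 / (2 * M ^ 2) := by
    rw [le_div_iff₀ (by positivity)]
    exact hcount
  have h5 : (S.card : ℝ) * (Q + 8 * b * M) ≤ (N : ℝ) ^ 2 / (2 * M ^ 2) * (Q + 8 * b * M) :=
    mul_le_mul_of_nonneg_right h4 (by positivity)
  linarith

/-! ### the array on the whole plane -/

/-- square waves on both directions with signs -/
def Wv (p : ℕ) (α β : ℝ) : HF := bF (fun v => α * sqw p v.2) (fun v => β * sqw p v.1)

theorem Wv_h (p : ℕ) (α β : ℝ) (s : Bool) (c : ℤ × ℤ) :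
    Wv p α β (false, s) c = α * sqw p (c.2 + if s then 1 else 0) := by
  unfold Wv bF hu
  simp

theorem Wv_v (p : ℕ) (α β : ℝ) (s : Bool) (c : ℤ × ℤ) :
    Wv p α β (true, s) c = β * sqw p (c.1 + if s then 1 else 0) := by
  unfold Wv bF hu
  simp

theorem Wv_sq (p : ℕ) {α β : ℝ} (hα : α ^ 2 = 1) (hβ : β ^ 2 = 1) (c : ℤ × ℤ) (t : HT) :
    Wv p α β t c ^ 2 ≤ 1 := by
  rcases t with ⟨_ | _, s⟩
  · rw [Wv_h, mul_pow, hα, one_mul]
    exact sqw_sq _ _
  · rw [Wv_v, mul_pow, hβ, one_mul]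
    exact sqw_sq _ _

theorem Wv_neg (p : ℕ) (α β : ℝ) : Wv p (-α) (-β) = -Wv p α β := by
  funext t c
  show _ = -(Wv p α β t c)
  rcases t with ⟨_ | _, s⟩
  · rw [Wv_h, Wv_h]; ring
  · rw [Wv_v, Wv_v]; ring

theorem Wv_add (p : ℕ) (α β α' β' : ℝ) : Wv p α β + Wv p α' β' = Wv p (α + α') (β + β') := by
  funext t c
  show Wv p α β t c + Wv p α' β' t c = _
  rcases t with ⟨_ | _, s⟩
  · rw [Wv_h, Wv_h, Wv_h]; ring
  · rw [Wv_v, Wv_v, Wv_v]; ring

theorem Wv_sub (p : ℕ) (α β α' β' : ℝ) : Wv p α β - Wv p α' β' = Wv p (α - α') (β - β') := by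
  funext t c
  show Wv p α β t c - Wv p α' β' t c = _
  rcases t with ⟨_ | _, s⟩
  · rw [Wv_h, Wv_h, Wv_h]; ring
  · rw [Wv_v, Wv_v, Wv_v]; ring

theorem Wv_hF (p : ℕ) : Wv p 1 0 = hF (sqw p) := by
  funext t c
  rcases t with ⟨_ | _, s⟩
  · rw [Wv_h, hF_h]; ring
  · rw [Wv_v, hF_v]; ring

/-- the sign of a translation by a multiple of `p` -/
theorem sqw_shift {p : ℕ} (hp : 1 ≤ p) (k : ℤ) : ∃ e : ℝ, (e = 1 ∨ e = -1) ∧ (Even k → e = 1) ∧
    (Odd k → e = -1) ∧ ∀ x, sqw p (x + p * k) = e * sqw p x := by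
  have hp' : (0 : ℤ) < p := by exact_mod_cast hp
  rcases Int.even_or_odd k with hk | hk
  · obtain ⟨j, hj⟩ := hk
    refine ⟨1, Or.inl rfl, fun _ => rfl, fun h => absurd h (by
      rw [Int.not_odd_iff_even]; exact ⟨j, hj⟩), fun x => ?_⟩
    rw [hj, show x + p * (j + j) = x + 2 * p * j by ring, sqw_per hp', one_mul]
  · obtain ⟨j, hj⟩ := hk
    refine ⟨-1, Or.inr rfl, fun h => absurd h (by
      rw [Int.not_even_iff_odd]; exact ⟨j, hj⟩), fun _ => rfl, fun x => ?_⟩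
    rw [hj, show x + p * (2 * j + 1) = (x + 2 * p * j) + p by ring, sqw_add_p hp', sqw_per hp']
    ring

theorem shF_Wv {p : ℕ} (hp : 1 ≤ p) (i j : ℤ) (α β : ℝ) : ∃ e e' : ℝ, (e = 1 ∨ e = -1) ∧
    (e' = 1 ∨ e' = -1) ∧ ((Even i ↔ Even j) → e = e') ∧
    shF (p * i, p * j) (Wv p α β) = Wv p (e * α) (e' * β) := by
  obtain ⟨e, h1, h2, h3, h4⟩ := sqw_shift hp j
  obtain ⟨e', h1', h2', h3', h4'⟩ := sqw_shift hp i
  refine ⟨e, e', h1, h1', ?_, ?_⟩
  · intro hij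
    by_cases hj : Even j
    · rw [h2 hj, h2' (hij.2 hj)]
    · rw [h3 (Int.not_even_iff_odd.1 hj), h3' (Int.not_even_iff_odd.1 fun h => hj (hij.1 h))]
  · funext t c
    show Wv p α β t (c + (p * i, p * j)) = _
    rcases t with ⟨_ | _, s⟩
    · rw [Wv_h, Wv_h]
      simp only [Prod.snd_add]
      rw [show c.2 + (p : ℤ) * j + (if s then 1 else 0) = c.2 + (if s then 1 else 0) + p * j by ring,
        h4]
      ring
    · rw [Wv_v, Wv_v]
      simp only [Prod.fst_add]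
      rw [show c.1 + (p : ℤ) * i + (if s then 1 else 0) = c.1 + (if s then 1 else 0) + p * i by ring,
        h4']
      ring

/-- invariance of the form of the array under the lattice of the tiles -/
theorem Wv_inv (b : ℝ) (R : Finset (ℤ × ℤ)) {p M : ℕ} (hp : 1 ≤ p) (hpM : p ∣ M) (α β : ℝ)
    (u : ℤ × ℤ) : qG b R (shF (lat M u) (Wv p α β)) = qG b R (Wv p α β) := by
  obtain ⟨r, rfl⟩ := hpM
  obtain ⟨e, e', h1, h1', h2, h3⟩ := shF_Wv hp ((r : ℤ) * (u.1 + u.2)) ((r : ℤ) * (u.1 - u.2)) α β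
  have e1 : lat (p * r) u = (p * ((r : ℤ) * (u.1 + u.2)), p * ((r : ℤ) * (u.1 - u.2))) := by
    unfold lat
    push_cast
    ext <;> simp only <;> ring
  have h4 : e = e' := by
    refine h2 ?_
    have h5 : (r : ℤ) * (u.1 + u.2) = (r : ℤ) * (u.1 - u.2) + (r * u.2 + r * u.2) := by ring
    have h6 : Even ((r : ℤ) * u.2 + r * u.2) := ⟨_, rfl⟩
    rw [h5]
    constructor
    · intro h
      have := h.sub h6
      rwa [add_sub_cancel_right] at this
    · exact fun h => h.add h6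
  rw [e1, h3, ← h4]
  rcases h1 with h | h
  · rw [h, one_mul, one_mul]
  · rw [h, show (-1 : ℝ) * α = -α by ring, show (-1 : ℝ) * β = -β by ring, Wv_neg, qG_neg]

/-- symmetry of the square under the diagonal reflection -/
theorem symD (x : ℤ) (N : ℕ) : (rD 0).Sym (blk (x, x) N) := by
  refine ⟨fun c => ?_, fun v => ?_⟩
  · show (c.2 + 0, c.1 - 0) ∈ _ ↔ _
    rw [mem_blk, mem_blk]; simp only; omega
  · show (v.2 + 0, v.1 - 0) ∈ _ ↔ _
    rw [mem_intR_blk, mem_intR_blk]; simp only; omega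

theorem ac_Wv (p : ℕ) (α β : ℝ) : ac (rD 0) (Wv p α β) = Wv p β α := by
  funext t c
  show (1 : ℝ) * Wv p α β (!t.1, t.2) (c.2 + 0, c.1 - 0) = _
  rcases t with ⟨_ | _, s⟩
  · rw [Wv_h]
    show (1 : ℝ) * Wv p α β (true, s) (c.2 + 0, c.1 - 0) = _
    rw [Wv_v]
    simp
  · rw [Wv_v]
    show (1 : ℝ) * Wv p α β (false, s) (c.2 + 0, c.1 - 0) = _
    rw [Wv_h]
    simp

/-- **step (4)**: the cross term cancels between the square and its translate by `p` -/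
theorem step4 (b : ℝ) {p : ℕ} (hp : 1 ≤ p) (N : ℕ) {α β : ℝ} (hα : α = 1 ∨ α = -1)
    (hβ : β = 1 ∨ β = -1) :
    qG b (blk (0, 0) N) (Wv p α β) + qG b (blk (p, 0) N) (Wv p α β) =
      4 * qG b (blk (0, 0) N) (hF (sqw p)) := by
  have hp' : (0 : ℤ) < p := by exact_mod_cast hp
  have e1 : blk ((p : ℤ), 0) N = trR ((p : ℤ), 0) (blk (0, 0) N) := by
    ext c
    rw [mem_trR, mem_blk, mem_blk]
    simp only [Prod.fst_sub, Prod.snd_sub]
    omega
  have e2 : shF ((p : ℤ), 0) (Wv p α β) = Wv p α (-β) := by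
    funext t c
    show Wv p α β t (c + ((p : ℤ), 0)) = _
    rcases t with ⟨_ | _, s⟩
    · rw [Wv_h, Wv_h]
      simp only [Prod.snd_add, add_zero]
    · rw [Wv_v, Wv_v]
      simp only [Prod.fst_add]
      rw [show c.1 + (p : ℤ) + (if s then 1 else 0) = c.1 + (if s then 1 else 0) + p by ring,
        sqw_add_p hp']
      ring
  have h1 := qG_par b (blk (0, 0) N) (Wv p α 0) (Wv p 0 β)
  rw [Wv_add, Wv_sub, add_zero, zero_add, sub_zero, zero_sub] at h1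
  have h2 : qG b (blk (0, 0) N) (Wv p 0 β) = qG b (blk (0, 0) N) (Wv p β 0) := by
    rw [← ac_Wv p β 0, qG_ac _ (symD 0 N)]
  have h3 : ∀ γ : ℝ, γ = 1 ∨ γ = -1 →
      qG b (blk (0, 0) N) (Wv p γ 0) = qG b (blk (0, 0) N) (hF (sqw p)) := by
    intro γ hγ
    rcases hγ with h | h
    · rw [h, Wv_hF]
    · have h4 := Wv_neg p 1 0
      rw [neg_zero] at h4
      rw [h, h4, qG_neg, Wv_hF]
  rw [e1, qG_trR, e2, h1, h2, h3 α hα, h3 β hβ]
  ring

/-- **steps (3)-(6)**: the array of diamonds in a rotated square -/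
theorem arr_ge {b : ℝ} (hb : 0 ≤ b) {p M : ℕ} (hp : 1 ≤ p) (hM : 1 ≤ M) (hpM : p ∣ M) {α β : ℝ}
    (hα : α = 1 ∨ α = -1) (hβ : β = 1 ∨ β = -1) (m k : ℕ) {η : ℝ} (hη : 0 < η) :
    4 * (M : ℝ) ^ 2 * (stiff ((2 ^ k + 2) * (p * 2 ^ m)) b / (1 + η) -
      b / η * (2 / 2 ^ k + 1 / p) - 2 * b / M - 8 * b * M / (p * 2 ^ m : ℕ)) ≤
      qG b (rot M) (Wv p α β) := by
  have h1 := wave_ge hb hp 0 m k hη
  set N : ℕ := p * 2 ^ m with hN
  have hN1 : 1 ≤ N := Nat.mul_pos hp (by positivity)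
  have h2 := step4 b hp N hα hβ
  have hsq : ∀ γ : ℝ, γ = 1 ∨ γ = -1 → γ ^ 2 = 1 := by
    intro γ h
    rcases h with h | h <;> rw [h] <;> norm_num
  have h3 := tile_rot hb hM (0, 0) N (Wv p α β) (Wv_sq p (hsq α hα) (hsq β hβ))
    (Wv_inv b _ hp hpM α β)
  have h4 := tile_rot hb hM (p, 0) N (Wv p α β) (Wv_sq p (hsq α hα) (hsq β hβ))
    (Wv_inv b _ hp hpM α β)
  have e1 : rct 0 0 N N = blk (0, 0) N := rfl
  rw [e1] at h1
  set Q1 := qG b (blk (0, 0) N) (hF (sqw p)) with hQ1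
  set Q := qG b (rot M) (Wv p α β) with hQ
  set E : ℝ := stiff ((2 ^ k + 2) * N) b / (1 + η) - b / η * (2 / 2 ^ k + 1 / p) with hE
  have hM0 : (0 : ℝ) < M := by exact_mod_cast hM
  have hN0 : (0 : ℝ) < N := by exact_mod_cast hN1
  have h5 : 4 * ((N : ℝ) ^ 2 * E) ≤ 2 * ((N : ℝ) ^ 2 / (2 * M ^ 2) * (Q + 8 * b * M) +
      16 * b * M * N) := by linarith
  have h6 : 4 * (M : ℝ) ^ 2 * (E - 2 * b / M - 8 * b * M / N) =
      (4 * ((N : ℝ) ^ 2 * E) - 2 * ((N : ℝ) ^ 2 / (2 * M ^ 2) * (8 * b * M) + 16 * b * M * N)) *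
        (M ^ 2 / N ^ 2) := by
    field_simp
    ring
  rw [h6]
  have h7 : 4 * ((N : ℝ) ^ 2 * E) - 2 * ((N : ℝ) ^ 2 / (2 * M ^ 2) * (8 * b * M) +
      16 * b * M * N) ≤ N ^ 2 / M ^ 2 * Q := by
    have h8 : 2 * ((N : ℝ) ^ 2 / (2 * M ^ 2) * (Q + 8 * b * M) + 16 * b * M * N) =
        N ^ 2 / M ^ 2 * Q + 2 * ((N : ℝ) ^ 2 / (2 * M ^ 2) * (8 * b * M) + 16 * b * M * N) := by
      field_simp
      ring
    linarith
  calc _ ≤ N ^ 2 / M ^ 2 * Q * (M ^ 2 / N ^ 2) :=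
        mul_le_mul_of_nonneg_right h7 (by positivity)
    _ = Q := by field_simp

end

end Vale.Agent.P159.H253
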