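import Vale.Agent.P159.H253.Circ
import Vale.Agent.P159.H282.TestT

/-!
# Pyramids and families of squares
-/

set_option linter.all false

open MeasureTheory
open scoped BigOperators

namespace Vale.Agent.P159.UJ.H253

open H282

/-- distance of a unit interval from `0` -/
def n1 (x : ℤ) : ℤ := if 0 ≤ x then x else -1 - x

theorem nn_n1 (z : ℤ × ℤ) : nn z = n1 z.1 + n1 z.2 + 1 := rfl

theorem n1_nonneg (x : ℤ) : 0 ≤ n1 x := by unfold n1; split_ifs <;> omega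

theorem n1_lt {x : ℤ} {N : ℤ} (h : n1 x < N) : -N ≤ x ∧ x < N := by
  unfold n1 at h; split_ifs at h <;> omega

theorem sign_cell {t : ℕ} (ht : 1 ≤ t) {k y : ℤ} (h0 : 0 ≤ y) (h1 : y < t) :
    0 ≤ (t : ℤ) * k + y ↔ 0 ≤ k := by
  have ht' : (1 : ℤ) ≤ t := by exact_mod_cast ht
  constructor
  · intro h
    by_contra hc
    have h2 : k ≤ -1 := by omega
    nlinarith only [h, h1, h2, ht']
  · intro h
    have : 0 ≤ (t : ℤ) * k := mul_nonneg (by omega) h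
    omega

theorem n1_cell {t : ℕ} (ht : 1 ≤ t) {k y : ℤ} (h0 : 0 ≤ y) (h1 : y < t) :
    (t : ℤ) * n1 k ≤ n1 (t * k + y) ∧ n1 (t * k + y) ≤ t * n1 k + (t - 1) := by
  have hs := sign_cell ht h0 h1 (k := k)
  unfold n1
  by_cases hk : 0 ≤ k
  · rw [if_pos hk, if_pos (hs.2 hk)]
    constructor <;> linarith
  · rw [if_neg hk, if_neg (fun h => hk (hs.1 h))]
    constructor <;> linarith

theorem nn_cell {t : ℕ} (ht : 1 ≤ t) {k y : ℤ × ℤ} (h1 : 0 ≤ y.1) (h2 : y.1 < t) (h3 : 0 ≤ y.2)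
    (h4 : y.2 < t) : (t : ℤ) * (nn k - 1) + 1 ≤ nn (cor t k + y) ∧
      nn (cor t k + y) ≤ t * (nn k + 1) - 1 := by
  obtain ⟨a1, a2⟩ := n1_cell ht h1 h2 (k := k.1)
  obtain ⟨b1, b2⟩ := n1_cell ht h3 h4 (k := k.2)
  rw [nn_n1, nn_n1]
  have e1 : (cor t k + y).1 = t * k.1 + y.1 := rfl
  have e2 : (cor t k + y).2 = t * k.2 + y.2 := rfl
  rw [e1, e2]
  constructor <;> linarith

/-- coordinates of a unit cell in a square of the family -/
theorem mem_sq {t : ℕ} {p k z : ℤ × ℤ} (hz : z ∈ uc t (p + cor t k)) :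
    ∃ y : ℤ × ℤ, 0 ≤ y.1 ∧ y.1 < t ∧ 0 ≤ y.2 ∧ y.2 < t ∧ z - p = cor t k + y := by
  rw [mem_uc] at hz
  refine ⟨z - p - cor t k, ?_, ?_, ?_, ?_, by abel⟩ <;>
    simp only [Prod.fst_sub, Prod.snd_sub, Prod.fst_add, Prod.snd_add] at hz ⊢ <;> omega

theorem nn_sq {t : ℕ} (ht : 1 ≤ t) {p k z : ℤ × ℤ} (hz : z ∈ uc t (p + cor t k)) :
    (t : ℤ) * (nn k - 1) + 1 ≤ nn (z - p) ∧ nn (z - p) ≤ t * (nn k + 1) - 1 := by
  obtain ⟨y, h1, h2, h3, h4, h5⟩ := mem_sq hz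
  rw [h5]
  exact nn_cell ht h1 h2 h3 h4

theorem sg_sq {t : ℕ} (ht : 1 ≤ t) {p k z : ℤ × ℤ} (hz : z ∈ uc t (p + cor t k)) :
    sg (z - p).1 = sg k.1 ∧ sg (z - p).2 = sg k.2 := by
  obtain ⟨y, h1, h2, h3, h4, h5⟩ := mem_sq hz
  rw [h5]
  have e1 : (cor t k + y).1 = t * k.1 + y.1 := rfl
  have e2 : (cor t k + y).2 = t * k.2 + y.2 := rfl
  rw [e1, e2]
  unfold sg
  have s1 := sign_cell ht h1 h2 (k := k.1)
  have s2 := sign_cell ht h3 h4 (k := k.2)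
  constructor
  · by_cases h : 0 ≤ k.1
    · rw [if_pos h, if_pos (s1.2 h)]
    · rw [if_neg h, if_neg (fun h' => h (s1.1 h'))]
  · by_cases h : 0 ≤ k.2
    · rw [if_pos h, if_pos (s2.2 h)]
    · rw [if_neg h, if_neg (fun h' => h (s2.1 h'))]

/-- inside squares -/
theorem nn_in {t M : ℕ} (ht : 1 ≤ t) {p k z : ℤ × ℤ} (hz : z ∈ uc t (p + cor t k))
    (hk : nn k < M) : nn (z - p) < ((t * M : ℕ) : ℤ) := by
  have h := (nn_sq ht hz).2
  have h1 : nn k + 1 ≤ M := hk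
  have h2 : (t : ℤ) * (nn k + 1) ≤ t * M := mul_le_mul_of_nonneg_left h1 (by omega)
  push_cast
  omega

/-- outside squares -/
theorem nn_out {t M : ℕ} (ht : 1 ≤ t) {p k z : ℤ × ℤ} (hz : z ∈ uc t (p + cor t k))
    (hk : (M : ℤ) < nn k) : ((t * M : ℕ) : ℤ) < nn (z - p) := by
  have h := (nn_sq ht hz).1
  have h1 : (M : ℤ) ≤ nn k - 1 := by omega
  have h2 : (t : ℤ) * M ≤ t * (nn k - 1) := mul_le_mul_of_nonneg_left h1 (by omega)
  push_cast
  omega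

/-- the pyramid on an inside square -/
theorem pyr_in {t M : ℕ} (ht : 1 ≤ t) {p k : ℤ × ℤ} (hk : nn k < M) :
    rs t (p + cor t k) (pyr (t * M) p) = ((sg k.2 : ℤ) : ℝ) • hh + (-(((sg k.1 : ℤ)) : ℝ)) • vv := by
  funext e
  have hz := mem_uc_bond (p + cor t k) e
  have h1 := nn_in ht hz hk
  obtain ⟨h2, h3⟩ := sg_sq ht hz
  unfold rs pyr
  simp only [Pi.add_apply, Pi.smul_apply, smul_eq_mul]
  unfold ph pv hh vv
  rw [if_pos h1, if_pos h1, h2, h3]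
  cases e.2.1 <;> simp

/-- the pyramid on an outside square -/
theorem pyr_out {t M : ℕ} (ht : 1 ≤ t) {p k : ℤ × ℤ} (hk : (M : ℤ) < nn k) :
    rs t (p + cor t k) (pyr (t * M) p) = 0 := by
  funext e
  have hz := mem_uc_bond (p + cor t k) e
  have h1 := not_lt.2 (nn_out ht hz hk).le
  unfold rs pyr ph pv
  rw [if_neg h1, if_neg h1]
  simp

theorem abs_sgR (k : ℤ) : |((sg k : ℤ) : ℝ)| = 1 := by
  rw [← Int.cast_abs, abs_sg, Int.cast_one]

/-- the pyramid is constant on the squares which are not cut -/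
theorem pyr_cst {t M : ℕ} (ht : 1 ≤ t) {p k : ℤ × ℤ} (hk : nn k ≠ M) :
    Cst (pyr (t * M) p) 1 (t, p + cor t k) := by
  rcases lt_or_gt_of_ne hk with h | h
  · refine ⟨_, _, ?_, ?_, pyr_in ht h⟩
    · rw [abs_sgR]
    · rw [abs_neg, abs_sgR]
  · refine ⟨0, 0, by norm_num, by norm_num, ?_⟩
    rw [pyr_out ht h]
    simp

/-! ### families -/

/-- the squares of side `t` with corners `p + t k` -/
noncomputable def fm (t : ℕ) (p : ℤ × ℤ) (K : Finset (ℤ × ℤ)) : Finset (ℕ × (ℤ × ℤ)) :=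
  K.image fun k => (t, p + cor t k)

/-- the indices -/
noncomputable def bk (N : ℕ) : Finset (ℤ × ℤ) := Finset.Ico (-(N : ℤ)) N ×ˢ Finset.Ico (-(N : ℤ)) N

theorem mem_bk {N : ℕ} {k : ℤ × ℤ} :
    k ∈ bk N ↔ (-(N : ℤ) ≤ k.1 ∧ k.1 < N) ∧ (-(N : ℤ) ≤ k.2 ∧ k.2 < N) := by
  unfold bk
  rw [Finset.mem_product, Finset.mem_Ico, Finset.mem_Ico]

theorem mem_fm {t : ℕ} {p : ℤ × ℤ} {K : Finset (ℤ × ℤ)} {q : ℕ × (ℤ × ℤ)} :
    q ∈ fm t p K ↔ ∃ k ∈ K, (t, p + cor t k) = q := by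
  unfold fm
  rw [Finset.mem_image]

theorem cor_inj {t : ℕ} (ht : 1 ≤ t) {k k' : ℤ × ℤ} (h : cor t k = cor t k') : k = k' := by
  have h1 := congrArg Prod.fst h
  have h2 := congrArg Prod.snd h
  unfold cor at h1 h2
  simp only at h1 h2
  have ht' : (t : ℤ) ≠ 0 := by omega
  exact Prod.ext (mul_left_cancel₀ ht' h1) (mul_left_cancel₀ ht' h2)

theorem fm_card (t : ℕ) (p : ℤ × ℤ) (K : Finset (ℤ × ℤ)) : (fm t p K).card ≤ K.card :=
  Finset.card_image_le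

theorem fm_mono {t : ℕ} {p : ℤ × ℤ} {K K' : Finset (ℤ × ℤ)} (h : K ⊆ K') :
    fm t p K ⊆ fm t p K' := Finset.image_subset_image h

theorem cell_uniq {t : ℕ} (ht : 1 ≤ t) {x y x' y' : ℤ} (h0 : 0 ≤ y) (h1 : y < t) (h0' : 0 ≤ y')
    (h1' : y' < t) (h : (t : ℤ) * x + y = t * x' + y') : x = x' := by
  have ht' : (1 : ℤ) ≤ t := by exact_mod_cast ht
  by_contra hc
  rcases lt_or_gt_of_ne hc with h2 | h2
  · have h3 : x + 1 ≤ x' := h2
    nlinarith only [h, h3, h0', h1, ht']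
  · have h3 : x' + 1 ≤ x := h2
    nlinarith only [h, h3, h0, h1', ht']

theorem fm_fam {t : ℕ} (ht : 1 ≤ t) {p : ℤ × ℤ} {K : Finset (ℤ × ℤ)} {L N : ℕ} (hK : K ⊆ bk N)
    (h1 : (t * N : ℕ) ≤ p.1) (h2 : p.1 + (t * N : ℕ) ≤ L) (h3 : (t * N : ℕ) ≤ p.2)
    (h4 : p.2 + (t * N : ℕ) ≤ L) : Fam L (fm t p K) := by
  refine ⟨?_, ?_⟩
  · intro q hq
    rw [mem_fm] at hq
    obtain ⟨k, hk, rfl⟩ := hq
    have hk' := mem_bk.1 (hK hk)
    refine ⟨ht, ?_⟩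
    obtain ⟨⟨a1, a2⟩, a3, a4⟩ := hk'
    have b1 : (t : ℤ) * (-(N : ℤ)) ≤ t * k.1 := mul_le_mul_of_nonneg_left a1 (by omega)
    have b2 : (t : ℤ) * (k.1 + 1) ≤ t * N := mul_le_mul_of_nonneg_left a2 (by omega)
    have b3 : (t : ℤ) * (-(N : ℤ)) ≤ t * k.2 := mul_le_mul_of_nonneg_left a3 (by omega)
    have b4 : (t : ℤ) * (k.2 + 1) ≤ t * N := mul_le_mul_of_nonneg_left a4 (by omega)
    push_cast at h1 h2 h3 h4
    unfold Sq cor
    simp only [Prod.fst_add, Prod.snd_add]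
    refine ⟨?_, ?_, ?_, ?_⟩ <;> linarith
  · intro q hq q' hq' hne
    rw [mem_fm] at hq hq'
    obtain ⟨k, hk, rfl⟩ := hq
    obtain ⟨k', hk', rfl⟩ := hq'
    rw [Finset.disjoint_left]
    intro z hz hz'
    apply hne
    obtain ⟨y, c1, c2, c3, c4, c5⟩ := mem_sq hz
    obtain ⟨y', d1, d2, d3, d4, d5⟩ := mem_sq hz'
    rw [c5] at d5
    have e1 : (t : ℤ) * k.1 + y.1 = t * k'.1 + y'.1 := congrArg Prod.fst d5
    have e2 : (t : ℤ) * k.2 + y.2 = t * k'.2 + y'.2 := congrArg Prod.snd d5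
    have e3 : k = k' := Prod.ext (cell_uniq ht c1 c2 d1 d2 e1) (cell_uniq ht c3 c4 d3 d4 e2)
    rw [e3]

/-- division with remainder -/
theorem ediv_cell {t : ℕ} (ht : 1 ≤ t) (x : ℤ) : ∃ k y : ℤ, 0 ≤ y ∧ y < t ∧ x = t * k + y := by
  refine ⟨x / t, x % t, Int.emod_nonneg _ (by omega), Int.emod_lt_of_pos _ (by omega), ?_⟩
  have := Int.emod_add_mul_ediv x t
  linarith

/-- every unit cell belongs to a square -/
theorem exists_sq {t : ℕ} (ht : 1 ≤ t) (p z : ℤ × ℤ) : ∃ k : ℤ × ℤ, z ∈ uc t (p + cor t k) := by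
  obtain ⟨k1, y1, a1, a2, a3⟩ := ediv_cell ht (z - p).1
  obtain ⟨k2, y2, b1, b2, b3⟩ := ediv_cell ht (z - p).2
  refine ⟨(k1, k2), ?_⟩
  rw [mem_uc]
  simp only [Prod.fst_sub, Prod.snd_sub] at a3 b3
  unfold cor
  simp only [Prod.fst_add, Prod.snd_add]
  refine ⟨⟨?_, ?_⟩, ?_, ?_⟩ <;> linarith

/-- the index of the square of a unit cell inside a diamond -/
theorem nn_idx {t M : ℕ} (ht : 1 ≤ t) {p k z : ℤ × ℤ} (hz : z ∈ uc t (p + cor t k))
    (h : nn (z - p) ≤ ((t * M : ℕ) : ℤ)) : nn k ≤ M := by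
  by_contra hc
  have := nn_out ht hz (not_le.1 hc)
  omega

theorem nn_idx' {t M : ℕ} (ht : 1 ≤ t) {p k z : ℤ × ℤ} (hz : z ∈ uc t (p + cor t k))
    (h : ((t * M : ℕ) : ℤ) ≤ nn (z - p)) : (M : ℤ) ≤ nn k := by
  by_contra hc
  have := nn_in ht hz (not_le.1 hc)
  omega

theorem bk_of_nn {N : ℕ} {k : ℤ × ℤ} (h : nn k ≤ N) : k ∈ bk N := by
  rw [nn_n1] at h
  have h1 := n1_nonneg k.1
  have h2 := n1_nonneg k.2
  rw [mem_bk]
  exact ⟨n1_lt (by omega), n1_lt (by omega)⟩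

/-- the family with the indices in the box of size `N` covers the diamond of radius `t N` -/
theorem cov_nn {t N : ℕ} (ht : 1 ≤ t) {p z : ℤ × ℤ} (h : nn (z - p) ≤ ((t * N : ℕ) : ℤ)) :
    z ∈ cov (fm t p (bk N)) := by
  obtain ⟨k, hk⟩ := exists_sq ht p z
  unfold cov
  rw [Finset.mem_biUnion]
  exact ⟨(t, p + cor t k), mem_fm.2 ⟨k, bk_of_nn (nn_idx ht hk h), rfl⟩, hk⟩

/-- the pyramid field is not changed by the cut -/
theorem cut_pyr {t N M : ℕ} (ht : 1 ≤ t) (hM : M ≤ N) (p : ℤ × ℤ) :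
    cut (fm t p (bk N)) (pyr (t * M) p) = pyr (t * M) p := by
  classical
  funext s z
  unfold cut
  split_ifs with h
  · rfl
  · have h1 : ((t * M : ℕ) : ℤ) < nn (z - p) := by
      by_contra hc
      push Not at hc
      apply h
      apply cov_nn ht
      refine hc.trans ?_
      exact_mod_cast Nat.mul_le_mul_left t hM
    have h2 := not_lt.2 h1.le
    unfold pyr ph pv
    rw [if_neg h2, if_neg h2]
    simp

theorem pyr_sq (r : ℕ) (q z : ℤ × ℤ) : ∑ t : Bool × Bool, pyr r q t z * pyr r q t z =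
    if nn (z - q) < r then 4 else 0 := by
  rw [sum_bb]
  unfold pyr ph pv
  simp only [Bool.false_eq_true, if_false, if_true]
  have h1 : ∀ k : ℤ, ((sg k : ℤ) : ℝ) * ((sg k : ℤ) : ℝ) = 1 := by
    intro k
    have := abs_sgR k
    rw [← abs_mul_abs_self, this]
    norm_num
  split_ifs with h
  · push_cast
    have a1 := h1 (z - q).1
    have a2 := h1 (z - q).2
    linear_combination 2 * a1 + 2 * a2
  · simp

/-- the norm of the pyramid -/
theorem nS_pyr {L : ℕ} {S : Finset (ℕ × (ℤ × ℤ))} (h : Fam L S) (r : ℕ) (q : ℤ × ℤ) :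
    nS S (pyr r q) (pyr r q) ≤ 4 * (r : ℝ) ^ 2 := by
  classical
  unfold nS
  rw [← Finset.mul_sum, ← sum_cov h (fun z => ∑ t : Bool × Bool, pyr r q t z * pyr r q t z)]
  · simp_rw [pyr_sq]
    rw [← Finset.sum_filter, Finset.sum_const, nsmul_eq_mul]
    have h1 : ((cov S).filter fun z => nn (z - q) < r).card ≤ 2 * r ^ 2 := by
      have h2 := in_card r ((cov S).image fun z => z - q)
      refine le_trans ?_ h2
      rw [← Finset.card_image_of_injective ((cov S).filter fun z => nn (z - q) < r)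
        (show Function.Injective fun z : ℤ × ℤ => z - q from sub_left_injective)]
      refine Finset.card_le_card ?_
      intro k hk
      rw [Finset.mem_image] at hk
      obtain ⟨z, hz, hk⟩ := hk
      rw [Finset.mem_filter] at hz ⊢
      subst hk
      exact ⟨Finset.mem_image_of_mem _ hz.1, hz.2⟩
    have h3 : ((((cov S).filter fun z => nn (z - q) < r).card : ℕ) : ℝ) ≤ 2 * (r : ℝ) ^ 2 := by
      exact_mod_cast h1
    linarith only [h3]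

/-- (RP) the lower bound of the form of the block on pyramids -/
def RPb (b Y0 C1 : ℝ) : Prop := ∀ (L r : ℕ) (q : ℤ × ℤ), 1 ≤ r → 2 ∣ r → (r : ℤ) ≤ q.1 →
  q.1 + r ≤ L → (r : ℤ) ≤ q.2 → q.2 + r ≤ L →
    Y0 * (4 * (r : ℝ) ^ 2) - C1 * (r * Real.sqrt r) ≤ qc b L 0 (rs L 0 (pyr r q)) 0

/-- **`vS` of a pyramid** -/
theorem vS_pyr {b Y0 C1 : ℝ} (hb : 0 < b) (hY0 : 0 ≤ Y0) (hR : RPb b Y0 C1) {L t N M : ℕ}
    (ht : 1 ≤ t) (hM1 : 1 ≤ M) (hev : 2 ∣ t * M) (hM : M ≤ N) {p : ℤ × ℤ}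
    (h1 : (t * N : ℕ) ≤ p.1) (h2 : p.1 + (t * N : ℕ) ≤ L) (h3 : (t * N : ℕ) ≤ p.2)
    (h4 : p.2 + (t * N : ℕ) ≤ L) (hst : Y0 ≤ stiff t b) :
    vS b L (fm t p (bk N)) (pyr (t * M) p) ≤ (stiff t b - Y0) * (4 * ((t * M : ℕ) : ℝ) ^ 2) +
      8 * b * t * ((t * M : ℕ) : ℝ) +
      C1 * (((t * M : ℕ) : ℝ) * Real.sqrt ((t * M : ℕ) : ℝ)) := by
  classical
  have hF : Fam L (fm t p (bk N)) := fm_fam ht (Finset.Subset.refl _) h1 h2 h3 h4
  have hMN : t * M ≤ t * N := Nat.mul_le_mul_left t hM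
  have hMN' : ((t * M : ℕ) : ℤ) ≤ ((t * N : ℕ) : ℤ) := by exact_mod_cast hMN
  have hV := hR L (t * M) p (Nat.mul_pos ht hM1) hev (by omega) (by omega) (by omega) (by omega)
  have hn := nS_pyr hF (t * M) p
  have hbd := vS_bound (L := L) hb ht
    (S := fm t p (bk N)) (bad := fm t p ((bk N).filter fun k => nn k = M))
    (fm_mono (Finset.filter_subset _ _)) hF
    (fun q hq => by
      rw [mem_fm] at hq
      obtain ⟨k, -, rfl⟩ := hq
      rfl)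
    (g := pyr (t * M) p) (W := 1) (Y0 := Y0)
    (err := C1 * (((t * M : ℕ) : ℝ) * Real.sqrt ((t * M : ℕ) : ℝ)))
    (fun q _ z _ s => abs_pyr _ _ _ _)
    (fun q hq hq' => by
      rw [mem_fm] at hq
      obtain ⟨k, hk, rfl⟩ := hq
      apply pyr_cst ht
      intro hc
      apply hq'
      rw [mem_fm]
      exact ⟨k, Finset.mem_filter.2 ⟨hk, hc⟩, rfl⟩)
    (by
      rw [cut_pyr ht hM]
      have := mul_le_mul_of_nonneg_left hn hY0
      linarith only [this, hV])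
  refine hbd.trans ?_
  have hc : ((fm t p ((bk N).filter fun k => nn k = M)).card : ℝ) ≤ 4 * M := by
    exact_mod_cast (fm_card _ _ _).trans (rim_card M (bk N))
  have a1 := mul_le_mul_of_nonneg_left hn (sub_nonneg.2 hst)
  have a2 : 2 * b * (t : ℝ) ^ 2 * 1 ^ 2 * ((fm t p ((bk N).filter fun k => nn k = M)).card : ℝ) ≤
      2 * b * (t : ℝ) ^ 2 * 1 ^ 2 * (4 * M) := mul_le_mul_of_nonneg_left hc (by positivity)
  have a3 : 2 * b * (t : ℝ) ^ 2 * 1 ^ 2 * (4 * M) = 8 * b * t * ((t * M : ℕ) : ℝ) := by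
    push_cast; ring
  linarith only [a1, a2, a3]

end Vale.Agent.P159.UJ.H253
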