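import Vale.Agent.P159.H773.Rat6

/-!
P159 (helper253), record scales, part 0: the two point function of the plane is at most the square of
the wired magnetization: `C b (r, 0) ≤ mm b s ^ 2` for `2 s + 2 ≤ r`.
-/

open MeasureTheory Filter Topology
open scoped BigOperators

set_option linter.all false

namespace Vale.Agent.P159.H253

open Vale.Agent.P159 Vale.Agent.P159.H353 Vale.Agent.P159.T1.H42 Vale.Agent.P159.TM.H389
open Vale.Agent.P159.TM.H331 Vale.Agent.P159.H773

variable {M : ℕ} {b : ℝ}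

lemma cosT_subM (x y : T) : cosT (x - y) = cosT x * cosT y + sinT x * sinT y := by
  have h : ∀ a b : Real.Angle, Real.Angle.cos (a - b) =
      Real.Angle.cos a * Real.Angle.cos b + Real.Angle.sin a * Real.Angle.sin b := by
    intro a b
    rw [sub_eq_add_neg, Real.Angle.cos_add, Real.Angle.cos_neg, Real.Angle.sin_neg]
    ring
  exact h x y

/-- two separated regions -/
theorem eP_twoM {Λ1 Λ2 : Finset (ℤ × ℤ)} (hs : H773.Sep Λ1 Λ2) {p q : St M}
    (hp : cv p ∈ Λ1) (hq : cv q ∈ Λ2) :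
    eP (WF M b) (off M (Λ1 ∪ Λ2)) (fun θ => cosT (θ p - θ q)) =
      eP (WF M b) (off M Λ1) (fun θ => cosT (θ p)) *
        eP (WF M b) (off M Λ2) (fun θ => cosT (θ q)) := by
  have hd : ∀ v : St M, cv v ∈ Λ1 → cv v ∉ Λ2 := by
    intro v h1 h2
    have := hs _ h1 _ h2
    rw [sub_self, XY.nm_zero] at this
    omega
  have w0 : 0 < WF M b 0 := Real.exp_pos _
  set p1 := fun θ : St M → T => pin (off M Λ1) 0 θ with hp1
  set p2 := fun θ : St M → T => pin (off M Λ2) 0 θ with hp2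
  have c1 : Continuous p1 := pin_cont _ 0
  have c2 : Continuous p2 := pin_cont _ 0
  have hW := fun θ => WF_two (M := M) (b := b) hs θ
  have hind : ∀ {f g : T → ℝ}, Continuous f → Continuous g →
      ∫ θ, (WF M b (p1 θ) * f (p1 θ p)) * (WF M b (p2 θ) * g (p2 θ q)) ∂(torusHaar (St M)) =
        (∫ θ, WF M b (p1 θ) * f (p1 θ p) ∂(torusHaar (St M))) *
          ∫ θ, WF M b (p2 θ) * g (p2 θ q) ∂(torusHaar (St M)) := by
    intro f g hf hg
    refine indep (S := {v : St M | cv v ∈ Λ1})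
      (((WF M b).continuous.comp c1).mul (hf.comp ((continuous_apply p).comp c1)))
      (((WF M b).continuous.comp c2).mul (hg.comp ((continuous_apply q).comp c2))) ?_ ?_
    · intro θ θ' h
      have e : p1 θ = p1 θ' := by
        funext v
        by_cases hv : cv v ∈ Λ1
        · have hv' : v ∉ off M Λ1 := fun h => h hv
          simp only [hp1]
          rw [pin_notMem hv', pin_notMem hv']
          exact h v hv
        · simp only [hp1]
          rw [pin_mem (show v ∈ off M Λ1 from hv), pin_mem (show v ∈ off M Λ1 from hv)]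
      show WF M b (p1 θ) * f (p1 θ p) = WF M b (p1 θ') * f (p1 θ' p)
      rw [e]
    · intro θ θ' h
      have e : p2 θ = p2 θ' := by
        funext v
        by_cases hv : cv v ∈ Λ2
        · have hv' : v ∉ off M Λ2 := fun h => h hv
          simp only [hp2]
          rw [pin_notMem hv', pin_notMem hv']
          exact h v fun h1 => hd v h1 hv
        · simp only [hp2]
          rw [pin_mem (show v ∈ off M Λ2 from hv), pin_mem (show v ∈ off M Λ2 from hv)]
      show WF M b (p2 θ) * g (p2 θ q) = WF M b (p2 θ') * g (p2 θ' q)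
      rw [e]
  have hpv : ∀ θ : St M → T, pin (off M (Λ1 ∪ Λ2)) 0 θ p = p1 θ p := by
    intro θ
    simp only [hp1]
    rw [pin_notMem (notMem_off (Finset.mem_union_left _ hp)), pin_notMem (notMem_off hp)]
  have hqv : ∀ θ : St M → T, pin (off M (Λ1 ∪ Λ2)) 0 θ q = p2 θ q := by
    intro θ
    simp only [hp2]
    rw [pin_notMem (notMem_off (Finset.mem_union_right _ hq)), pin_notMem (notMem_off hq)]
  have e1 : (∫ θ, WF M b (pin (off M (Λ1 ∪ Λ2)) 0 θ) *
      cosT (pin (off M (Λ1 ∪ Λ2)) 0 θ p - pin (off M (Λ1 ∪ Λ2)) 0 θ q) ∂(torusHaar (St M))) *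
        WF M b 0 = (∫ θ, WF M b (p1 θ) * cosT (p1 θ p) ∂(torusHaar (St M))) *
          ∫ θ, WF M b (p2 θ) * cosT (p2 θ q) ∂(torusHaar (St M)) := by
    have hc := hind cont_cos cont_cos
    have hsn := hind cont_sin cont_sin
    have z1 : ∫ θ, WF M b (p1 θ) * sinT (p1 θ p) ∂(torusHaar (St M)) = 0 := sin_zero _ p
    rw [z1, zero_mul] at hsn
    rw [← hc, ← integral_mul_const, ← add_zero (∫ θ, (WF M b (p1 θ) * cosT (p1 θ p)) *
      (WF M b (p2 θ) * cosT (p2 θ q)) ∂(torusHaar (St M))), ← hsn, ← integral_add]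
    · refine integral_congr_ae (Eventually.of_forall fun θ => ?_)
      have e2 : cosT (p1 θ p - p2 θ q) =
          cosT (p1 θ p) * cosT (p2 θ q) + sinT (p1 θ p) * sinT (p2 θ q) := cosT_subM _ _
      show WF M b (pin (off M (Λ1 ∪ Λ2)) 0 θ) * cosT (pin (off M (Λ1 ∪ Λ2)) 0 θ p -
        pin (off M (Λ1 ∪ Λ2)) 0 θ q) * WF M b 0 = _
      rw [hpv, hqv, e2, mul_right_comm, hW θ]
      show _ = (WF M b (p1 θ) * cosT (p1 θ p)) * (WF M b (p2 θ) * cosT (p2 θ q)) +
        (WF M b (p1 θ) * sinT (p1 θ p)) * (WF M b (p2 θ) * sinT (p2 θ q))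
      ring
    · exact cint ((((WF M b).continuous.comp c1).mul
        (cont_cos.comp ((continuous_apply p).comp c1))).mul
        (((WF M b).continuous.comp c2).mul (cont_cos.comp ((continuous_apply q).comp c2))))
    · exact cint ((((WF M b).continuous.comp c1).mul
        (cont_sin.comp ((continuous_apply p).comp c1))).mul
        (((WF M b).continuous.comp c2).mul (cont_sin.comp ((continuous_apply q).comp c2))))
  have e2 : (∫ θ, WF M b (pin (off M (Λ1 ∪ Λ2)) 0 θ) ∂(torusHaar (St M))) * WF M b 0 =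
      (∫ θ, WF M b (p1 θ) ∂(torusHaar (St M))) * ∫ θ, WF M b (p2 θ) ∂(torusHaar (St M)) := by
    have hc := hind (f := fun _ => 1) (g := fun _ => 1) continuous_const continuous_const
    simp only [mul_one] at hc
    rw [← hc, ← integral_mul_const]
    exact integral_congr_ae (Eventually.of_forall fun θ => hW θ)
  unfold eP
  rw [← mul_div_mul_right _ _ w0.ne', e1, e2, mul_div_mul_comm]

theorem EW_twoM' {Λ1 Λ2 : Finset (ℤ × ℤ)} (hs : H773.Sep Λ1 Λ2) (h1 : Λ1 ⊆ inner (M + 1))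
    (h2 : Λ2 ⊆ inner (M + 1)) {p q : ℤ × ℤ} (hp : p ∈ Λ1) (hq : q ∈ Λ2) :
    EW b (Λ1 ∪ Λ2) (fun ω => cosT (ω p - ω q)) =
      EW b Λ1 (fun ω => cosT (ω p)) * EW b Λ2 fun ω => cosT (ω q) := by
  have ep : cv (ci (M := M) ⟨p, h1 hp⟩) = p := cv_ci _
  have eq : cv (ci (M := M) ⟨q, h2 hq⟩) = q := cv_ci _
  have h := eP_twoM (M := M) (b := b) hs (p := ci ⟨p, h1 hp⟩) (q := ci ⟨q, h2 hq⟩)
    (by rw [ep]; exact hp) (by rw [eq]; exact hq)
  have k1 : Continuous fun θ : St M → T => cosT (θ (ci ⟨p, h1 hp⟩) - θ (ci ⟨q, h2 hq⟩)) :=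
    cont_cos.comp ((continuous_apply _).sub (continuous_apply _))
  have k2 : Continuous fun θ : St M → T => cosT (θ (ci ⟨p, h1 hp⟩)) :=
    cont_cos.comp (continuous_apply _)
  have k3 : Continuous fun θ : St M → T => cosT (θ (ci ⟨q, h2 hq⟩)) :=
    cont_cos.comp (continuous_apply _)
  have g1 := eP_eq_EW (b := b) (M := M) (Finset.union_subset h1 h2) k1
      (f := fun ω => cosT (ω p - ω q)) (fun φ => by
        show cosT (ext φ (cv (ci ⟨p, h1 hp⟩)) - ext φ (cv (ci ⟨q, h2 hq⟩))) = _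
        rw [ep, eq])
  have g2 := eP_eq_EW (b := b) (M := M) h1 k2 (f := fun ω => cosT (ω p)) (fun φ => by
        show cosT (ext φ (cv (ci ⟨p, h1 hp⟩))) = _
        rw [ep])
  have g3 := eP_eq_EW (b := b) (M := M) h2 k3 (f := fun ω => cosT (ω q)) (fun φ => by
        show cosT (ext φ (cv (ci ⟨q, h2 hq⟩))) = _
        rw [eq])
  rw [← g1, ← g2, ← g3]
  exact h

/-- **two separated wired regions**, difference of the angles -/
theorem EW_twoM {Λ1 Λ2 : Finset (ℤ × ℤ)} (hs : H773.Sep Λ1 Λ2) {p q : ℤ × ℤ} (hp : p ∈ Λ1)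
    (hq : q ∈ Λ2) :
    EW b (Λ1 ∪ Λ2) (fun ω => cosT (ω p - ω q)) =
      EW b Λ1 (fun ω => cosT (ω p)) * EW b Λ2 fun ω => cosT (ω q) := by
  obtain ⟨M, z, hM⟩ := exists_inner (Λ1 ∪ Λ2)
  rw [tr_union] at hM
  have h := EW_twoM' (b := b) (M := M) (Sep_tr hs z) (Finset.union_subset_left hM)
    (Finset.union_subset_right hM) (p := p + z) (q := q + z)
    (by rw [mem_tr]; simpa using hp) (by rw [mem_tr]; simpa using hq)
  have e := EW_tr2 b (Λ1 ∪ Λ2) z p q (-1)
  simp only [neg_smul, one_zsmul, ← sub_eq_add_neg] at e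
  rw [← tr_union, e, EW_tr1, EW_tr1] at h
  exact h

/-- `C b (q - p)` is at most the wired correlation of every finite region -/
theorem C_le_EW (hb : 0 ≤ b) {Λ : Finset (ℤ × ℤ)} {p q : ℤ × ℤ} (hp : p ∈ Λ) (hq : q ∈ Λ) :
    XY.C b (q - p) ≤ EW b Λ fun ω => cosT (ω p - ω q) := by
  obtain ⟨M, z, hM⟩ := exists_inner Λ
  have hp' : p + z ∈ inner (M + 1) := hM (by rw [mem_tr]; simpa using hp)
  have hq' : q + z ∈ inner (M + 1) := hM (by rw [mem_tr]; simpa using hq)
  have h1 := C_le_cW (M := M) hb ⟨p + z, hp'⟩ ⟨q + z, hq'⟩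
  rw [cW_eq] at h1
  have h2 : expect (blockEnergy (M + 1) b) (fun θ => cosT (θ ⟨p + z, hp'⟩ - θ ⟨q + z, hq'⟩)) =
      EW b (inner (M + 1)) fun ω => cosT (ω (p + z) - ω (q + z)) := by
    rw [EW_block]
    refine congrArg _ (funext fun φ => ?_)
    rw [ext_on φ hp', ext_on φ hq']
  rw [h2] at h1
  have h3 := EW_mono (b := b) hb hM (p := p + z) (q := q + z) hp' hq' (-1)
  have e := EW_tr2 b Λ z p q (-1)
  have h4 : (q + z : ℤ × ℤ) - (p + z) = q - p := by abel
  simp only [neg_smul, one_zsmul, ← sub_eq_add_neg] at e h3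
  rw [e] at h3
  rw [← h4]
  exact h1.trans h3

/-- **the two point function against the wired magnetization** -/
theorem C_le_mm (hb : 0 ≤ b) {s r : ℕ} (h : 2 * s + 2 ≤ r) :
    XY.C b ((r : ℤ), 0) ≤ mm b s ^ 2 := by
  have hs : H773.Sep (H773.tr (box s) (0 : ℤ × ℤ)) (H773.tr (box s) ((r : ℤ), 0)) := by
    refine sep_box ?_
    have : XY.nm ((0 : ℤ × ℤ) - ((r : ℤ), 0)) = r := by
      rw [nm_sub_comm, sub_zero]
      simp [XY.nm]
    rw [this]
    exact h
  have h1 := C_le_EW (b := b) hb (Λ := H773.tr (box s) (0 : ℤ × ℤ) ∪ H773.tr (box s) ((r : ℤ), 0))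
    (Finset.mem_union_left _ (mem_tr_box (0 : ℤ × ℤ)))
    (Finset.mem_union_right _ (mem_tr_box ((r : ℤ), (0 : ℤ))))
  rw [EW_twoM hs (mem_tr_box _) (mem_tr_box _), mm_tr, mm_tr, sub_zero, ← pow_two] at h1
  exact h1

end Vale.Agent.P159.H253
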