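import Mathlib

/-!
P159 (helper253), record scales, part 1 (scalar): the comparison `u s ≤ C (R / s) ^ α c R` of the square
of the wired magnetization with the two point function propagates from a record scale `R0` to all
larger scales on which the two point function of the torus has slopes at least `-β`.
-/

open Finset

set_option linter.all false

namespace Vale.Agent.P159.H253.Rec

variable {K α β D C0 E G : ℝ} {u g c : ℕ → ℝ} {R0 R1 R : ℕ}

lemma rp_mono {x y a : ℝ} (hx : 0 ≤ x) (h : x ≤ y) (ha : 0 ≤ a) : x ^ a ≤ y ^ a :=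
  Real.rpow_le_rpow hx h ha

lemma rp_mul_le {k x a : ℝ} (hk : 1 ≤ k) (hx : 0 ≤ x) (ha0 : 0 ≤ a) (ha1 : a ≤ 1) :
    (k * x) ^ a ≤ k * x ^ a := by
  rw [Real.mul_rpow (by linarith) hx]
  refine mul_le_mul_of_nonneg_right ?_ (Real.rpow_nonneg hx a)
  calc k ^ a ≤ k ^ (1 : ℝ) := Real.rpow_le_rpow_of_exponent_le hk ha1
    _ = k := Real.rpow_one k

lemma div_chain {a b c : ℝ} (hb : b ≠ 0) : a / b * (b / c) = a / c := by
  rw [div_mul_div_comm, mul_comm b c, ← div_mul_div_comm, div_self hb, mul_one]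

/-- the middle range -/
lemma g_mid (hα0 : 0 ≤ α) (hα1 : α ≤ 1) (hC0 : 1 ≤ C0) (hE1 : 1 ≤ E) (hg0 : ∀ n, 0 ≤ g n)
    (h2 : ∀ s r, 2 * s + 2 ≤ r → g r ≤ u s) (hR0 : 4 ≤ R0)
    (hst : ∀ s : ℕ, 1 ≤ s → s ≤ R0 → u s ≤ C0 * ((R0 : ℝ) / s) ^ α * g R0) (hR : R0 ≤ R)
    (hE : g R0 ≤ E * ((R : ℝ) / R0) ^ α * g R) {r : ℕ} (hr : 4 ≤ r) (hrR : r ≤ R0) :
    g r ≤ 6 * C0 * E * ((R : ℝ) / r) ^ α * g R := by
  have hr0 : (0 : ℝ) < r := by
    have : 0 < r := by omega
    exact_mod_cast this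
  have hR00 : (0 : ℝ) < R0 := by
    have : 0 < R0 := by omega
    exact_mod_cast this
  set s := r / 2 - 1 with hs
  have hs1 : 1 ≤ s := by omega
  have h6s : r ≤ 6 * s := by omega
  have hs0 : (0 : ℝ) < s := by exact_mod_cast hs1
  have h6 : (r : ℝ) ≤ 6 * s := by exact_mod_cast h6s
  have e1 := h2 s r (by omega)
  have e2 := hst s hs1 (by omega)
  have e3 : ((R0 : ℝ) / s) ≤ 6 * ((R0 : ℝ) / r) := by
    rw [← mul_div_assoc, div_le_div_iff₀ hs0 hr0]
    nlinarith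
  have e4 : ((R0 : ℝ) / s) ^ α ≤ 6 * ((R0 : ℝ) / r) ^ α :=
    (rp_mono (by positivity) e3 hα0).trans (rp_mul_le (by norm_num) (by positivity) hα0 hα1)
  have e5 : ((R0 : ℝ) / r) ^ α * ((R : ℝ) / R0) ^ α = ((R : ℝ) / r) ^ α := by
    rw [← Real.mul_rpow (by positivity) (by positivity), mul_comm ((R0 : ℝ) / r), div_chain hR00.ne']
  calc g r ≤ C0 * ((R0 : ℝ) / s) ^ α * g R0 := e1.trans e2
    _ ≤ C0 * (6 * ((R0 : ℝ) / r) ^ α) * (E * ((R : ℝ) / R0) ^ α * g R) := by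
        refine mul_le_mul (mul_le_mul_of_nonneg_left e4 (by linarith)) hE (hg0 _) ?_
        positivity
    _ = 6 * C0 * E * (((R0 : ℝ) / r) ^ α * ((R : ℝ) / R0) ^ α) * g R := by ring
    _ = _ := by rw [e5]

/-- **growth of the two point function** below `R` -/
lemma g_growth (hα0 : 0 ≤ α) (hα1 : α ≤ 1) (hC0 : 1 ≤ C0) (hE1 : 1 ≤ E) (hg0 : ∀ n, 0 ≤ g n)
    (hg1 : ∀ n, g n ≤ 1) (hg4 : 0 < g 4)
    (h2 : ∀ s r, 2 * s + 2 ≤ r → g r ≤ u s) (hR0 : 4 ≤ R0)
    (hst : ∀ s : ℕ, 1 ≤ s → s ≤ R0 → u s ≤ C0 * ((R0 : ℝ) / s) ^ α * g R0) (hR : R0 ≤ R)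
    (hE : ∀ r, R0 ≤ r → r ≤ R → g r ≤ E * ((R : ℝ) / r) ^ α * g R) :
    1 ≤ (6 * C0 * E / g 4) * ((R : ℝ) / 4) ^ α * g R ∧
    ∀ r : ℕ, 1 ≤ r → r ≤ R → g r ≤ (6 * C0 * E / g 4) * ((R : ℝ) / r) ^ α * g R := by
  have hRp : (0 : ℝ) ≤ R := Nat.cast_nonneg R
  have hG : 6 * C0 * E ≤ 6 * C0 * E / g 4 := by
    rw [le_div_iff₀ hg4]
    nlinarith [hg1 4, mul_nonneg (by linarith : (0 : ℝ) ≤ C0) (by linarith : (0 : ℝ) ≤ E)]
  have hmid : ∀ r : ℕ, 4 ≤ r → r ≤ R0 → g r ≤ 6 * C0 * E * ((R : ℝ) / r) ^ α * g R :=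
    fun r h1 h3 => g_mid hα0 hα1 hC0 hE1 hg0 h2 hR0 hst hR (hE R0 le_rfl hR) h1 h3
  have h4 : 1 ≤ (6 * C0 * E / g 4) * ((R : ℝ) / 4) ^ α * g R := by
    have h := hmid 4 le_rfl hR0
    have h' : (6 * C0 * E / g 4) * ((R : ℝ) / 4) ^ α * g R =
        (6 * C0 * E * ((R : ℝ) / 4) ^ α * g R) / g 4 := by ring
    rw [h', le_div_iff₀ hg4, one_mul]
    exact_mod_cast h
  refine ⟨h4, fun r h1 h3 => ?_⟩
  have hr0 : (0 : ℝ) < r := by exact_mod_cast h1
  have hp : 0 ≤ ((R : ℝ) / r) ^ α * g R := mul_nonneg (Real.rpow_nonneg (by positivity) _) (hg0 _)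
  rcases lt_or_ge r 4 with hr4 | hr4
  · refine (hg1 r).trans (h4.trans ?_)
    refine mul_le_mul_of_nonneg_right (mul_le_mul_of_nonneg_left ?_ ?_) (hg0 _)
    · refine rp_mono (by positivity) ?_ hα0
      refine div_le_div_of_nonneg_left hRp hr0 ?_
      have : r ≤ 4 := by omega
      exact_mod_cast this
    · have : 0 ≤ C0 * E := mul_nonneg (by linarith) (by linarith)
      positivity
  · rcases le_total r R0 with hrR | hrR
    · refine (hmid r hr4 hrR).trans ?_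
      rw [mul_assoc, mul_assoc (6 * C0 * E / g 4)]
      exact mul_le_mul_of_nonneg_right hG hp
    · refine (hE r hrR h3).trans ?_
      rw [mul_assoc, mul_assoc (6 * C0 * E / g 4)]
      refine mul_le_mul_of_nonneg_right (le_trans ?_ hG) hp
      nlinarith

/-- **growth of the magnetization** below `R` -/
lemma u_growth (hK : 0 < K) (hα0 : 0 ≤ α) (hα1 : α ≤ 1) (hG0 : 0 ≤ G) (hu : Antitone u)
    (hu1 : ∀ n, u n ≤ 1) (hg0 : ∀ n, 0 ≤ g n)
    (h1 : ∀ R : ℕ, 1 ≤ R → ((R : ℝ) + 1) ^ 2 * u (3 * R) ≤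
      K * (1 + ∑ r ∈ range R, ((r : ℝ) + 1) * g (r + 1)))
    (h4 : 1 ≤ G * ((R : ℝ) / 4) ^ α * g R)
    (hG : ∀ r : ℕ, 1 ≤ r → r ≤ R → g r ≤ G * ((R : ℝ) / r) ^ α * g R) {s : ℕ} (hs : 1 ≤ s)
    (hsR : s ≤ R) : u s ≤ (10 * K * G + G) * ((R : ℝ) / s) ^ α * g R := by
  have hs0 : (0 : ℝ) < s := by exact_mod_cast hs
  have hRp : (0 : ℝ) < R := lt_of_lt_of_le hs0 (by exact_mod_cast hsR)
  have hp : 0 ≤ ((R : ℝ) / s) ^ α * g R := mul_nonneg (Real.rpow_nonneg (by positivity) _) (hg0 _)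
  rcases lt_or_ge s 3 with h3 | h3
  · refine (hu1 s).trans (h4.trans ?_)
    have e1 : G * ((R : ℝ) / 4) ^ α * g R ≤ G * (((R : ℝ) / s) ^ α * g R) := by
      rw [mul_assoc]
      refine mul_le_mul_of_nonneg_left (mul_le_mul_of_nonneg_right ?_ (hg0 _)) hG0
      refine rp_mono (by positivity) ?_ hα0
      refine div_le_div_of_nonneg_left hRp.le hs0 ?_
      have : s ≤ 4 := by omega
      exact_mod_cast this
    refine e1.trans ?_
    rw [mul_assoc (10 * K * G + G)]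
    refine mul_le_mul_of_nonneg_right ?_ hp
    have : 0 ≤ K * G := mul_nonneg hK.le hG0
    linarith
  · set ρ := s / 3 with hρ
    have hρ1 : 1 ≤ ρ := by omega
    have h5ρ : s ≤ 5 * ρ := by omega
    have h3ρ : 3 * ρ ≤ s := by omega
    have hρ0 : (0 : ℝ) < ρ := by exact_mod_cast hρ1
    have hρR : ρ ≤ R := by omega
    have e1 : u s ≤ u (3 * ρ) := hu h3ρ
    have e2 := h1 ρ hρ1
    set q : ℝ := ((R : ℝ) / ρ) ^ α * g R with hq
    have hq0 : 0 ≤ q := mul_nonneg (Real.rpow_nonneg (by positivity) _) (hg0 _)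
    -- each term
    have hterm : ∀ r ∈ range ρ, ((r : ℝ) + 1) * g (r + 1) ≤ G * q * ρ := by
      intro r hr
      have hr' : r + 1 ≤ ρ := Finset.mem_range.1 hr
      have hr0 : (0 : ℝ) < (r : ℝ) + 1 := by positivity
      have hr'' : (r : ℝ) + 1 ≤ ρ := by exact_mod_cast hr'
      have h := hG (r + 1) (by omega) (by omega)
      push_cast at h
      have e3 : ((R : ℝ) / (r + 1)) = ((ρ : ℝ) / (r + 1)) * ((R : ℝ) / ρ) := by
        rw [mul_comm, div_chain hρ0.ne']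
      have e4 : ((R : ℝ) / (r + 1)) ^ α ≤ ((ρ : ℝ) / (r + 1)) * ((R : ℝ) / ρ) ^ α := by
        rw [e3]
        exact rp_mul_le (by rw [le_div_iff₀ hr0]; linarith) (by positivity) hα0 hα1
      calc ((r : ℝ) + 1) * g (r + 1) ≤
            ((r : ℝ) + 1) * (G * (((ρ : ℝ) / (r + 1)) * ((R : ℝ) / ρ) ^ α) * g R) := by
            refine mul_le_mul_of_nonneg_left (h.trans ?_) hr0.le
            exact mul_le_mul_of_nonneg_right (mul_le_mul_of_nonneg_left e4 hG0) (hg0 _)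
        _ = G * q * ρ := by
            rw [hq]
            field_simp
    have hsum : ∑ r ∈ range ρ, ((r : ℝ) + 1) * g (r + 1) ≤ G * q * ρ ^ 2 := by
      refine (Finset.sum_le_sum hterm).trans ?_
      rw [Finset.sum_const, Finset.card_range, nsmul_eq_mul]
      nlinarith
    have hone : 1 ≤ G * q * ρ ^ 2 := by
      refine h4.trans ?_
      have e3 : ((R : ℝ) / 4) ^ α ≤ ρ ^ 2 * ((R : ℝ) / ρ) ^ α := by
        have e5 : ((R : ℝ) / 4) ≤ (ρ : ℝ) * ((R : ℝ) / ρ) := by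
          rw [mul_div_cancel₀ _ hρ0.ne']
          linarith
        have e6 : (1 : ℝ) ≤ ρ := by exact_mod_cast hρ1
        refine (rp_mono (by positivity) e5 hα0).trans
          ((rp_mul_le e6 (by positivity) hα0 hα1).trans ?_)
        refine mul_le_mul_of_nonneg_right ?_ (Real.rpow_nonneg (by positivity) _)
        nlinarith
      calc G * ((R : ℝ) / 4) ^ α * g R ≤ G * (ρ ^ 2 * ((R : ℝ) / ρ) ^ α) * g R :=
            mul_le_mul_of_nonneg_right (mul_le_mul_of_nonneg_left e3 hG0) (hg0 _)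
        _ = G * q * ρ ^ 2 := by rw [hq]; ring
    have e7 : ((ρ : ℝ) + 1) ^ 2 * u (3 * ρ) ≤ (2 * K * G * q) * ((ρ : ℝ) + 1) ^ 2 := by
      refine e2.trans ?_
      have h8 : 1 + ∑ r ∈ range ρ, ((r : ℝ) + 1) * g (r + 1) ≤ 2 * (G * q * ρ ^ 2) := by linarith
      refine (mul_le_mul_of_nonneg_left h8 hK.le).trans ?_
      have h9 : (ρ : ℝ) ^ 2 ≤ ((ρ : ℝ) + 1) ^ 2 := by nlinarith
      have h10 : 0 ≤ 2 * K * G * q := by positivity
      calc K * (2 * (G * q * ρ ^ 2)) = (2 * K * G * q) * ρ ^ 2 := by ring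
        _ ≤ _ := mul_le_mul_of_nonneg_left h9 h10
    have e8 : u (3 * ρ) ≤ 2 * K * G * q := by
      have : 0 < ((ρ : ℝ) + 1) ^ 2 := by positivity
      rw [mul_comm] at e7
      exact le_of_mul_le_mul_right e7 this
    have e9 : q ≤ 5 * (((R : ℝ) / s) ^ α * g R) := by
      rw [hq, ← mul_assoc]
      refine mul_le_mul_of_nonneg_right ?_ (hg0 _)
      have e5 : ((R : ℝ) / ρ) ≤ 5 * ((R : ℝ) / s) := by
        rw [← mul_div_assoc, div_le_div_iff₀ hρ0 hs0]
        have : (s : ℝ) ≤ 5 * ρ := by exact_mod_cast h5ρ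
        nlinarith
      exact (rp_mono (by positivity) e5 hα0).trans
        (rp_mul_le (by norm_num) (by positivity) hα0 hα1)
    refine e1.trans (e8.trans ?_)
    have h11 : 0 ≤ 2 * K * G := by positivity
    calc 2 * K * G * q ≤ 2 * K * G * (5 * (((R : ℝ) / s) ^ α * g R)) :=
          mul_le_mul_of_nonneg_left e9 h11
      _ ≤ _ := by
          rw [mul_assoc (10 * K * G + G)]
          have : 0 ≤ G * (((R : ℝ) / s) ^ α * g R) := mul_nonneg hG0 hp
          nlinarith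

/-- the constant of `prop_scal` -/
noncomputable def CC (K C0 D g4 : ℝ) : ℝ :=
  (10 * K + 1) * (6 * C0 * (3 * Real.exp D) / g4)

/-- **propagation of the record property** (scalar form) -/
theorem prop_scal (hK : 0 < K) (hα0 : 0 ≤ α) (hα1 : α ≤ 1) (hβ0 : 0 ≤ β) (hβ : β ≤ α)
    (hC0 : 1 ≤ C0) (hD : 0 ≤ D) {δ : ℝ} (hδ : 0 ≤ δ) (hδ1 : 28 * C0 * δ ≤ 1)
    (hδ2 : 63 * Real.exp D * CC K C0 D (g 4) * δ ≤ 1)
    (hu : Antitone u) (hu1 : ∀ n, u n ≤ 1) (hg0 : ∀ n, 0 ≤ g n) (hg1 : ∀ n, g n ≤ 1)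
    (hg4 : 0 < g 4)
    (h1 : ∀ R : ℕ, 1 ≤ R → ((R : ℝ) + 1) ^ 2 * u (3 * R) ≤
      K * (1 + ∑ r ∈ range R, ((r : ℝ) + 1) * g (r + 1)))
    (h2 : ∀ s r, 2 * s + 2 ≤ r → g r ≤ u s)
    (h3 : ∀ r : ℕ, R0 ≤ r → r ≤ R1 → |g r - c r| ≤ δ * u (r / 4)) (hR0 : 4 ≤ R0)
    (hst : ∀ s : ℕ, 1 ≤ s → s ≤ R0 → u s ≤ C0 * ((R0 : ℝ) / s) ^ α * g R0)
    (hc : ∀ r : ℕ, R0 ≤ r → r ≤ R1 → 0 < c r)
    (hsl : ∀ r R : ℕ, R0 ≤ r → r ≤ R → R ≤ R1 → c r ≤ Real.exp D * ((R : ℝ) / r) ^ β * c R) :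
    ∀ R : ℕ, R0 ≤ R → R ≤ R1 → |g R - c R| ≤ c R / 2 ∧
      ∀ s : ℕ, 1 ≤ s → s ≤ R → u s ≤ CC K C0 D (g 4) * ((R : ℝ) / s) ^ α * g R := by
  have he1 : 1 ≤ Real.exp D := Real.one_le_exp hD
  set E : ℝ := 3 * Real.exp D with hE
  have hE1 : 1 ≤ E := by rw [hE]; linarith
  set G : ℝ := 6 * C0 * E / g 4 with hG
  have hG0 : 0 ≤ G := by rw [hG]; positivity
  have hCC : CC K C0 D (g 4) = 10 * K * G + G := by
    unfold CC
    rw [hG, hE]
    ring
  have hCC0 : 0 ≤ CC K C0 D (g 4) := by rw [hCC]; positivity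
  intro R
  induction R using Nat.strong_induction_on with
  | _ R ih =>
    intro hR hR1
    have hRp : (0 : ℝ) < R := by
      have : 0 < R := by omega
      exact_mod_cast this
    have hcR := hc R hR hR1
    -- first step
    have step1 : |g R - c R| ≤ c R / 2 := by
      have hq : 1 ≤ R / 4 := by omega
      have hq0 : (0 : ℝ) < ((R / 4 : ℕ) : ℝ) := by exact_mod_cast hq
      have hq7 : (R : ℝ) ≤ 7 * ((R / 4 : ℕ) : ℝ) := by
        have : R ≤ 7 * (R / 4) := by omega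
        exact_mod_cast this
      have h7 : ∀ x : ℝ, 0 ≤ x → x ≤ 7 → x ^ α ≤ 7 := by
        intro x hx0 hx
        calc x ^ α ≤ 7 ^ α := rp_mono hx0 hx hα0
          _ ≤ 7 ^ (1 : ℝ) := Real.rpow_le_rpow_of_exponent_le (by norm_num) hα1
          _ = 7 := Real.rpow_one 7
      have hd := h3 R hR hR1
      rcases hR.eq_or_lt with heq | hlt
      · have hb := hst (R / 4) hq (by omega)
        rw [heq] at hb
        have h8 : u (R / 4) ≤ 7 * C0 * g R := by
          refine hb.trans ?_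
          have := h7 ((R : ℝ) / ((R / 4 : ℕ) : ℝ)) (by positivity)
            (by rw [div_le_iff₀ hq0]; exact hq7)
          calc C0 * ((R : ℝ) / ((R / 4 : ℕ) : ℝ)) ^ α * g R ≤ C0 * 7 * g R :=
                mul_le_mul_of_nonneg_right (mul_le_mul_of_nonneg_left this (by linarith)) (hg0 _)
            _ = _ := by ring
        have h9 : |g R - c R| ≤ g R / 4 := by
          refine hd.trans ((mul_le_mul_of_nonneg_left h8 hδ).trans ?_)
          have := mul_le_mul_of_nonneg_right hδ1 (hg0 R)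
          linarith
        rw [abs_le] at h9 ⊢
        constructor <;> linarith [h9.1, h9.2]
      · set R' := max R0 (R / 2) with hR'
        have hR'0 : R0 ≤ R' := le_max_left _ _
        have hR'lt : R' < R := by
          rw [hR']
          exact max_lt hlt (by omega)
        have hR'3 : R ≤ 3 * R' := by
          have : R / 2 ≤ R' := le_max_right _ _
          omega
        have hq' : R / 4 ≤ R' := by
          have : R / 2 ≤ R' := le_max_right _ _
          omega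
        obtain ⟨i1, i2⟩ := ih R' hR'lt hR'0 (by omega)
        have hR'p : (0 : ℝ) < R' := by
          have : 0 < R' := by omega
          exact_mod_cast this
        have hb := i2 (R / 4) hq hq'
        have h8 : u (R / 4) ≤ 7 * CC K C0 D (g 4) * g R' := by
          refine hb.trans ?_
          have := h7 ((R' : ℝ) / ((R / 4 : ℕ) : ℝ)) (by positivity) (by
            rw [div_le_iff₀ hq0]
            have : (R' : ℝ) ≤ R := by exact_mod_cast hR'lt.le
            linarith)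
          calc CC K C0 D (g 4) * ((R' : ℝ) / ((R / 4 : ℕ) : ℝ)) ^ α * g R' ≤
                CC K C0 D (g 4) * 7 * g R' :=
                mul_le_mul_of_nonneg_right (mul_le_mul_of_nonneg_left this hCC0) (hg0 _)
            _ = _ := by ring
        have h9 : g R' ≤ 3 / 2 * c R' := by
          have := (abs_le.1 i1).2
          linarith
        have h10 : c R' ≤ 3 * Real.exp D * c R := by
          have h11 := hsl R' R hR'0 hR'lt.le hR1
          have h12 : ((R : ℝ) / R') ^ β ≤ 3 := by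
            have h13 : (R : ℝ) / R' ≤ 3 := by
              rw [div_le_iff₀ hR'p]
              exact_mod_cast hR'3
            calc ((R : ℝ) / R') ^ β ≤ 3 ^ β := rp_mono (by positivity) h13 hβ0
              _ ≤ 3 ^ (1 : ℝ) := Real.rpow_le_rpow_of_exponent_le (by norm_num) (hβ.trans hα1)
              _ = 3 := Real.rpow_one 3
          calc c R' ≤ Real.exp D * ((R : ℝ) / R') ^ β * c R := h11
            _ ≤ Real.exp D * 3 * c R :=
                mul_le_mul_of_nonneg_right (mul_le_mul_of_nonneg_left h12 (by linarith)) hcR.le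
            _ = _ := by ring
        have h14 : u (R / 4) ≤ 63 / 2 * (Real.exp D * CC K C0 D (g 4)) * c R := by
          refine h8.trans ?_
          have h15 : g R' ≤ 9 / 2 * Real.exp D * c R := by
            refine h9.trans ?_
            linarith
          have := mul_le_mul_of_nonneg_left h15
            (by positivity : 0 ≤ 7 * CC K C0 D (g 4))
          refine this.trans (le_of_eq ?_)
          ring
        refine hd.trans ((mul_le_mul_of_nonneg_left h14 hδ).trans ?_)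
        have := mul_le_mul_of_nonneg_right hδ2 hcR.le
        nlinarith
    have hgc : c R ≤ 2 * g R := by
      have := (abs_le.1 step1).1
      linarith
    have step2 : ∀ r, R0 ≤ r → r ≤ R → g r ≤ E * ((R : ℝ) / r) ^ α * g R := by
      intro r hr0 hrR
      have hrp : (0 : ℝ) < r := by
        have : 0 < r := by omega
        exact_mod_cast this
      have hx : (1 : ℝ) ≤ (R : ℝ) / r := by
        rw [le_div_iff₀ hrp, one_mul]
        exact_mod_cast hrR
      have h9 : g r ≤ 3 / 2 * c r := by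
        rcases hrR.eq_or_lt with heq | hlt
        · rw [heq]
          have := (abs_le.1 step1).2
          linarith
        · have := (abs_le.1 (ih r hlt hr0 (by omega)).1).2
          linarith
      have h10 := hsl r R hr0 hrR hR1
      have h11 : ((R : ℝ) / r) ^ β ≤ ((R : ℝ) / r) ^ α :=
        Real.rpow_le_rpow_of_exponent_le hx hβ
      have h12 : c r ≤ Real.exp D * ((R : ℝ) / r) ^ α * (2 * g R) := by
        refine h10.trans ?_
        have h13 : 0 ≤ ((R : ℝ) / r) ^ β := Real.rpow_nonneg (by positivity) _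
        refine mul_le_mul (mul_le_mul_of_nonneg_left h11 (by linarith)) hgc hcR.le ?_
        have : 0 ≤ ((R : ℝ) / r) ^ α := Real.rpow_nonneg (by positivity) _
        positivity
      calc g r ≤ 3 / 2 * c r := h9
        _ ≤ 3 / 2 * (Real.exp D * ((R : ℝ) / r) ^ α * (2 * g R)) :=
            mul_le_mul_of_nonneg_left h12 (by norm_num)
        _ = _ := by rw [hE]; ring
    obtain ⟨a1, a2⟩ := g_growth hα0 hα1 hC0 hE1 hg0 hg1 hg4 h2 hR0 hst hR step2
    refine ⟨step1, fun s hs hsR => ?_⟩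
    rw [hCC]
    exact u_growth hK hα0 hα1 hG0 hu hu1 hg0 h1 a1 a2 hs hsR

end Vale.Agent.P159.H253.Rec
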