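import Vale.Agent.P159.H253.Rec0
import Vale.Agent.P159.H253.Rec1
import Vale.Agent.P159.H773.Rat11
import Vale.Agent.P159.H529.St1

/-!
P159 (helper253), record scales, part 2: **the price bound `m(s) ^ 2 ≤ C1 (R / s) ^ α c_N(R)` propagates
along the slopes of the chain**, and the torus two point function is comparable to the plane one.
-/

open MeasureTheory Filter Topology Finset
open scoped BigOperators

set_option linter.all false

namespace Vale.Agent.P159.H253.Rec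

open Vale.Agent.P159 Vale.Agent.P159.H353 Vale.Agent.P159.T1.H42 Vale.Agent.P159.TM.H389
open Vale.Agent.P159.TM.H331 Vale.Agent.P159.H773

variable {b α β C0 D : ℝ}

lemma eP_le_one {V : Type} [Fintype V] {w U : C(V → T, ℝ)} (h0 : ∀ θ, 0 < w θ)
    (hU : ∀ θ, U θ ≤ 1) (S : Set V) : eP w S U ≤ 1 := by
  unfold eP
  rw [div_le_one (eP_den_pos h0 S)]
  have c1 : Continuous fun θ : V → T => w (pin S 0 θ) * U (pin S 0 θ) :=
    (w.continuous.comp (pin_cont S 0)).mul (U.continuous.comp (pin_cont S 0))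
  have c2 : Continuous fun θ : V → T => w (pin S 0 θ) := w.continuous.comp (pin_cont S 0)
  refine integral_mono (c1.integrable_of_hasCompactSupport (HasCompactSupport.of_compactSpace _))
    (c2.integrable_of_hasCompactSupport (HasCompactSupport.of_compactSpace _)) fun θ => ?_
  exact mul_le_of_le_one_right (h0 _).le (hU _)

theorem EW_le_one (hb : 0 ≤ b) {Λ : Finset (ℤ × ℤ)} {p q : ℤ × ℤ} (hp : p ∈ Λ) (hq : q ∈ Λ)
    (s : ℤ) : (EW b Λ fun ω => cosT (ω p + s • ω q)) ≤ 1 := by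
  obtain ⟨M, z, hM⟩ := exists_inner Λ
  have hp' : p + z ∈ inner (M + 1) := hM (by rw [mem_tr]; simpa using hp)
  have hq' : q + z ∈ inner (M + 1) := hM (by rw [mem_tr]; simpa using hq)
  have e1 : cv (ci (M := M) ⟨p + z, hp'⟩) = p + z := cv_ci _
  have e2 : cv (ci (M := M) ⟨q + z, hq'⟩) = q + z := cv_ci _
  have h1 := eP_ch2 (b := b) (M := M) hM (ci ⟨p + z, hp'⟩) (ci ⟨q + z, hq'⟩) s
  rw [e1, e2, EW_tr2] at h1
  rw [← h1]
  exact eP_le_one (WF_fer hb).pos (fun θ => cosT_le_one _) _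

lemma mm_le_one (hb : 0 ≤ b) (ρ : ℕ) : mm b ρ ≤ 1 := by
  have h1 := EW_le_one (b := b) hb (zero_mem_box' ρ) (zero_mem_box' ρ) 0
  simp only [zero_zsmul, add_zero] at h1
  exact h1

/-- the axis function -/
noncomputable def ga (b : ℝ) (n : ℕ) : ℝ := XY.C b ((n : ℤ), 0)

/-- squared magnetization -/
noncomputable def ua (b : ℝ) (n : ℕ) : ℝ := mm b n ^ 2

lemma ga_nonneg (hb : 0 ≤ b) (n : ℕ) : 0 ≤ ga b n := XY.C_nonneg hb _

lemma ga_le_one (b : ℝ) (n : ℕ) : ga b n ≤ 1 := XY.C_le_one b _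

lemma ga_anti (hb : 0 ≤ b) : Antitone (ga b) :=
  antitone_nat_of_succ_le fun n => Vale.Agent.P159.H556.axis_anti hb n

lemma ua_nonneg (b : ℝ) (n : ℕ) : 0 ≤ ua b n := sq_nonneg _

lemma ua_anti (hb : 0 ≤ b) : Antitone (ua b) := fun _ n h =>
  pow_le_pow_left₀ (mm_nonneg hb n) (mm_anti hb h) 2

lemma ua_le_one (hb : 0 ≤ b) (n : ℕ) : ua b n ≤ 1 :=
  pow_le_one₀ (mm_nonneg hb n) (mm_le_one hb n)

lemma ga_le_ua (hb : 0 ≤ b) (s r : ℕ) (h : 2 * s + 2 ≤ r) : ga b r ≤ ua b s := C_le_mm hb h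

/-- the price bound at the scale `R` -/
def RecAt (b α C0 : ℝ) (R : ℕ) : Prop :=
  0 < ga b R ∧ ∀ s : ℕ, 1 ≤ s → s ≤ R → ua b s ≤ C0 * ((R : ℝ) / s) ^ α * ga b R

/-- plane against torus of side `N ≥ A r` -/
lemma ga_sub_cT0 (hb : 0 ≤ b) {N r : ℕ} (hr : 4 ≤ r) {A : ℝ} (hA : 8 ≤ A)
    (hN : A * r ≤ N) :
    |ga b r - cT0 (N - 2) b r| ≤ 16 * A ^ (-(1 / (16 * b + 1)) : ℝ) * ua b (r / 4) := by
  have hr' : (4 : ℝ) ≤ r := by exact_mod_cast hr
  have h2 : 2 ≤ N := by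
    have : (2 : ℝ) ≤ N := by nlinarith
    exact_mod_cast this
  refine C_sub_cT0 hb hr hA ?_
  have h3 : (((N - 2 : ℕ) : ℝ)) + 2 = N := by
    have : N - 2 + 2 = N := by omega
    exact_mod_cast this
  rw [h3]
  exact hN

/-- **plane and torus**: at a scale with the price bound the two point functions agree up to the
relative error `C (r / N) ^ c` -/
theorem RecAt.tor (hb : 0 ≤ b) (hα0 : 0 ≤ α) (hα1 : α ≤ 1) (hC0 : 0 ≤ C0) {r : ℕ} (hr : 4 ≤ r)
    (h : RecAt b α C0 r) {N : ℕ} (hN : 8 * r ≤ N) :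
    |ga b r - cT0 (N - 2) b r| ≤
      112 * C0 * ((N : ℝ) / r) ^ (-(1 / (16 * b + 1)) : ℝ) * ga b r := by
  have hr0 : (0 : ℝ) < r := by
    have : 0 < r := by omega
    exact_mod_cast this
  have hN' : (8 : ℝ) * r ≤ N := by exact_mod_cast hN
  have hA : (8 : ℝ) ≤ (N : ℝ) / r := by rwa [le_div_iff₀ hr0]
  have h1 := ga_sub_cT0 hb hr hA (by rw [div_mul_cancel₀ _ hr0.ne'])
  refine h1.trans ?_
  have hq : 1 ≤ r / 4 := by omega
  have hq0 : (0 : ℝ) < ((r / 4 : ℕ) : ℝ) := by exact_mod_cast hq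
  have hq7 : (r : ℝ) ≤ 7 * ((r / 4 : ℕ) : ℝ) := by
    have : r ≤ 7 * (r / 4) := by omega
    exact_mod_cast this
  have h2 := h.2 (r / 4) hq (by omega)
  have h3 : ((r : ℝ) / ((r / 4 : ℕ) : ℝ)) ^ α ≤ 7 := by
    calc ((r : ℝ) / ((r / 4 : ℕ) : ℝ)) ^ α ≤ 7 ^ α :=
          Real.rpow_le_rpow (by positivity) (by rw [div_le_iff₀ hq0]; exact hq7) hα0
      _ ≤ 7 ^ (1 : ℝ) := Real.rpow_le_rpow_of_exponent_le (by norm_num) hα1
      _ = 7 := Real.rpow_one 7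
  have h4 : ua b (r / 4) ≤ C0 * 7 * ga b r :=
    h2.trans (mul_le_mul_of_nonneg_right (mul_le_mul_of_nonneg_left h3 hC0) h.1.le)
  have h5 : 0 ≤ 16 * ((N : ℝ) / r) ^ (-(1 / (16 * b + 1)) : ℝ) := by positivity
  calc _ ≤ 16 * ((N : ℝ) / r) ^ (-(1 / (16 * b + 1)) : ℝ) * (C0 * 7 * ga b r) :=
        mul_le_mul_of_nonneg_left h4 h5
    _ = _ := by ring

lemma RecAt.down (hb : 0 ≤ b) (hα0 : 0 ≤ α) (hC0 : 0 ≤ C0) {R r : ℕ} {B : ℝ}
    (h : RecAt b α C0 R) (hr : 1 ≤ r) (hrR : r ≤ R) (hB : (R : ℝ) ≤ B * r) :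
    RecAt b α (B ^ α * C0) r := by
  have hr0 : (0 : ℝ) < r := by exact_mod_cast hr
  have hR0 : (0 : ℝ) ≤ R := Nat.cast_nonneg _
  have hB0 : 0 ≤ B := by
    by_contra hc
    have : B * r ≤ 0 := mul_nonpos_of_nonpos_of_nonneg (not_le.1 hc).le hr0.le
    have h1 : (1 : ℝ) ≤ R := by exact_mod_cast hr.trans hrR
    linarith
  have hg := ga_anti hb hrR
  refine ⟨lt_of_lt_of_le h.1 hg, fun s hs hsr => ?_⟩
  have hs0 : (0 : ℝ) < s := by exact_mod_cast hs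
  have h1 := h.2 s hs (hsr.trans hrR)
  have h2 : ((R : ℝ) / s) ^ α ≤ B ^ α * ((r : ℝ) / s) ^ α := by
    rw [← Real.mul_rpow hB0 (by positivity)]
    refine Real.rpow_le_rpow (by positivity) ?_ hα0
    rw [mul_div_assoc']
    exact div_le_div_of_nonneg_right hB hs0.le
  calc ua b s ≤ C0 * ((R : ℝ) / s) ^ α * ga b R := h1
    _ ≤ C0 * (B ^ α * ((r : ℝ) / s) ^ α) * ga b r :=
        mul_le_mul (mul_le_mul_of_nonneg_left h2 hC0) hg h.1.le (by positivity)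
    _ = _ := by ring

lemma RecAt.mono {C1 : ℝ} {R : ℕ} (h : RecAt b α C0 R) (hC : C0 ≤ C1) : RecAt b α C1 R :=
  ⟨h.1, fun s hs hsR => (h.2 s hs hsR).trans (mul_le_mul_of_nonneg_right
    (mul_le_mul_of_nonneg_right hC (by positivity)) h.1.le)⟩

/-- **propagation**: price bound at `R0` and slopes of the torus chain `≥ -β` (up to the constant `D`)
⇒ price bound at all `R0 ≤ R ≤ R1`, and torus and plane are comparable there -/
theorem rec_prop (hb : 0 < b) (hα0 : 0 ≤ α) (hα1 : α ≤ 1) (hβ0 : 0 ≤ β) (hβ : β ≤ α)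
    (hC0 : 1 ≤ C0) (hD : 0 ≤ D) :
    ∃ A0 C1 : ℝ, 8 ≤ A0 ∧ 1 ≤ C1 ∧ ∀ (N : ℕ → ℕ) (R0 R1 : ℕ), 4 ≤ R0 →
      (∀ R, R0 ≤ R → R ≤ R1 → A0 * R ≤ N R) → RecAt b α C0 R0 →
      (∀ r R, R0 ≤ r → r ≤ R → R ≤ R1 →
        Real.log (cT0 (N r - 2) b r) - Real.log (cT0 (N R - 2) b R) ≤
          β * (Real.log R - Real.log r) + D) →
      ∀ R, R0 ≤ R → R ≤ R1 → RecAt b α C1 R ∧
        |ga b R - cT0 (N R - 2) b R| ≤ cT0 (N R - 2) b R / 2 ∧
        ∀ s : ℕ, 1 ≤ s → s ≤ R → ua b s ≤ C1 * ((R : ℝ) / s) ^ α * cT0 (N R - 2) b R := by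
  obtain ⟨K, hK, hax⟩ := mm_axis hb.le
  set B : ℝ := |CC K C0 D (ga b 4)| with hB
  have hB0 : 0 ≤ B := abs_nonneg _
  set c : ℝ := 1 / (16 * b + 1) with hc
  have hc0 : 0 < c := by positivity
  -- the ratio
  have hex : ∃ A0 : ℝ, 8 ≤ A0 ∧
      (28 * C0 + 63 * Real.exp D * B + 1) * (16 * A0 ^ (-c)) ≤ 1 := by
    have ht : Tendsto (fun x : ℝ => (28 * C0 + 63 * Real.exp D * B + 1) * (16 * x ^ (-c)))
        atTop (𝓝 ((28 * C0 + 63 * Real.exp D * B + 1) * (16 * 0))) :=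
      ((tendsto_rpow_neg_atTop hc0).const_mul 16).const_mul _
    rw [mul_zero, mul_zero] at ht
    obtain ⟨x, hx1, hx2⟩ := ((ht.eventually_le_const (by norm_num : (0 : ℝ) < 1)).and
      (eventually_ge_atTop 8)).exists
    exact ⟨x, hx2, hx1⟩
  obtain ⟨A0, hA0, hA1⟩ := hex
  have hA00 : 0 ≤ 16 * A0 ^ (-c) := by positivity
  have he0 : 0 < Real.exp D := Real.exp_pos D
  refine ⟨A0, 2 * B + 1, hA0, by linarith, fun N R0 R1 hR0 hN hst hsl => ?_⟩
  have hg4 : 0 < ga b 4 := lt_of_lt_of_le hst.1 (ga_anti hb.le hR0)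
  have hNn : ∀ r, R0 ≤ r → r ≤ R1 → r < N r - 2 + 2 := by
    intro r h1 h2
    have h3 := hN r h1 h2
    have h4 : (4 : ℝ) ≤ r := by exact_mod_cast (hR0.trans h1)
    have h5 : (r : ℝ) < N r := by nlinarith
    have h6 : r < N r := by exact_mod_cast h5
    omega
  have hcp : ∀ r, R0 ≤ r → r ≤ R1 → 0 < cT0 (N r - 2) b r := fun r h1 h2 =>
    cT0_pos hb (hNn r h1 h2)
  have main := prop_scal (K := K) (C0 := C0) (D := D) (α := α) (β := β) (u := ua b) (g := ga b)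
    (c := fun r => cT0 (N r - 2) b r) (R0 := R0) (R1 := R1) hK hα0 hα1 hβ0 hβ hC0 hD
    (δ := 16 * A0 ^ (-c)) hA00 ?_ ?_ (ua_anti hb.le) (ua_le_one hb.le) (ga_nonneg hb.le)
    (ga_le_one b) hg4 (fun R hR => hax R hR) (ga_le_ua hb.le)
    (fun r h1 h2 => ga_sub_cT0 hb.le (hR0.trans h1) hA0 (hN r h1 h2)) hR0 hst.2 hcp ?_
  · intro R hR hR1
    obtain ⟨m1, m2⟩ := main R hR hR1
    have hcR := hcp R hR hR1
    have hgl : ga b R ≤ 3 / 2 * cT0 (N R - 2) b R := by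
      have := (abs_le.1 m1).2
      linarith
    have hgp : 0 < ga b R := by
      have := (abs_le.1 m1).1
      linarith
    have hCB : CC K C0 D (ga b 4) ≤ B := le_abs_self _
    refine ⟨⟨hgp, fun s hs hsR => (m2 s hs hsR).trans ?_⟩, m1, fun s hs hsR =>
      (m2 s hs hsR).trans ?_⟩
    · refine mul_le_mul_of_nonneg_right (mul_le_mul_of_nonneg_right ?_ (by positivity)) hgp.le
      linarith
    · have hs0 : 0 ≤ ((R : ℝ) / s) ^ α := by positivity
      calc CC K C0 D (ga b 4) * ((R : ℝ) / s) ^ α * ga b R ≤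
            B * ((R : ℝ) / s) ^ α * (3 / 2 * cT0 (N R - 2) b R) :=
            mul_le_mul (mul_le_mul_of_nonneg_right hCB hs0) hgl hgp.le (by positivity)
        _ = (3 / 2 * B) * ((R : ℝ) / s) ^ α * cT0 (N R - 2) b R := by ring
        _ ≤ _ := mul_le_mul_of_nonneg_right (mul_le_mul_of_nonneg_right (by linarith) hs0) hcR.le
  · refine le_trans ?_ hA1
    refine mul_le_mul_of_nonneg_right ?_ hA00
    have : 0 ≤ 63 * Real.exp D * B := by positivity
    linarith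
  · refine le_trans ?_ hA1
    refine mul_le_mul_of_nonneg_right ?_ hA00
    have h1 : 63 * Real.exp D * CC K C0 D (ga b 4) ≤ 63 * Real.exp D * B :=
      mul_le_mul_of_nonneg_left (le_abs_self _) (by positivity)
    linarith
  · intro r R h1 h2 h3
    have p1 := hcp r h1 (h2.trans h3)
    have p2 := hcp R (h1.trans h2) h3
    have r0 : (0 : ℝ) < r := by
      have : 0 < r := by omega
      exact_mod_cast this
    have R0' : (0 : ℝ) < R := by
      have : 0 < R := by omega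
      exact_mod_cast this
    have h4 := hsl r R h1 h2 h3
    have h5 : Real.log (cT0 (N r - 2) b r) ≤
        Real.log (Real.exp D * ((R : ℝ) / r) ^ β * cT0 (N R - 2) b R) := by
      rw [Real.log_mul (by positivity) p2.ne', Real.log_mul (by positivity) (by positivity),
        Real.log_exp, Real.log_rpow (by positivity), Real.log_div R0'.ne' r0.ne']
      linarith
    exact (Real.log_le_log_iff p1 (by positivity)).1 h5

/-- **record scales**: a soft lower bound of the exponent gives the price bound at infinitely many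
scales of any sequence with bounded ratios -/
theorem rec_start (hb : 0 ≤ b) (hβ0 : 0 ≤ β) (hβ : β < α) (hα1 : α ≤ 1) {c : ℝ} (hc : 0 < c)
    (h : ∀ᶠ r : ℕ in atTop, c * (r : ℝ) ^ (-β) ≤ ga b r) :
    ∃ C0 : ℝ, 1 ≤ C0 ∧ ∀ (B : ℝ) (φ : ℕ → ℕ), 1 ≤ B → (∀ n, 1 ≤ φ n) → Tendsto φ atTop atTop →
      (∀ n, ((φ (n + 1) : ℕ) : ℝ) ≤ B * φ n) → ∀ n0, ∃ n, n0 ≤ n ∧ RecAt b α (B * C0) (φ n) := by
  obtain ⟨K, hK, hax⟩ := mm_axis hb
  have hα0 : 0 < α := lt_of_le_of_lt hβ0 hβ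
  obtain ⟨C, hC, hr⟩ := Vale.Agent.P159.H529.St.record (u := ua b) (g := ga b) hK hβ0 hβ hα1
    (hβ.le.trans hα1) hc (ua_anti hb) (ua_le_one hb) (ga_anti hb) (ga_le_one b) (ga_nonneg hb)
    (fun R hR => hax R hR) (ga_le_ua hb) h
  refine ⟨C, hC, fun B φ hB hφ1 hφ hφB n0 => ?_⟩
  obtain ⟨r, hr1, hr2, hr3⟩ := hr ((Finset.range (n0 + 1)).sup φ + 1)
  have hrec : RecAt b α C r := ⟨hr2, hr3⟩
  -- the last `n` with `φ n ≤ r` before the first crossing after `n0`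
  classical
  have hex : ∃ n, n0 < n ∧ r < φ n := by
    obtain ⟨n, h1, h2⟩ := ((hφ.eventually_gt_atTop r).and (eventually_gt_atTop n0)).exists
    exact ⟨n, h2, h1⟩
  set n := Nat.find hex with hn
  obtain ⟨h1, h2⟩ := Nat.find_spec hex
  have h3 : φ (n - 1) ≤ r := by
    by_cases h4 : n0 < n - 1
    · have h5 := Nat.find_min hex (m := n - 1) (by omega)
      by_contra h6
      exact h5 ⟨h4, not_le.1 h6⟩
    · have h5 : n - 1 ≤ n0 := not_lt.1 h4
      have h6 : φ (n - 1) ≤ (Finset.range (n0 + 1)).sup φ :=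
        Finset.le_sup (f := φ) (Finset.mem_range.2 (by omega))
      omega
  have h4 : (r : ℝ) ≤ B * φ (n - 1) := by
    have h5 := hφB (n - 1)
    have h6 : n - 1 + 1 = n := by omega
    rw [h6] at h5
    have h7 : (r : ℝ) ≤ φ n := by exact_mod_cast h2.le
    exact h7.trans h5
  refine ⟨n - 1, by omega, ?_⟩
  refine (hrec.down hb hα0.le (by linarith) (hφ1 _) h3 h4).mono ?_
  refine mul_le_mul_of_nonneg_right ?_ (by linarith)
  calc B ^ α ≤ B ^ (1 : ℝ) := Real.rpow_le_rpow_of_exponent_le hB hα1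
    _ = B := Real.rpow_one B

end Vale.Agent.P159.H253.Rec
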