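import Vale.Agent.P159.H253.Rec2
import Vale.Agent.P159.T1.F.SharpFin

/-!
P159 (helper253), record scales, part 4: at the critical point the price bound with every exponent
`α > 1/4` holds at infinitely many scales.
-/

open MeasureTheory Filter Topology Finset
open scoped BigOperators

set_option linter.all false

namespace Vale.Agent.P159.H253.Rec

open Vale.Agent.P159

/-- **START, unconditional**: at the critical point, for every `α > 1/4` the price bound
`m(s) ^ 2 ≤ B C0 (R / s) ^ α C(R)` (`1 ≤ s ≤ R`) holds at infinitely many terms of every sequence of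
scales with ratios at most `B` -/
theorem rec_crit (hb : 0 ≤ bCrit) {α : ℝ} (hα : 1 / 4 < α) (hα1 : α ≤ 1) :
    ∃ C0 : ℝ, 1 ≤ C0 ∧ ∀ (B : ℝ) (φ : ℕ → ℕ), 1 ≤ B → (∀ n, 1 ≤ φ n) → Tendsto φ atTop atTop →
      (∀ n, ((φ (n + 1) : ℕ) : ℝ) ≤ B * φ n) →
      ∀ n0, ∃ n, n0 ≤ n ∧ RecAt bCrit α (B * C0) (φ n) := by
  obtain ⟨c, hc, h⟩ := T1.F.sharpFin.2.2.1 ((α - 1 / 4) / 2) (by linarith)
  refine rec_start (b := bCrit) (β := 1 / 4 + (α - 1 / 4) / 2) hb (by linarith) (by linarith) hα1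
    hc ?_
  filter_upwards [eventually_ge_atTop 1] with r hr
  have hr0 : ((r : ℤ), (0 : ℤ)) ≠ 0 := by
    intro h0
    have h1 := congrArg Prod.fst h0
    have h2 : (r : ℤ) = 0 := h1
    omega
  have h1 := h ((r : ℤ), 0) hr0
  rw [XY.corrInf_eq hb] at h1
  have h2 : max |((r : ℤ))| |(0 : ℤ)| = (r : ℤ) := by
    rw [abs_zero, abs_of_nonneg (Int.natCast_nonneg r)]
    exact max_eq_left (Int.natCast_nonneg r)
  have h3 : ((max |(((r : ℤ), (0 : ℤ))).1| |(((r : ℤ), (0 : ℤ))).2| : ℤ) : ℝ) = (r : ℝ) := by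
    show ((max |((r : ℤ))| |(0 : ℤ)| : ℤ) : ℝ) = r
    rw [h2]
    norm_cast
  rw [h3] at h1
  exact h1

end Vale.Agent.P159.H253.Rec
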