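import Vale.Agent.P159.H253.Tests

/-!
# Separation of the vortices by common tests
-/

set_option linter.all false

open MeasureTheory
open scoped BigOperators

namespace Vale.Agent.P159.UJ.H253

open H282

theorem n1_tri (x v : ℤ) : n1 (x + v) ≤ n1 x + |v| ∧ |v| ≤ n1 (x + v) + n1 x + 1 := by
  unfold n1
  rcases abs_cases v with ⟨h1, h2⟩ | ⟨h1, h2⟩ <;> rw [h1] <;> split_ifs <;> omega

/-- triangle inequalities -/
theorem nn_tri (z v : ℤ × ℤ) : nn (z + v) ≤ nn z + (|v.1| + |v.2|) ∧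
    |v.1| + |v.2| ≤ nn (z + v) + nn z := by
  rw [nn_n1, nn_n1]
  obtain ⟨a1, a2⟩ := n1_tri z.1 v.1
  obtain ⟨b1, b2⟩ := n1_tri z.2 v.2
  rw [Prod.fst_add, Prod.snd_add]
  constructor <;> linarith

/-- the nearest grid point -/
theorem near_grid {X h : ℤ} (hh : 1 ≤ h) : ∃ u : ℤ, n1 (X - 2 * h * u) ≤ h - 1 := by
  refine ⟨(X + h) / (2 * h), ?_⟩
  have h3 := Int.emod_add_mul_ediv (X + h) (2 * h)
  have h4 := Int.emod_nonneg (X + h) (show 2 * h ≠ 0 by omega)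
  have h5 := Int.emod_lt_of_pos (X + h) (show 0 < 2 * h by omega)
  have h6 : X - 2 * h * ((X + h) / (2 * h)) = (X + h) % (2 * h) - h := by linarith
  rw [h6]
  unfold n1
  split_ifs <;> omega

/-- the scale of a distance -/
theorem exists_scale {d n : ℕ} (h1 : 64 ≤ d) (h2 : d < 2 ^ (n - 5)) (hn : 10 ≤ n) :
    ∃ κ : ℕ, 4 ≤ κ ∧ κ ≤ n - 6 ∧ 5 * 2 ^ κ ≤ 2 * d ∧ 2 * d < 10 * 2 ^ κ := by
  have hd : 2 * d / 5 ≠ 0 := by omega
  obtain ⟨κ, hκ⟩ : ∃ κ, κ = Nat.log 2 (2 * d / 5) := ⟨_, rfl⟩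
  have h3 : 2 ^ κ ≤ 2 * d / 5 := by rw [hκ]; exact Nat.pow_log_le_self 2 hd
  have h4 : 2 * d / 5 < 2 ^ (κ + 1) := by
    rw [hκ]; exact Nat.lt_pow_succ_log_self (by norm_num) _
  rw [pow_succ] at h4
  have h5 : 4 ≤ κ := by
    by_contra hc
    have h6 : 2 ^ (κ + 1) ≤ 2 ^ 4 := Nat.pow_le_pow_right (by norm_num) (by omega)
    rw [pow_succ] at h6
    omega
  have h6 : κ ≤ n - 6 := by
    by_contra hc
    have h7 : 2 ^ (n - 5) ≤ 2 ^ κ := Nat.pow_le_pow_right (by norm_num) (by omega)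
    omega
  exact ⟨κ, h5, h6, by omega, by omega⟩

theorem gg_even (s : ℕ) {κ : ℕ} (hκ : 4 ≤ κ) : ∃ h : ℤ, gg s κ = 2 * h := by
  unfold gg
  refine ⟨((s * 2 ^ (κ - 3) : ℕ) : ℤ), ?_⟩
  have : 2 ^ (κ - 2) = 2 * 2 ^ (κ - 3) := by
    have h : κ - 2 = 1 + (κ - 3) := by omega
    rw [h, pow_add]
    norm_num
  rw [this]
  push_cast
  ring

/-- the positions of the vortices -/
def Posn (n : ℕ) : Finset (ℕ × ℕ) :=
  (Finset.range (2 ^ (n - 12)) ×ˢ Finset.range (2 ^ (n - 12))).image fun k => (64 * k.1, 64 * k.2)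

theorem mem_Posn {n : ℕ} (hn : 12 ≤ n) {w : ℕ × ℕ} (hw : w ∈ Posn n) :
    (w.1 < 2 ^ (n - 6) ∧ w.2 < 2 ^ (n - 6)) ∧ 64 ∣ w.1 ∧ 64 ∣ w.2 := by
  unfold Posn at hw
  rw [Finset.mem_image] at hw
  obtain ⟨k, hk, rfl⟩ := hw
  rw [Finset.mem_product, Finset.mem_range, Finset.mem_range] at hk
  have h : 2 ^ (n - 6) = 64 * 2 ^ (n - 12) := by
    have h : n - 6 = 6 + (n - 12) := by omega
    rw [h, pow_add]
    norm_num
  rw [h]
  exact ⟨⟨by omega, by omega⟩, Dvd.intro _ rfl, Dvd.intro _ rfl⟩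

theorem Posn_card {n : ℕ} (hn : 12 ≤ n) : ((Posn n).card : ℝ) / 4 ^ n = 1 / 4 ^ 12 := by
  have h1 : (Posn n).card = (2 ^ (n - 12)) ^ 2 := by
    unfold Posn
    rw [Finset.card_image_of_injective, Finset.card_product, Finset.card_range, pow_two]
    intro k k' h
    simp only [Prod.mk.injEq] at h
    exact Prod.ext (by omega) (by omega)
  rw [h1]
  have h2 : (4 : ℝ) ^ n = 4 ^ 12 * 4 ^ (n - 12) := by
    rw [← pow_add]; congr 1; omega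
  have h3 : (((2 ^ (n - 12)) ^ 2 : ℕ) : ℝ) = 4 ^ (n - 12) := by
    push_cast
    rw [← pow_mul, mul_comm, pow_mul]
    norm_num
  rw [h2, h3]
  field_simp

/-- the target of a test -/
noncomputable def ctg (b : ℝ) (l0 s : ℕ) (w : ℕ × ℕ) (q : (_ : ℕ) × (ℤ × ℤ)) : ℝ :=
  if nn (dd s q.1 w q.2) ≤ gg s q.1 then 2 * Real.pi * stiff (tt l0 q.1) b else 0

theorem XX_sub (s i i' : ℕ) : XX s i' - XX s i = (s : ℤ) * ((i' : ℤ) - i) := by
  unfold XX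
  push_cast
  ring

/-- **separation** -/
theorem sep_tests {b : ℝ} {l0 s n : ℕ} (hs : 1 ≤ s) (hn : 12 ≤ n)
    (hst : ∀ κ, 2 / Real.pi ≤ stiff (tt l0 κ) b) {w w' : ℕ × ℕ}
    (hw : w ∈ Posn n) (hw' : w' ∈ Posn n) (hne : w ≠ w') :
    ∃ q, q ∈ Qs s n w ∧ q ∈ Qs s n w' ∧ 4 ≤ |ctg b l0 s w q - ctg b l0 s w' q| := by
  obtain ⟨⟨a1, a2⟩, a3, a4⟩ := mem_Posn hn hw
  obtain ⟨⟨b1, b2⟩, b3, b4⟩ := mem_Posn hn hw'
  obtain ⟨d, hd⟩ : ∃ d : ℕ, d = ((w'.1 : ℤ) - w.1).natAbs + ((w'.2 : ℤ) - w.2).natAbs := ⟨_, rfl⟩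
  have hd64 : 64 ≤ d := by
    have h1 : w.1 ≠ w'.1 ∨ w.2 ≠ w'.2 := by
      by_contra hc
      push Not at hc
      exact hne (Prod.ext hc.1 hc.2)
    obtain ⟨x1, hx1⟩ := a3
    obtain ⟨x2, hx2⟩ := a4
    obtain ⟨y1, hy1⟩ := b3
    obtain ⟨y2, hy2⟩ := b4
    rcases h1 with h1 | h1 <;> omega
  have hpow : 2 ^ (n - 5) = 2 * 2 ^ (n - 6) := by
    have h : n - 5 = 1 + (n - 6) := by omega
    rw [h, pow_add]
    norm_num
  have hdn : d < 2 ^ (n - 5) := by omega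
  obtain ⟨κ, k1, k2, k3, k4⟩ := exists_scale hd64 hdn (by omega)
  obtain ⟨h, hgh⟩ := gg_even s k1
  have hg1 := gg_pos (κ := κ) hs
  have hh : 1 ≤ h := by omega
  obtain ⟨u1, hu1⟩ := near_grid (X := XX s w.1) hh
  obtain ⟨u2, hu2⟩ := near_grid (X := XX s w.2) hh
  rw [← hgh] at hu1 hu2
  have hin : nn (dd s κ w (u1, u2)) ≤ gg s κ - 1 := by
    rw [nn_n1]
    unfold dd
    simp only
    omega
  -- the other vortex
  obtain ⟨v, hv⟩ : ∃ v : ℤ × ℤ, v = ((s : ℤ) * ((w'.1 : ℤ) - w.1), (s : ℤ) * ((w'.2 : ℤ) - w.2)) :=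
    ⟨_, rfl⟩
  have hdd : dd s κ w' (u1, u2) = dd s κ w (u1, u2) + v := by
    rw [hv]
    unfold dd
    apply Prod.ext
    · have := XX_sub s w.1 w'.1
      simp only [Prod.fst_add]
      linarith
    · have := XX_sub s w.2 w'.2
      simp only [Prod.snd_add]
      linarith
  have hvn : |v.1| + |v.2| = (s : ℤ) * d := by
    rw [hv, hd]
    simp only
    rw [abs_mul, abs_mul, Int.abs_natCast]
    push_cast
    ring
  obtain ⟨t1, t2⟩ := nn_tri (dd s κ w (u1, u2)) v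
  rw [← hdd, hvn] at t1 t2
  have hρ := rho_gg s k1
  have m1 : (s : ℤ) * (5 * 2 ^ κ) ≤ s * (2 * d) := by
    refine mul_le_mul_of_nonneg_left ?_ (by omega)
    exact_mod_cast k3
  have m2 : (s : ℤ) * (2 * d) ≤ s * (10 * 2 ^ κ) := by
    refine mul_le_mul_of_nonneg_left ?_ (by omega)
    exact_mod_cast k4.le
  push_cast at hρ
  have m3 : 10 * gg s κ ≤ (s : ℤ) * d := by linarith
  have m4 : (s : ℤ) * d ≤ 20 * gg s κ := by linarith
  have hnn0 := nn_pos (dd s κ w (u1, u2))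
  have ho1 : 9 * gg s κ ≤ nn (dd s κ w' (u1, u2)) := by linarith
  have ho2 : nn (dd s κ w' (u1, u2)) ≤ 32 * gg s κ := by linarith
  refine ⟨⟨κ, (u1, u2)⟩, Qs_mem hs ⟨k1, k2⟩ (Or.inl (by
    show nn (dd s κ w (u1, u2)) ≤ gg s κ
    omega)), Qs_mem hs ⟨k1, k2⟩ (Or.inr ⟨ho1, ho2⟩), ?_⟩
  have c1 : ctg b l0 s w ⟨κ, (u1, u2)⟩ = 2 * Real.pi * stiff (tt l0 κ) b := by
    unfold ctg
    rw [if_pos]
    show nn (dd s κ w (u1, u2)) ≤ gg s κ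
    omega
  have c2 : ctg b l0 s w' ⟨κ, (u1, u2)⟩ = 0 := by
    unfold ctg
    rw [if_neg]
    show ¬ nn (dd s κ w' (u1, u2)) ≤ gg s κ
    omega
  rw [c1, c2, sub_zero]
  refine le_trans ?_ (le_abs_self _)
  have h1 := mul_le_mul_of_nonneg_left (hst κ) (show 0 ≤ 2 * Real.pi by positivity)
  have h2 : 2 * Real.pi * (2 / Real.pi) = 4 := by field_simp; norm_num
  linarith

end Vale.Agent.P159.UJ.H253
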