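import Vale.Agent.P159.H770.DisN

/-!
P159 (helper253), smeared Ginibre, part 1: the full Gram structure of the neutral partition functions
on the group (dislocations) × (real backgrounds), and the Cauchy-Schwarz inequality of averages.
-/

open scoped ENNReal Matrix
open Finset

set_option linter.all false

namespace Vale.Agent.P159.H253.Sm

open Vale.Agent.P159.TM.H821 (Dup)
open Vale.Agent.P159.TM.H104 (EM T Ex Cv K3 Lg li nh Gr)
open Vale.Agent.P159.H37
open Vale.Agent.P159.H789 (disc kk PSDK reHom)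
open Vale.Agent.P159.H963 (GrI pin Neu ntr nM MF GW)
open Vale.Agent.P159.H770

noncomputable section

/-! ### Cauchy-Schwarz over finite sets -/

section cs

variable {X I J : Type*} {K : X → X → ℝ}

lemma PSDF.fin (h : PSDF K) (s : Finset I) (p : I → X) (x : I → ℝ) :
    0 ≤ ∑ i ∈ s, ∑ j ∈ s, x i * x j * K (p i) (p j) := by
  classical
  have h1 := h s.card (fun i => p (s.equivFin.symm i)) fun i => x (s.equivFin.symm i)
  refine le_of_le_of_eq h1 ?_
  have e : ∀ f : I → ℝ, ∑ i ∈ s, f i = ∑ i : Fin s.card, f (s.equivFin.symm i) := by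
    intro f
    rw [← Finset.sum_coe_sort s f]
    exact (Equiv.sum_comp s.equivFin.symm fun i : s => f i).symm
  rw [e]
  refine Finset.sum_congr rfl fun i _ => ?_
  rw [e]

/-- **Cauchy-Schwarz**, two finite combinations -/
theorem cs_fin (h : PSDF K) (hs : ∀ a c, K a c = K c a) (s : Finset I) (p : I → X) (x : I → ℝ)
    (t : Finset J) (q : J → X) (y : J → ℝ) :
    (∑ i ∈ s, ∑ j ∈ t, x i * y j * K (p i) (q j)) ^ 2 ≤
      (∑ i ∈ s, ∑ j ∈ s, x i * x j * K (p i) (p j)) *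
        ∑ i ∈ t, ∑ j ∈ t, y i * y j * K (q i) (q j) := by
  classical
  refine disc fun u v => ?_
  have h1 := PSDF.fin h (s.disjSum t) (Sum.elim p q)
    (Sum.elim (fun i => u * x i) fun j => v * y j)
  simp only [Finset.sum_disjSum, Sum.elim_inl, Sum.elim_inr] at h1
  have h2 : ∑ j ∈ t, ∑ i ∈ s, v * y j * (u * x i) * K (q j) (p i) =
      ∑ i ∈ s, ∑ j ∈ t, u * x i * (v * y j) * K (p i) (q j) := by
    rw [Finset.sum_comm]
    refine Finset.sum_congr rfl fun i _ => Finset.sum_congr rfl fun j _ => ?_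
    rw [hs (q j) (p i)]
    ring
  rw [Finset.sum_add_distrib, Finset.sum_add_distrib, h2] at h1
  have e1 : ∑ i ∈ s, ∑ j ∈ s, u * x i * (u * x j) * K (p i) (p j) =
      u ^ 2 * ∑ i ∈ s, ∑ j ∈ s, x i * x j * K (p i) (p j) := by
    rw [Finset.mul_sum]
    refine Finset.sum_congr rfl fun i _ => ?_
    rw [Finset.mul_sum]
    exact Finset.sum_congr rfl fun j _ => by ring
  have e2 : ∑ i ∈ t, ∑ j ∈ t, v * y i * (v * y j) * K (q i) (q j) =
      v ^ 2 * ∑ i ∈ t, ∑ j ∈ t, y i * y j * K (q i) (q j) := by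
    rw [Finset.mul_sum]
    refine Finset.sum_congr rfl fun i _ => ?_
    rw [Finset.mul_sum]
    exact Finset.sum_congr rfl fun j _ => by ring
  have e3 : ∑ i ∈ s, ∑ j ∈ t, u * x i * (v * y j) * K (p i) (q j) =
      u * v * ∑ i ∈ s, ∑ j ∈ t, x i * y j * K (p i) (q j) := by
    rw [Finset.mul_sum]
    refine Finset.sum_congr rfl fun i _ => ?_
    rw [Finset.mul_sum]
    exact Finset.sum_congr rfl fun j _ => by ring
  rw [e1, e2, e3] at h1
  linarith

end cs

/-! ### the neutral partition functions -/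

section gwf

variable {B V : Type} [AddCommGroup B] [Fintype V] {w : B → (V → ℤ) → ℝ}
variable {M : Matrix V V ℝ} {m : ℝ}

/-- the neutral partition function on the group -/
def ZQ (w : B → (V → ℤ) → ℝ) (M : Matrix V V ℝ) (q : B × (V → ℝ)) : ℝ := Zn (w q.1) M q.2

variable [DecidableEq V] [Nonempty V]

theorem ZQ_pos (hw : GWF w) (hM : MF M m) (q : B × (V → ℝ)) : 0 < ZQ w M q := hw.Zn_pos hM _ _

theorem ZQ_neg (hw : GWF w) (hM : MF M m) (q : B × (V → ℝ)) : ZQ w M (-q) = ZQ w M q := by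
  have x₀ : V := Classical.arbitrary V
  unfold ZQ
  rw [hw.Zn_eq hM x₀, hw.Zn_eq hM x₀]
  have h := (hw.disF_nM hM x₀).neg q.1 (ntr M m *ᵥ q.2)
  rw [Prod.fst_neg, Prod.snd_neg, Matrix.mulVec_neg, h, qf_neg]

/-- **the full Gram structure** of the neutral partition functions, any base -/
theorem ppQ (hw : GWF w) (hM : MF M m) (base : B × (V → ℝ)) :
    PP (fun q => ZQ w M (base + q)) (ZQ w M) := by
  have x₀ : V := Classical.arbitrary V
  have hN : (0 : ℝ) < Fintype.card V := Nat.cast_pos.2 Fintype.card_pos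
  have hm := hM.pos
  obtain ⟨b, F₀⟩ := base
  have h1 := ((hw.disF_nM hM x₀).ppB (b, 0)).comp
    fun q : B × (V → ℝ) => (q.1, ntr M m *ᵥ ((1 / 2 : ℝ) • F₀ + q.2))
  have h2 := (h1.rank fun q => Real.exp (-qf (ntr M m) ((1 / 2 : ℝ) • F₀ + q.2))).smul
    (r := 2 * Real.pi / (m * Fintype.card V)) (by positivity)
  have e : kp (fun q => ZQ w M ((b, F₀) + q)) (ZQ w M) = fun a c =>
      2 * Real.pi / (m * Fintype.card V) * (Real.exp (-qf (ntr M m) ((1 / 2 : ℝ) • F₀ + a.2)) *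
        Real.exp (-qf (ntr M m) ((1 / 2 : ℝ) • F₀ + c.2)) *
        kp (fun q => ZB (fun b => nM (w b) M m x₀) ((b, (0 : V → ℝ)) + q))
          (ZB (fun b => nM (w b) M m x₀))
          (a.1, ntr M m *ᵥ ((1 / 2 : ℝ) • F₀ + a.2))
          (c.1, ntr M m *ᵥ ((1 / 2 : ℝ) • F₀ + c.2))) := by
    funext a c
    have h3 := hw.Zn_mul hM x₀ (b + (a.1 + c.1)) (a.1 - c.1) ((1 / 2 : ℝ) • F₀ + a.2)
      ((1 / 2 : ℝ) • F₀ + c.2)
    have e1 : (1 / 2 : ℝ) • F₀ + a.2 + ((1 / 2 : ℝ) • F₀ + c.2) = F₀ + (a.2 + c.2) := by module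
    have e2 : (1 / 2 : ℝ) • F₀ + a.2 - ((1 / 2 : ℝ) • F₀ + c.2) = a.2 - c.2 := by module
    rw [e1, e2] at h3
    simp only [kp, ZQ, ZB, Prod.fst_add, Prod.snd_add, Prod.fst_sub, Prod.snd_sub, zero_add]
    exact h3
  show PSDF (kp (fun q => ZQ w M ((b, F₀) + q)) (ZQ w M))
  rw [e]
  exact h2

/-- the kernel at base `0` -/
theorem ppQ0 (hw : GWF w) (hM : MF M m) : PP (ZQ w M) (ZQ w M) := by
  have h := ppQ hw hM 0
  simpa only [zero_add] using h

/-- **smeared Ginibre**, two averages -/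
theorem sm2 (hw : GWF w) (hM : MF M m) {I J : Type*} (s : Finset I) (x : I → ℝ)
    (a : I → B × (V → ℝ)) (t : Finset J) (y : J → ℝ) (c : J → B × (V → ℝ)) :
    (∑ i ∈ s, ∑ j ∈ t, x i * y j * (ZQ w M (a i + c j) * ZQ w M (a i - c j))) ^ 2 ≤
      (∑ i ∈ s, ∑ j ∈ s, x i * x j * (ZQ w M (a i + a j) * ZQ w M (a i - a j))) *
        ∑ i ∈ t, ∑ j ∈ t, y i * y j * (ZQ w M (c i + c j) * ZQ w M (c i - c j)) :=
  cs_fin (ppQ0 hw hM) (kp_symm (ZQ_neg hw hM)) s a x t c y

/-- **smeared Ginibre** -/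
theorem sm (hw : GWF w) (hM : MF M m) {I : Type*} (s : Finset I) (x : I → ℝ)
    (a : I → B × (V → ℝ)) (c : B × (V → ℝ)) :
    (∑ i ∈ s, x i * (ZQ w M (a i + c) * ZQ w M (a i - c))) ^ 2 ≤
      (∑ i ∈ s, ∑ j ∈ s, x i * x j * (ZQ w M (a i + a j) * ZQ w M (a i - a j))) *
        (ZQ w M (c + c) * ZQ w M 0) := by
  have h := sm2 hw hM s x a (Finset.univ : Finset Unit) (fun _ => 1) fun _ => c
  simpa using h

/-- **smeared Ginibre with a base** (the first factor is shifted by `base`) -/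
theorem smB (hw : GWF w) (hM : MF M m) (base : B × (V → ℝ)) {I J : Type*} (s : Finset I)
    (x : I → ℝ) (a : I → B × (V → ℝ)) (t : Finset J) (y : J → ℝ) (c : J → B × (V → ℝ)) :
    (∑ i ∈ s, ∑ j ∈ t, x i * y j * (ZQ w M (base + (a i + c j)) * ZQ w M (a i - c j))) ^ 2 ≤
      (∑ i ∈ s, ∑ j ∈ s, x i * x j * (ZQ w M (base + (a i + a j)) * ZQ w M (a i - a j))) *
        ∑ i ∈ t, ∑ j ∈ t, y i * y j * (ZQ w M (base + (c i + c j)) * ZQ w M (c i - c j)) :=
  cs_fin (ppQ hw hM base) (kp_symm (ZQ_neg hw hM)) s a x t c y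

end gwf

end

end Vale.Agent.P159.H253.Sm
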