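import Vale.Agent.P159.H253.Sm9
import Vale.Agent.P159.H764.Evq2
import Vale.Agent.P159.H446.Pr1

/-!
P159 (helper253), smeared Ginibre, part 10: the price of the smeared cuts of a far pair on the torus
(764's un-averaging, 446's Markov step, the average of part 9).
-/

open MeasureTheory Filter Topology Finset
open scoped BigOperators

set_option linter.all false

namespace Vale.Agent.P159.H253.Sm

open Vale.Agent.P159 Vale.Agent.P159.TM.H331 Vale.Agent.P159.H773 Vale.Agent.P159.H253.Rec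
open Vale.Agent.P159.H770 (wTD Ed wTD_eq wTD_zero gwf_wTD)
open Vale.Agent.P159.H883 (CT Zp CT_pos trS trE CI nuM em_pin_wTD mf_scalar)
open Vale.Agent.P159.H963 (An)
open Vale.Agent.P159.TM.Spec (V)
open Vale.Agent.P159.TM.SpecC (wT)
open Vale.Agent.P159.H552.Sm (SS CX Gx Rw ES cont_ES ES_pos cont_Rw prob0 CX_pos)
open Vale.Agent.P159.H764.Evq (trX smTt ev_lint_tor)

variable {b α C1 : ℝ} {N : ℕ} [NeZero N]

/-- the shifts of the box of radius `ρ` -/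
def aS (N ρ : ℕ) (v : {u : ℤ × ℤ // u ∈ box ρ}) : V N := -cz N v.1

/-- the uniform smearing of a map over the box of radius `ρ` -/
noncomputable def smU (N : ℕ) [NeZero N] (ρ : ℕ) (T0 : (V N → ℝ) → V N → ℝ) :
    (V N → ℝ) → V N → ℝ := smTt (wU ρ) (aS N ρ) T0

/-- the fields such that all translates in the box have small non-quadratic part after `T0` -/
def Sg (b t : ℝ) (N : ℕ) [NeZero N] (ρ : ℕ) (T0 : (V N → ℝ) → V N → ℝ) (s r : ℝ) :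
    Set (V N → ℝ) :=
  {F | ∀ v : {u : ℤ × ℤ // u ∈ box ρ}, Rw (wTD N b) (t • (1 : Matrix (V N) (V N) ℝ)) t 0
    ((2 * s) • T0 (trS (aS N ρ v) F)) ≤ r}

lemma SS_trX (x₀ : V N) (X : (Ed N → ℤ) × (V N → ℝ)) (ρ : ℕ) :
    SS (wTD N b) x₀ (wU ρ) (fun v => trX (aS N ρ v) X) =
      SS (wTD N b) x₀ (wU ρ) (dU N X.1 ρ fun u => trS (-cz N u) X.2) := rfl

lemma cont_trS (a : V N) : Continuous (trS a) := by
  unfold trS
  fun_prop

lemma cont_smU (ρ : ℕ) {T0 : (V N → ℝ) → V N → ℝ} (h : Continuous T0) :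
    Continuous (smU N ρ T0) := by
  unfold smU smTt
  refine continuous_finsetSum _ fun v _ => ?_
  have h1 : Continuous fun F : V N → ℝ => trS (-aS N ρ v) (T0 (trS (aS N ρ v) F)) :=
    (cont_trS _).comp (h.comp (cont_trS _))
  exact h1.const_smul (wU ρ v)

lemma meas_Sg (hb : 0 < b) {t : ℝ} (ht : 0 < t) (ρ : ℕ) {T0 : (V N → ℝ) → V N → ℝ}
    (h : Continuous T0) (s r : ℝ) : MeasurableSet (Sg b t N ρ T0 s r) := by
  have e : Sg b t N ρ T0 s r = ⋂ v : {u : ℤ × ℤ // u ∈ box ρ},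
      {F | Rw (wTD N b) (t • (1 : Matrix (V N) (V N) ℝ)) t 0
        ((2 * s) • T0 (trS (aS N ρ v) F)) ≤ r} := by
    ext F
    simp [Sg]
  rw [e]
  refine MeasurableSet.iInter fun v => ?_
  have h1 : Continuous fun F : V N → ℝ =>
      Rw (wTD N b) (t • (1 : Matrix (V N) (V N) ℝ)) t 0 ((2 * s) • T0 (trS (aS N ρ v) F)) := by
    have h2 : Continuous fun F : V N → ℝ => T0 (trS (aS N ρ v) F) := h.comp (cont_trS _)
    exact (cont_Rw (gwf_wTD hb) (fun η x₀ => em_pin_wTD hb η x₀) (mf_scalar ht)).comp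
      (h2.const_smul (2 * s))
  exact measurableSet_le h1.measurable measurable_const

/-- **un-averaging in the form of integrals** -/
theorem ev_int (hb : 0 < b) {t : ℝ} (ht : 0 < t) (ρ : ℕ) {T0 : (V N → ℝ) → V N → ℝ}
    (hT : Continuous T0) (hTc : CI T0) (X : (Ed N → ℤ) × (V N → ℝ)) (s r : ℝ) {S : ℝ}
    (hS0 : 0 ≤ S)
    (hS : SS (wTD N b) 0 (wU ρ) (dU N X.1 ρ fun u => trS (-cz N u) X.2) ≤ S)
    {A : Set (V N → ℝ)} (hA : MeasurableSet A) (hAs : A ⊆ Sg b t N ρ T0 s r) :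
    IntegrableOn (fun F => ES (wTD N b) (t • (1 : Matrix (V N) (V N) ℝ)) t 0 X s (smU N ρ T0 F)) A
        (nuM (wTD N b 0) (t • (1 : Matrix (V N) (V N) ℝ)) 0) ∧
      ∫ F in A, ES (wTD N b) (t • (1 : Matrix (V N) (V N) ℝ)) t 0 X s (smU N ρ T0 F)
        ∂(nuM (wTD N b 0) (t • (1 : Matrix (V N) (V N) ℝ)) 0) ≤ Real.sqrt S * Real.exp (r / 2) := by
  have h1 := ev_lint_tor hb ht (aS N ρ) (wU_nonneg ρ) (wU_sum ρ) hT.measurable hTc X s r hS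
  rw [← wTD_zero (N := N) (b := b)] at h1
  set μ := nuM (wTD N b 0) (t • (1 : Matrix (V N) (V N) ℝ)) 0 with hμ
  set f : (V N → ℝ) → ℝ := fun F =>
    ES (wTD N b) (t • (1 : Matrix (V N) (V N) ℝ)) t 0 X s (smU N ρ T0 F) with hf
  have hfc : Continuous f := (cont_ES (gwf_wTD hb) (fun η x₀ => em_pin_wTD hb η x₀)
    (mf_scalar ht) X s).comp (cont_smU ρ hT)
  have h2 : ∫⁻ F in A, ENNReal.ofReal (f F) ∂μ ≤
      ENNReal.ofReal (Real.sqrt S * Real.exp (r / 2)) :=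
    (lintegral_mono_set hAs).trans h1
  have hpos : ∀ F, 0 ≤ f F := fun F => (ES_pos _ _ _).le
  have h3 : IntegrableOn f A μ := by
    unfold IntegrableOn
    rw [← lintegral_ofReal_ne_top_iff_integrable hfc.aestronglyMeasurable
      (Filter.Eventually.of_forall hpos)]
    exact ne_top_of_le_ne_top ENNReal.ofReal_ne_top h2
  refine ⟨h3, ?_⟩
  rw [← ofReal_integral_eq_lintegral_ofReal h3 (Filter.Eventually.of_forall hpos)] at h2
  exact (ENNReal.ofReal_le_ofReal_iff (by positivity)).1 h2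

/-- **THE SMEARED CUT OF A FAR PAIR**: the integral of the symmetric exponential -/
theorem ev_far (hb : 0 < b) (hα : 1 / 4 ≤ α) (hα2 : α < 1 / 2) (hC1 : 0 ≤ C1) {k : ℝ}
    (hk : 0 < k) :
    ∃ C : ℝ, 0 ≤ C ∧ ∀ (N : ℕ) [NeZero N] (L ρ R : ℕ) (η : Ed N → ℤ) (p q : V N)
      (φ : V N → ℝ), RecAt b α C1 R →
      R ≤ 2 * H817.sz (q - p) → H817.sz (q - p) ≤ 4 * R → 16 * R ≤ N →
      H817.IsPath p q (H817.v1 p q) (H817.v2 p q) L η → 1 ≤ ρ → 8 * ρ ≤ R →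
      k * ga b R ≤ CT N b η → ∀ t : ℝ, 0 < t → ∀ T0 : (V N → ℝ) → V N → ℝ, Continuous T0 → CI T0 →
      ∀ (s r : ℝ) (A : Set (V N → ℝ)), MeasurableSet A → A ⊆ Sg b t N ρ T0 s r →
      IntegrableOn (fun F => ES (wTD N b) (t • (1 : Matrix (V N) (V N) ℝ)) t 0 (η, φ) s
          (smU N ρ T0 F)) A (nuM (wTD N b 0) (t • (1 : Matrix (V N) (V N) ℝ)) 0) ∧
        ∫ F in A, ES (wTD N b) (t • (1 : Matrix (V N) (V N) ℝ)) t 0 (η, φ) s (smU N ρ T0 F)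
          ∂(nuM (wTD N b 0) (t • (1 : Matrix (V N) (V N) ℝ)) 0) ≤
        Real.exp (Real.log ((R : ℝ) / ρ) + C + r / 2) * CX (wTD N b) 0 (η, φ) ^ 2 := by
  obtain ⟨C, hC, h⟩ := SS_far_exp (α := α) (C1 := C1) hb hα hα2 hC1 hk
  refine ⟨C, hC, fun N _ L ρ R η p q φ hr h1 h2 h3 h4 h5 h6 h7 t ht T0 hT hTc s r A hA hAs => ?_⟩
  have hS := h N L ρ R η p q 0 (fun u => trS (-cz N u) φ) φ hr h1 h2 h3 h4 h5 h6 h7
  have cp := CX_pos (gwf_wTD (N := N) hb) (fun η x₀ => em_pin_wTD hb η x₀) 0 (η, φ)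
  have h8 := ev_int hb ht ρ hT hTc (η, φ) s r (by positivity) hS hA hAs
  refine ⟨h8.1, h8.2.trans (le_of_eq ?_)⟩
  have e1 : Real.exp (2 * (Real.log ((R : ℝ) / ρ) + C)) * CX (wTD N b) 0 (η, φ) ^ 4 =
      (Real.exp (Real.log ((R : ℝ) / ρ) + C) * CX (wTD N b) 0 (η, φ) ^ 2) ^ 2 := by
    rw [mul_pow, ← Real.exp_nat_mul]
    push_cast
    ring
  rw [e1, Real.sqrt_sq (by positivity), mul_right_comm, ← Real.exp_add]

/-- **THE PRICE OF THE SMEARED CUTS OF A FAR PAIR** (446's Markov step) -/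
theorem price_far (hb : 0 < b) (hα : 1 / 4 ≤ α) (hα2 : α < 1 / 2) (hC1 : 0 ≤ C1) {k : ℝ}
    (hk : 0 < k) :
    ∃ C : ℝ, 0 ≤ C ∧ ∀ (N : ℕ) [NeZero N] (L ρ R : ℕ) (η : Ed N → ℤ) (p q : V N)
      (φ : V N → ℝ), RecAt b α C1 R →
      R ≤ 2 * H817.sz (q - p) → H817.sz (q - p) ≤ 4 * R → 16 * R ≤ N →
      H817.IsPath p q (H817.v1 p q) (H817.v2 p q) L η → 1 ≤ ρ → 8 * ρ ≤ R →
      k * ga b R ≤ CT N b η → ∀ t : ℝ, 0 < t →
      ∀ (n : ℕ) (T0 : ℕ → (V N → ℝ) → V N → ℝ), (∀ i < n, Continuous (T0 i)) →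
      (∀ i < n, CI (T0 i)) → ∀ (r a κ : ℝ) (h : ℕ → V N → ℝ),
      (∀ i < n, H37.qf (An (wTD N b 0) (t • (1 : Matrix (V N) (V N) ℝ)) t 0) (h i) ≤ a) →
      ∀ A : Set (V N → ℝ), MeasurableSet A → (∀ i < n, A ⊆ Sg b t N ρ (T0 i) 8 r) →
      (nuM (wTD N b 0) (t • (1 : Matrix (V N) (V N) ℝ)) 0).real
        {F | F ∈ A ∧ ∃ i < n, 2 * Real.log (CX (wTD N b) 0 (η, φ)) + 2 * κ <
          Gx (wTD N b) (t • (1 : Matrix (V N) (V N) ℝ)) t 0 (η, φ)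
              ((4 : ℝ) • (smU N ρ (T0 i) F + h i)) +
            Gx (wTD N b) (t • (1 : Matrix (V N) (V N) ℝ)) t 0 (η, φ)
              (-((4 : ℝ) • (smU N ρ (T0 i) F + h i)))} ≤
        n * Real.exp (Real.log ((R : ℝ) / ρ) + C + r / 2 + 64 * a - 4 * κ) := by
  obtain ⟨C, hC, h⟩ := ev_far (α := α) (C1 := C1) hb hα hα2 hC1 hk
  refine ⟨C, hC, fun N _ L ρ R η p q φ hr h1 h2 h3 h4 h5 h6 h7 t ht n T0 hT hTc r a κ hh ha A hA
    hAs => ?_⟩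
  refine H446.Pr.mk_all (gwf_wTD hb) (fun η x₀ => em_pin_wTD hb η x₀) (mf_scalar ht) (η, φ)
    (T := fun i => smU N ρ (T0 i)) (fun i hi => cont_smU ρ (hT i hi)) hA ha ?_ ?_
  · intro i hi
    exact (h N L ρ R η p q φ hr h1 h2 h3 h4 h5 h6 h7 t ht (T0 i) (hT i hi) (hTc i hi) 8 r A hA
      (hAs i hi)).1
  · intro i hi
    exact (h N L ρ R η p q φ hr h1 h2 h3 h4 h5 h6 h7 t ht (T0 i) (hT i hi) (hTc i hi) 8 r A hA
      (hAs i hi)).2

end Vale.Agent.P159.H253.Sm
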