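import Vale.Agent.P159.H253.Sm9
import Vale.Agent.P159.H37.Fp3

/-!
P159 (helper253), smeared Ginibre, part 11: the average for all pairs of one scale, no hypothesis on
the two point function of the torus (37's comparison).
-/

open MeasureTheory Filter Topology Finset
open scoped BigOperators

set_option linter.all false

namespace Vale.Agent.P159.H253.Sm

open Vale.Agent.P159 Vale.Agent.P159.TM.H331 Vale.Agent.P159.H773 Vale.Agent.P159.H253.Rec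
open Vale.Agent.P159.H770 (wTD Ed wTD_eq)
open Vale.Agent.P159.H883 (CT Zp CT_pos)
open Vale.Agent.P159.TM.Spec (V)
open Vale.Agent.P159.H552.Sm (SS CX)

variable {b α C1 : ℝ} {N : ℕ} [NeZero N]

/-- **THE AVERAGE FOR ALL PAIRS OF THE SCALE `R`** -/
theorem SS_all (hb : 0 < b) (hα : 1 / 4 ≤ α) (hα2 : α < 1 / 2) (hC1 : 1 ≤ C1) {B : ℝ}
    (hB : 1 ≤ B) :
    ∃ C A0 : ℝ, 0 ≤ C ∧ 8 ≤ A0 ∧ ∀ (N : ℕ) [NeZero N] (L ρ R : ℕ) (η : Ed N → ℤ) (p q x₀ : V N)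
      (d : ℤ × ℤ) (φ : ℤ × ℤ → V N → ℝ) (φ₀ : V N → ℝ), 8 * B ≤ R → RecAt b α C1 R →
      (XY.nm d : ℝ) ≤ B * R → (R : ℝ) ≤ B * XY.nm d → A0 * R ≤ N →
      H817.IsPath p q d.1 d.2 L η → 1 ≤ ρ → 4 * ρ ≤ XY.nm d → ρ ≤ R →
      SS (wTD N b) x₀ (wU ρ) (dU N η ρ φ) ≤
        Real.exp (2 * (Real.log ((R : ℝ) / ρ) + C)) * CX (wTD N b) x₀ (η, φ₀) ^ 4 := by
  obtain ⟨K, hK, h⟩ := SS_le (α := α) (C1 := C1) hb hα hα2 (by linarith)
  obtain ⟨A0, hA0, hF⟩ := H37.Fp.far_CT (b := b) (α := α) (C1 := C1) hb.le (by linarith)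
    (by linarith) hC1 hB
  set k : ℝ := (12 * C1) ^ (-(8 * B + 1)) / 2 with hk
  have hk0 : 0 < k := by
    have : (0 : ℝ) < 12 * C1 := by linarith
    positivity
  refine ⟨max 0 (Real.log (K / k ^ 4) / 2), max A0 (4 * B), le_max_left _ _,
    hA0.trans (le_max_left _ _), fun N _ L ρ R η p q x₀ d φ φ₀ h1 hr h2 h3 h4 h5 h6 h7 h8 => ?_⟩
  have hρ : (0 : ℝ) < ρ := by exact_mod_cast h6
  have hR : (0 : ℝ) < R := by linarith
  have hN1 : A0 * R ≤ N := (mul_le_mul_of_nonneg_right (le_max_left _ _) hR.le).trans h4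
  have hN2 : 4 * B * R ≤ N := (mul_le_mul_of_nonneg_right (le_max_right _ _) hR.le).trans h4
  have hd4 : 4 * XY.nm d ≤ N := by
    have : (4 : ℝ) * XY.nm d ≤ N := by nlinarith
    exact_mod_cast this
  have hN3 : 2 ≤ N := by
    have h9 : (8 : ℝ) ≤ N := by
      have : (1 : ℝ) ≤ R := by
        have h10 : (8 : ℝ) ≤ 8 * B := by linarith
        linarith
      nlinarith
    have : (2 : ℝ) ≤ N := by linarith
    exact_mod_cast this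
  have hq : q = p + cz N d := H37.Fp.path_end h5
  have hct : k * ga b R ≤ CT N b η := by
    obtain ⟨M, rfl⟩ : ∃ M, N = M + 2 := ⟨N - 2, by omega⟩
    have e : (inferInstance : NeZero (M + 2)) = ‹NeZero (M + 2)› := Subsingleton.elim _ _
    exact (hF M R L p q d.1 d.2 η h5 h1 hr h2 h3 (by push_cast at hN1; linarith)).1
  have h9 := h N L ρ η p q d R (ga b R) x₀ φ h6 h7 hd4 h5 hq hR hr.1.le
    (fun s hs1 hs2 => hr.2 s hs1 (by omega))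
  rw [CX_eq]
  have hg : 0 < ga b R := hr.1
  have h10 : (k * ga b R) ^ 4 ≤ CT N b η ^ 4 :=
    pow_le_pow_left₀ (mul_nonneg hk0.le hg.le) hct 4
  have hr0 : 0 ≤ ((R : ℝ) / ρ) ^ (4 * α) := Real.rpow_nonneg (by positivity) _
  have h11 : SS (wTD N b) x₀ (wU ρ) (dU N η ρ φ) ≤
      K / k ^ 4 * ((R : ℝ) / ρ) ^ (4 * α) * CT N b η ^ 4 := by
    calc SS (wTD N b) x₀ (wU ρ) (dU N η ρ φ) ≤ K * ((R : ℝ) / ρ) ^ (4 * α) * ga b R ^ 4 := h9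
      _ = K / k ^ 4 * ((R : ℝ) / ρ) ^ (4 * α) * (k * ga b R) ^ 4 := by
          field_simp
      _ ≤ _ := mul_le_mul_of_nonneg_left h10 (by positivity)
  refine h11.trans ?_
  have hle : (1 : ℝ) ≤ (R : ℝ) / ρ := by
    rw [one_le_div hρ]
    exact_mod_cast h8
  have e1 : ((R : ℝ) / ρ) ^ (4 * α) ≤ Real.exp (2 * Real.log ((R : ℝ) / ρ)) := by
    rw [Real.rpow_def_of_pos (by positivity)]
    refine Real.exp_le_exp.2 ?_
    have := Real.log_nonneg hle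
    nlinarith
  have e2 : K / k ^ 4 ≤ Real.exp (2 * max 0 (Real.log (K / k ^ 4) / 2)) := by
    have hp : 0 < K / k ^ 4 := by positivity
    calc K / k ^ 4 = Real.exp (Real.log (K / k ^ 4)) := (Real.exp_log hp).symm
      _ ≤ _ := Real.exp_le_exp.2 (by
        have := le_max_right (0 : ℝ) (Real.log (K / k ^ 4) / 2)
        linarith)
  have hct0 : 0 ≤ CT N b η := (CT_pos hb η).le
  refine mul_le_mul_of_nonneg_right ?_ (by positivity)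
  rw [mul_add, Real.exp_add, mul_comm]
  exact mul_le_mul e1 e2 (by positivity) (Real.exp_pos _).le

/-- the square root form -/
theorem sqrt_SS_all (hb : 0 < b) (hα : 1 / 4 ≤ α) (hα2 : α < 1 / 2) (hC1 : 1 ≤ C1) {B : ℝ}
    (hB : 1 ≤ B) :
    ∃ C A0 : ℝ, 0 ≤ C ∧ 8 ≤ A0 ∧ ∀ (N : ℕ) [NeZero N] (L ρ R : ℕ) (η : Ed N → ℤ) (p q x₀ : V N)
      (d : ℤ × ℤ) (φ : ℤ × ℤ → V N → ℝ), 8 * B ≤ R → RecAt b α C1 R →
      (XY.nm d : ℝ) ≤ B * R → (R : ℝ) ≤ B * XY.nm d → A0 * R ≤ N →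
      H817.IsPath p q d.1 d.2 L η → 1 ≤ ρ → 4 * ρ ≤ XY.nm d → ρ ≤ R →
      Real.sqrt (SS (wTD N b) x₀ (wU ρ) (dU N η ρ φ)) ≤
        Real.exp (Real.log ((R : ℝ) / ρ) + C) * CT N b η ^ 2 := by
  obtain ⟨C, A0, hC, hA, h⟩ := SS_all (α := α) (C1 := C1) hb hα hα2 hC1 hB
  refine ⟨C, A0, hC, hA, fun N _ L ρ R η p q x₀ d φ h1 hr h2 h3 h4 h5 h6 h7 h8 => ?_⟩
  have h9 := h N L ρ R η p q x₀ d φ 0 h1 hr h2 h3 h4 h5 h6 h7 h8
  rw [CX_eq] at h9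
  have hct0 : 0 ≤ CT N b η := (CT_pos hb η).le
  have e1 : Real.exp (2 * (Real.log ((R : ℝ) / ρ) + C)) * CT N b η ^ 4 =
      (Real.exp (Real.log ((R : ℝ) / ρ) + C) * CT N b η ^ 2) ^ 2 := by
    rw [mul_pow, ← Real.exp_nat_mul]
    push_cast
    ring
  rw [e1] at h9
  calc _ ≤ Real.sqrt ((Real.exp (Real.log ((R : ℝ) / ρ) + C) * CT N b η ^ 2) ^ 2) :=
        Real.sqrt_le_sqrt h9
    _ = _ := Real.sqrt_sq (by positivity)

/-- **for the pairs of the class** (`Far`), with their canonical path -/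
theorem sqrt_SS_Far (hb : 0 < b) (hα : 1 / 4 ≤ α) (hα2 : α < 1 / 2) (hC1 : 1 ≤ C1) :
    ∃ C A0 : ℝ, 0 ≤ C ∧ 8 ≤ A0 ∧ ∀ (N : ℕ) [NeZero N] (L ρ R : ℕ) (η : Ed N → ℤ) (p q x₀ : V N)
      (φ : ℤ × ℤ → V N → ℝ), 32 ≤ R → RecAt b α C1 R →
      R ≤ 2 * H817.sz (q - p) → H817.sz (q - p) ≤ 4 * R → A0 * R ≤ N →
      H817.IsPath p q (H817.v1 p q) (H817.v2 p q) L η → 1 ≤ ρ → 8 * ρ ≤ R →
      Real.sqrt (SS (wTD N b) x₀ (wU ρ) (dU N η ρ φ)) ≤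
        Real.exp (Real.log ((R : ℝ) / ρ) + C) * CT N b η ^ 2 := by
  obtain ⟨C, A0, hC, hA, h⟩ := sqrt_SS_all (α := α) (C1 := C1) hb hα hα2 hC1 (B := 4)
    (by norm_num)
  refine ⟨C, A0, hC, hA, fun N _ L ρ R η p q x₀ φ h1 hr h2 h3 h4 h5 h6 h7 => ?_⟩
  have g1 : (32 : ℝ) ≤ R := by exact_mod_cast h1
  have g2 : (R : ℝ) ≤ 2 * H817.sz (q - p) := by exact_mod_cast h2
  have g3 : (H817.sz (q - p) : ℝ) ≤ 4 * R := by exact_mod_cast h3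
  refine h N L ρ R η p q x₀ (dsp p q) φ (by linarith) hr (by rw [nm_dsp]; linarith)
    (by rw [nm_dsp]; linarith) h4 h5 h6 (by rw [nm_dsp]; omega) (by omega)

end Vale.Agent.P159.H253.Sm
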