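import Vale.Agent.P159.H253.Sm3

/-!
P159 (helper253), smeared Ginibre, part 4: **the average of the pair of pairs**.
`∑_{u, v ∈ box ρ} CT (D u + D v) * CT (D u - D v) ≤ K (R / ρ)^(4 α) c^4 |box ρ|^2` from the price bound
`m(s)^2 ≤ C1 (R / s)^α c`, `1 ≤ s ≤ R`, `1/4 ≤ α < 1/2`.
-/

open MeasureTheory Filter Topology Finset
open scoped BigOperators

set_option linter.all false

namespace Vale.Agent.P159.H253.Sm

open Vale.Agent.P159 Vale.Agent.P159.TM.H331 Vale.Agent.P159.H773 Vale.Agent.P159.H253.Rec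
open Vale.Agent.P159.H770 (wTD Ed wTD_eq)
open Vale.Agent.P159.H883 (CT Zp CT_pos)
open Vale.Agent.P159.H474.Cb (trD)
open Vale.Agent.P159.TM.Spec (V)
open Vale.Agent.P159.H513 (cuZ)
open Vale.Agent.P159.H529.Qf (EQ EQ_one EQ_union EQ_le_one DsQ bxq torus_le Zp_ratio chq)

variable {M : ℕ} {b : ℝ} {R L : ℕ}

lemma box_inner {z A : ℤ × ℤ} {s : ℕ} (hz : z ∈ H773.tr (box s) A) :
    A.1 - s ≤ z.1 ∧ z.1 ≤ A.1 + s ∧ A.2 - s ≤ z.2 ∧ z.2 ≤ A.2 + s := by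
  rw [H773.mem_tr, XY.mem_box_iff_nm] at hz
  unfold XY.nm at hz
  simp only [Prod.fst_sub, Prod.snd_sub] at hz
  omega

/-- the wired magnetization is positive -/
theorem mm_pos (hb : 0 < b) (s : ℕ) : 0 < mm b s := by
  -- pair at distance `2 s + 2` in a torus of side `8 s + 16`
  have ha : (2 * s + 2) + (2 * s + 2) < (8 * s + 14) + 2 := by omega
  have hc : 2 * s + 2 < (8 * s + 14) + 2 := by omega
  have h1 : 0 < CT ((8 * s + 14) + 2) b (pZ ha hc) := CT_pos hb _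
  set P : ℤ × ℤ := (((2 * s + 2 : ℕ) : ℤ), ((2 * s + 2 : ℕ) : ℤ)) with hP
  set Q : ℤ × ℤ := (((2 * s + 2 + (2 * s + 2) : ℕ) : ℤ), ((2 * s + 2 : ℕ) : ℤ)) with hQ
  have hPQ : 2 * s + 2 ≤ XY.nm (P - Q) := by
    unfold XY.nm
    simp only [hP, hQ, Prod.fst_sub, Prod.snd_sub]
    push_cast
    omega
  have hΛ : H773.tr (box s) P ∪ H773.tr (box s) Q ⊆ inner ((8 * s + 14) + 1) := by
    intro z hz
    rw [H773.mem_inner_iff]
    rcases Finset.mem_union.1 hz with h | h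
    · have := box_inner h
      simp only [hP] at this
      push_cast at this ⊢
      omega
    · have := box_inner h
      simp only [hQ] at this
      push_cast at this ⊢
      omega
  have h2 : CT ((8 * s + 14) + 2) b (pZ ha hc) ≤
      EQ b (H773.tr (box s) P ∪ H773.tr (box s) Q) (qs P Q) :=
    CT_le_EQ hb.le (dsQ_pth _ _) hΛ
  have hne : P ≠ Q := by
    intro h
    rw [h, sub_self, XY.nm_zero] at hPQ
    omega
  have hPQ' : ∀ v ∈ H773.tr (box s) P, v ≠ Q := by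
    intro v hv h
    have := box_inner hv
    rw [h] at this
    simp only [hP, hQ] at this
    push_cast at this
    omega
  have hQP' : ∀ v ∈ H773.tr (box s) Q, v ≠ P := by
    intro v hv h
    have := box_inner hv
    rw [h] at this
    simp only [hP, hQ] at this
    push_cast at this
    omega
  rw [EQ_union (sep_box hPQ)] at h2
  have e1 : EQ b (H773.tr (box s) P) (qs P Q) ≤ mm b s := by
    refine EQ_one hb.le (Finset.Subset.refl _) (Or.inl ?_) fun v hv h => ?_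
    · unfold qs
      rw [if_pos rfl, if_neg hne, sub_zero]
    · unfold qs
      rw [if_neg h, if_neg (hPQ' v hv), sub_zero]
  have e2 : EQ b (H773.tr (box s) Q) (qs P Q) ≤ mm b s := by
    refine EQ_one hb.le (Finset.Subset.refl _) (Or.inr ?_) fun v hv h => ?_
    · unfold qs
      rw [if_neg (Ne.symm hne), if_pos rfl, zero_sub]
    · unfold qs
      rw [if_neg (hQP' v hv), if_neg h, sub_zero]
  have n2 := H529.Qf.EQ_nonneg hb.le (H773.tr (box s) Q) (qs P Q)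
  have hm := mm_nonneg hb.le s
  have h3 : 0 < mm b s * mm b s := lt_of_lt_of_le h1 (h2.trans (mul_le_mul e1 e2 n2 hm))
  by_contra hcon
  have h4 : mm b s = 0 := le_antisymm (not_lt.1 hcon) hm
  rw [h4, mul_zero] at h3
  exact lt_irrefl _ h3

/-- the charges of the sum -/
lemma q_add {A A' B B' : ℤ × ℤ} (h1 : A ≠ A') (h2 : A ≠ B) (h3 : A ≠ B') (h4 : A' ≠ B)
    (h5 : A' ≠ B') (h6 : B ≠ B') {q : ℤ × ℤ → ℤ} (hq : q = fun z => qs A A' z + qs B B' z) :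
    q A = 1 ∧ q A' = -1 ∧ q B = 1 ∧ q B' = -1 ∧
      ∀ z, z ≠ A → z ≠ A' → z ≠ B → z ≠ B' → q z = 0 := by
  subst hq
  unfold qs
  refine ⟨?_, ?_, ?_, ?_, fun z z1 z2 z3 z4 => ?_⟩
  · simp [h1, h2, h3]
  · simp [h1.symm, h4, h5]
  · simp [h2.symm, h4.symm, h6]
  · simp [h3.symm, h5.symm, h6.symm]
  · simp [z1, z2, z3, z4]

lemma q_sub {A A' B B' : ℤ × ℤ} (h1 : A ≠ A') (h2 : A ≠ B) (h3 : A ≠ B') (h4 : A' ≠ B)
    (h5 : A' ≠ B') (h6 : B ≠ B') {q : ℤ × ℤ → ℤ} (hq : q = fun z => qs A A' z - qs B B' z) :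
    q A = 1 ∧ q A' = -1 ∧ q B = -1 ∧ q B' = 1 ∧
      ∀ z, z ≠ A → z ≠ A' → z ≠ B → z ≠ B' → q z = 0 := by
  subst hq
  unfold qs
  refine ⟨?_, ?_, ?_, ?_, fun z z1 z2 z3 z4 => ?_⟩
  · simp [h1, h2, h3]
  · simp [h1.symm, h4, h5]
  · simp [h2.symm, h4.symm, h6]
  · simp [h3.symm, h5.symm, h6.symm]
  · simp [z1, z2, z3, z4]

lemma nm_fst {z : ℤ × ℤ} {k : ℕ} (h : (k : ℤ) ≤ z.1 ∨ (k : ℤ) ≤ -z.1) : k ≤ XY.nm z := by
  unfold XY.nm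
  omega

lemma nm_lin {z : ℤ × ℤ} {k : ℕ} (h : XY.nm z ≤ k) :
    (-(k : ℤ) ≤ z.1 ∧ z.1 ≤ k) ∧ -(k : ℤ) ≤ z.2 ∧ z.2 ≤ k := by
  unfold XY.nm at h
  omega

lemma s_le {u v : ℤ × ℤ} {ρ s : ℕ} (hu : XY.nm u ≤ ρ) (hv : XY.nm v ≤ ρ)
    (hs : 2 * s + 2 ≤ XY.nm (u - v)) : s + 1 ≤ ρ := by
  have h := XY.nm_add_le u (-v)
  rw [XY.nm_neg, ← sub_eq_add_neg] at h
  omega

/-- integer coordinates of the moved pair -/
lemma crd {k ρ R N : ℕ} {x : ℤ} (h1 : -(ρ : ℤ) ≤ x) (h2 : x ≤ ρ) (h3 : 4 * ρ ≤ R)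
    (h4 : 4 * R ≤ N) (hk : k = N / 2) (h5 : 1 ≤ ρ) :
    ∃ a : ℕ, (a : ℤ) = k + x ∧ a + R + ρ + 2 ≤ N ∧ ρ + 1 ≤ a := by
  refine ⟨(k + x).toNat, ?_, ?_, ?_⟩ <;> omega

/-- **the ring bound, explicit paths** -/
theorem CT_pair0 (hb : 0 ≤ b) {a c a' c' ρ s : ℕ} (b1 : a + R < M + 2) (b2 : c < M + 2)
    (b3 : a' + R < M + 2) (b4 : c' < M + 2)
    (e1 : a + R + ρ + 2 ≤ M + 2) (e2 : c + R + ρ + 2 ≤ M + 2) (e3 : a' + R + ρ + 2 ≤ M + 2)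
    (e4 : c' + R + ρ + 2 ≤ M + 2) (f1 : ρ + 1 ≤ a) (f2 : ρ + 1 ≤ c) (f3 : ρ + 1 ≤ a')
    (f4 : ρ + 1 ≤ c') (hsρ : s + 1 ≤ ρ) (hρR : 4 * ρ ≤ R)
    (g1 : (a : ℤ) ≤ a' + 2 * ρ) (g2 : (a' : ℤ) ≤ a + 2 * ρ)
    (hs : 2 * s + 2 ≤ XY.nm (((a : ℤ), (c : ℤ)) - ((a' : ℤ), (c' : ℤ)))) :
    CT (M + 2) b (fun e => pZ b1 b2 e + pZ b3 b4 e) ≤ mm b s ^ 4 ∧
      CT (M + 2) b (fun e => pZ b1 b2 e - pZ b3 b4 e) ≤ mm b s ^ 4 := by
  set A : ℤ × ℤ := ((a : ℤ), (c : ℤ)) with hA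
  set A' : ℤ × ℤ := (((a + R : ℕ) : ℤ), (c : ℤ)) with hA'
  set B : ℤ × ℤ := ((a' : ℤ), (c' : ℤ)) with hB
  set B' : ℤ × ℤ := (((a' + R : ℕ) : ℤ), (c' : ℤ)) with hB'
  have d1 : 2 * s + 2 ≤ XY.nm (A - A') := by
    refine nm_fst (Or.inr ?_)
    show ((2 * s + 2 : ℕ) : ℤ) ≤ -((a : ℤ) - ((a + R : ℕ) : ℤ))
    push_cast
    omega
  have d3 : 2 * s + 2 ≤ XY.nm (A - B') := by
    refine nm_fst (Or.inr ?_)
    show ((2 * s + 2 : ℕ) : ℤ) ≤ -((a : ℤ) - ((a' + R : ℕ) : ℤ))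
    push_cast
    omega
  have d4 : 2 * s + 2 ≤ XY.nm (A' - B) := by
    refine nm_fst (Or.inl ?_)
    show ((2 * s + 2 : ℕ) : ℤ) ≤ ((a + R : ℕ) : ℤ) - (a' : ℤ)
    push_cast
    omega
  have d5 : 2 * s + 2 ≤ XY.nm (A' - B') := by
    have e : A' - B' = A - B := by
      simp only [hA, hA', hB, hB', Prod.mk_sub_mk]
      push_cast
      congr 1
      ring
    rw [e]
    exact hs
  have d6 : 2 * s + 2 ≤ XY.nm (B - B') := by
    refine nm_fst (Or.inr ?_)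
    show ((2 * s + 2 : ℕ) : ℤ) ≤ -((a' : ℤ) - ((a' + R : ℕ) : ℤ))
    push_cast
    omega
  have hne : ∀ {z z' : ℤ × ℤ}, 2 * s + 2 ≤ XY.nm (z - z') → z ≠ z' := by
    intro z z' hz hzz
    rw [hzz, sub_self, XY.nm_zero] at hz
    omega
  have hin : ∀ {x y : ℕ}, ρ + 1 ≤ x → x + ρ + 2 ≤ M + 2 → ρ + 1 ≤ y → y + ρ + 2 ≤ M + 2 →
      H773.tr (box s) ((x : ℤ), (y : ℤ)) ⊆ inner (M + 1) := by
    intro x y h1 h2 h3 h4 z hz
    have h5 := box_inner hz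
    simp only at h5
    rw [H773.mem_inner_iff]
    push_cast
    omega
  have hΛ : H773.tr (box s) A ∪ (H773.tr (box s) A' ∪ (H773.tr (box s) B ∪
      H773.tr (box s) B')) ⊆ inner (M + 1) :=
    Finset.union_subset (hin f1 (by omega) f2 (by omega))
      (Finset.union_subset (hin (by omega) (by omega) f2 (by omega))
        (Finset.union_subset (hin f3 (by omega) f4 (by omega))
          (hin (by omega) (by omega) f4 (by omega))))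
  constructor
  · obtain ⟨q1, q2, q3, q4, q0⟩ := q_add (hne d1) (hne hs) (hne d3) (hne d4) (hne d5) (hne d6)
      (q := fun z => qs A A' z + qs B B' z) rfl
    exact (CT_pZ_add hb b1 b2 b3 b4 hΛ).trans
      (EQ_four_le hb d1 hs d3 d4 d5 d6 (Or.inl q1) (Or.inr q2) (Or.inl q3) (Or.inr q4) q0)
  · obtain ⟨q1, q2, q3, q4, q0⟩ := q_sub (hne d1) (hne hs) (hne d3) (hne d4) (hne d5) (hne d6)
      (q := fun z => qs A A' z - qs B B' z) rfl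
    exact (CT_pZ_sub hb b1 b2 b3 b4 hΛ).trans
      (EQ_four_le hb d1 hs d3 d4 d5 d6 (Or.inl q1) (Or.inr q2) (Or.inr q3) (Or.inl q4) q0)

/-- the pair moved to the middle of the torus -/
lemma CT_mid {η : Ed (M + 2) → ℤ}
    (h : H817.IsPath (N := M + 2) (0 : V (M + 2)) (((R : ℕ) : ZMod (M + 2)), 0) R 0 L η)
    {k : ℤ} {u v : ℤ × ℤ} {a c a' c' : ℕ} (ha : (a : ℤ) = k + u.1) (hc : (c : ℤ) = k + u.2)
    (ha' : (a' : ℤ) = k + v.1) (hc' : (c' : ℤ) = k + v.2) (b1 : a + R < M + 2) (b2 : c < M + 2)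
    (b3 : a' + R < M + 2) (b4 : c' < M + 2) :
    CT (M + 2) b (Dt (M + 2) η u + Dt (M + 2) η v) =
      CT (M + 2) b (fun e => pZ b1 b2 e + pZ b3 b4 e) ∧
    CT (M + 2) b (Dt (M + 2) η u - Dt (M + 2) η v) =
      CT (M + 2) b (fun e => pZ b1 b2 e - pZ b3 b4 e) := by
  have eu : ((k, k) : ℤ × ℤ) + u = ((a : ℤ), (c : ℤ)) := by
    ext
    · simp [ha]
    · simp [hc]
  have ev : ((k, k) : ℤ × ℤ) + v = ((a' : ℤ), (c' : ℤ)) := by
    ext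
    · simp [ha']
    · simp [hc']
  constructor
  · rw [← CT_Dt_add h b1 b2 b3 b4, ← eu, ← ev, ← trD_Dt, ← trD_Dt]
    exact (CT_tr (N := M + 2) (b := b) (-cz (M + 2) (k, k))
      (Dt (M + 2) η u + Dt (M + 2) η v)).symm
  · rw [← CT_Dt_sub h b1 b2 b3 b4, ← eu, ← ev, ← trD_Dt, ← trD_Dt]
    exact (CT_tr (N := M + 2) (b := b) (-cz (M + 2) (k, k))
      (Dt (M + 2) η u - Dt (M + 2) η v)).symm

/-- **the ring bound** -/
theorem CT_pair (hb : 0 ≤ b) {η : Ed (M + 2) → ℤ}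
    (h : H817.IsPath (N := M + 2) (0 : V (M + 2)) (((R : ℕ) : ZMod (M + 2)), 0) R 0 L η)
    {ρ s : ℕ} (hρR : 4 * ρ ≤ R) (hRN : 4 * R ≤ M + 2) {u v : ℤ × ℤ} (hu : u ∈ box ρ)
    (hv : v ∈ box ρ) (hs : 2 * s + 2 ≤ XY.nm (u - v)) :
    CT (M + 2) b (Dt (M + 2) η u + Dt (M + 2) η v) ≤ mm b s ^ 4 ∧
      CT (M + 2) b (Dt (M + 2) η u - Dt (M + 2) η v) ≤ mm b s ^ 4 := by
  rw [XY.mem_box_iff_nm] at hu hv
  have hsρ := s_le hu hv hs
  obtain ⟨⟨u1, u2⟩, u3, u4⟩ := nm_lin hu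
  obtain ⟨⟨v1, v2⟩, v3, v4⟩ := nm_lin hv
  have hρ1 : 1 ≤ ρ := by omega
  obtain ⟨a, ha, ha1, ha2⟩ := crd u1 u2 hρR hRN rfl hρ1
  obtain ⟨c, hc, hc1, hc2⟩ := crd u3 u4 hρR hRN rfl hρ1
  obtain ⟨a', ha', ha1', ha2'⟩ := crd v1 v2 hρR hRN rfl hρ1
  obtain ⟨c', hc', hc1', hc2'⟩ := crd v3 v4 hρR hRN rfl hρ1
  have b1 : a + R < M + 2 := by clear * - ha1; omega
  have b2 : c < M + 2 := by clear * - hc1; omega
  have b3 : a' + R < M + 2 := by clear * - ha1'; omega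
  have b4 : c' < M + 2 := by clear * - hc1'; omega
  obtain ⟨m1, m2⟩ := CT_mid (b := b) h ha hc ha' hc' b1 b2 b3 b4
  rw [m1, m2]
  refine CT_pair0 hb b1 b2 b3 b4 ha1 hc1 ha1' hc1' ha2 hc2 ha2' hc2' hsρ hρR ?_ ?_ ?_
  · rw [ha, ha']
    clear * - u2 v1
    linarith
  · rw [ha, ha']
    clear * - u1 v2
    linarith
  · have e : ((a : ℤ), (c : ℤ)) - ((a' : ℤ), (c' : ℤ)) = u - v := by
      rw [Prod.mk_sub_mk, ha, ha', hc, hc']
      ext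
      · simp
      · simp
    rw [e]
    exact hs

end Vale.Agent.P159.H253.Sm
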