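import Vale.Agent.P159.H253.Sm4

/-!
P159 (helper253), smeared Ginibre, part 5: **the average of the pair of pairs**.
`∑_{u, v ∈ box ρ} CT (D u + D v) * CT (D u - D v) ≤ K (R / ρ)^(4 α) c^4 |box ρ|^2` from the price bound
`m(s)^2 ≤ C1 (R / s)^α c`, `1 ≤ s ≤ R`, `1/4 ≤ α < 1/2`.
-/

open MeasureTheory Filter Topology Finset
open scoped BigOperators

set_option linter.all false

namespace Vale.Agent.P159.H253.Sm

open Vale.Agent.P159 Vale.Agent.P159.TM.H331 Vale.Agent.P159.H773 Vale.Agent.P159.H253.Rec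
open Vale.Agent.P159.H770 (wTD Ed wTD_eq)
open Vale.Agent.P159.H883 (CT Zp CT_pos)
open Vale.Agent.P159.TM.Spec (V)
open Vale.Agent.P159.H529.Qf (EQ EQ_le_one)

variable {b α C1 c : ℝ} {R L : ℕ}

/-- trivial bound -/
theorem CT_pair_one {M : ℕ} (hb : 0 ≤ b) {η : Ed (M + 2) → ℤ}
    (h : H817.IsPath (N := M + 2) (0 : V (M + 2)) (((R : ℕ) : ZMod (M + 2)), 0) R 0 L η)
    {ρ : ℕ} (hρ : 1 ≤ ρ) (hρR : 4 * ρ ≤ R) (hRN : 4 * R ≤ M + 2) {u v : ℤ × ℤ} (hu : u ∈ box ρ)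
    (hv : v ∈ box ρ) :
    CT (M + 2) b (Dt (M + 2) η u + Dt (M + 2) η v) ≤ 1 ∧
      CT (M + 2) b (Dt (M + 2) η u - Dt (M + 2) η v) ≤ 1 := by
  rw [XY.mem_box_iff_nm] at hu hv
  obtain ⟨⟨u1, u2⟩, u3, u4⟩ := nm_lin hu
  obtain ⟨⟨v1, v2⟩, v3, v4⟩ := nm_lin hv
  obtain ⟨a, ha, ha1, ha2⟩ := crd u1 u2 hρR hRN rfl hρ
  obtain ⟨c, hc, hc1, hc2⟩ := crd u3 u4 hρR hRN rfl hρ
  obtain ⟨a', ha', ha1', ha2'⟩ := crd v1 v2 hρR hRN rfl hρ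
  obtain ⟨c', hc', hc1', hc2'⟩ := crd v3 v4 hρR hRN rfl hρ
  have b1 : a + R < M + 2 := by clear * - ha1; omega
  have b2 : c < M + 2 := by clear * - hc1; omega
  have b3 : a' + R < M + 2 := by clear * - ha1'; omega
  have b4 : c' < M + 2 := by clear * - hc1'; omega
  obtain ⟨m1, m2⟩ := CT_mid (b := b) h ha hc ha' hc' b1 b2 b3 b4
  rw [m1, m2]
  exact ⟨(CT_pZ_add hb b1 b2 b3 b4 (Finset.empty_subset _)).trans (EQ_le_one b _ _),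
    (CT_pZ_sub hb b1 b2 b3 b4 (Finset.empty_subset _)).trans (EQ_le_one b _ _)⟩

/-- scalar form of one term -/
lemma term_bound (hα : 1 / 4 ≤ α) (hα2 : α < 1 / 2) (hC1 : 0 ≤ C1) (hc : 0 ≤ c) (hR : 1 ≤ R)
    {u1 : ℝ} (hu1 : 0 < u1) (h1 : u1 ≤ C1 * (R : ℝ) ^ α * c) {d : ℕ} {X : ℝ}
    (hX1 : X ≤ 1) (hX : ∀ s : ℕ, 1 ≤ s → 2 * s + 2 ≤ d → X ≤ (C1 * ((R : ℝ) / s) ^ α * c) ^ 4) :
    X ≤ 36 * C1 ^ 4 * (1 + (u1⁻¹) ^ 4) * (R : ℝ) ^ (4 * α) * c ^ 4 *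
      ((d : ℝ) + 1) ^ (-(4 * α)) := by
  have hR0 : (0 : ℝ) < R := by exact_mod_cast hR
  have hd0 : (0 : ℝ) < (d : ℝ) + 1 := by positivity
  have p4 : ∀ x : ℝ, 0 ≤ x → (x ^ α) ^ 4 = x ^ (4 * α) := by
    intro x hx
    rw [← Real.rpow_natCast (x ^ α) 4, ← Real.rpow_mul hx]
    congr 1
    push_cast
    ring
  have h6 : ∀ x : ℝ, 1 ≤ x → x ≤ 6 → x ^ (4 * α) ≤ 36 := by
    intro x hx0 hx
    calc x ^ (4 * α) ≤ x ^ (2 : ℝ) := Real.rpow_le_rpow_of_exponent_le hx0 (by linarith)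
      _ = x ^ 2 := by rw [← Real.rpow_natCast x 2]; norm_num
      _ ≤ 6 ^ 2 := pow_le_pow_left₀ (by linarith) hx 2
      _ = 36 := by norm_num
  have hdiv : ∀ x : ℝ, 0 < x → x ^ (-(4 * α)) = (x ^ (4 * α))⁻¹ := fun x hx =>
    Real.rpow_neg hx.le _
  by_cases h : d ≤ 3
  · -- small distance
    have e1 : 1 ≤ (C1 * (R : ℝ) ^ α * c) ^ 4 * (u1⁻¹) ^ 4 := by
      rw [← mul_pow]
      refine one_le_pow₀ ?_
      rw [← div_eq_mul_inv, one_le_div hu1]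
      exact h1
    have e2 : (1 : ℝ) ≤ 36 * ((d : ℝ) + 1) ^ (-(4 * α)) := by
      rw [hdiv _ hd0, ← div_eq_mul_inv, one_le_div (by positivity)]
      refine h6 _ (by linarith [Nat.cast_nonneg (α := ℝ) d]) ?_
      have : (d : ℝ) ≤ 3 := by exact_mod_cast h
      linarith
    have e3 : (C1 * (R : ℝ) ^ α * c) ^ 4 = C1 ^ 4 * (R : ℝ) ^ (4 * α) * c ^ 4 := by
      rw [mul_pow, mul_pow, p4 _ hR0.le]
    calc X ≤ 1 * 1 := by linarith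
      _ ≤ ((C1 * (R : ℝ) ^ α * c) ^ 4 * (u1⁻¹) ^ 4) * (36 * ((d : ℝ) + 1) ^ (-(4 * α))) :=
          mul_le_mul e1 e2 (by norm_num) (by positivity)
      _ = 36 * C1 ^ 4 * (u1⁻¹) ^ 4 * (R : ℝ) ^ (4 * α) * c ^ 4 * ((d : ℝ) + 1) ^ (-(4 * α)) := by
          rw [e3]; ring
      _ ≤ _ := by
          refine mul_le_mul_of_nonneg_right (mul_le_mul_of_nonneg_right
            (mul_le_mul_of_nonneg_right ?_ (by positivity)) (by positivity)) (by positivity)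
          refine mul_le_mul_of_nonneg_left ?_ (by positivity)
          linarith
  · have hd : 4 ≤ d := by omega
    set s : ℕ := (d - 2) / 2 with hs
    have hs1 : 1 ≤ s := by omega
    have hs2 : 2 * s + 2 ≤ d := by omega
    have hs3 : d + 1 ≤ 6 * s := by omega
    have hs0 : (0 : ℝ) < s := by exact_mod_cast hs1
    have e0 := hX s hs1 hs2
    have e1 : (C1 * ((R : ℝ) / s) ^ α * c) ^ 4 =
        C1 ^ 4 * ((R : ℝ) ^ (4 * α) / (s : ℝ) ^ (4 * α)) * c ^ 4 := by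
      rw [mul_pow, mul_pow, p4 _ (by positivity), Real.div_rpow hR0.le hs0.le]
    have e2 : ((s : ℝ) ^ (4 * α))⁻¹ ≤ 36 * ((d : ℝ) + 1) ^ (-(4 * α)) := by
      rw [hdiv _ hd0, ← div_eq_mul_inv, inv_eq_one_div, div_le_div_iff₀ (by positivity)
        (by positivity), one_mul]
      have h7 : ((d : ℝ) + 1) / s ≤ 6 := by
        rw [div_le_iff₀ hs0]
        exact_mod_cast hs3
      have h8 : 1 ≤ ((d : ℝ) + 1) / s := by
        rw [one_le_div hs0]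
        have : (s : ℝ) ≤ d := by exact_mod_cast (by omega : s ≤ d)
        linarith
      have h9 := h6 _ h8 h7
      rw [Real.div_rpow hd0.le hs0.le, div_le_iff₀ (by positivity)] at h9
      exact h9
    calc X ≤ C1 ^ 4 * ((R : ℝ) ^ (4 * α) / (s : ℝ) ^ (4 * α)) * c ^ 4 := e0.trans e1.le
      _ = (C1 ^ 4 * (R : ℝ) ^ (4 * α) * c ^ 4) * ((s : ℝ) ^ (4 * α))⁻¹ := by ring
      _ ≤ (C1 ^ 4 * (R : ℝ) ^ (4 * α) * c ^ 4) * (36 * ((d : ℝ) + 1) ^ (-(4 * α))) :=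
          mul_le_mul_of_nonneg_left e2 (by positivity)
      _ = 36 * C1 ^ 4 * 1 * (R : ℝ) ^ (4 * α) * c ^ 4 * ((d : ℝ) + 1) ^ (-(4 * α)) := by ring
      _ ≤ _ := by
          refine mul_le_mul_of_nonneg_right (mul_le_mul_of_nonneg_right
            (mul_le_mul_of_nonneg_right ?_ (by positivity)) (by positivity)) (by positivity)
          refine mul_le_mul_of_nonneg_left ?_ (by positivity)
          have : 0 ≤ (u1⁻¹) ^ 4 := by positivity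
          linarith

/-- **THE AVERAGE**, absolute constant: `K` depends on `b, α, C1` only -/
theorem avg_pair (hb : 0 < b) (hα : 1 / 4 ≤ α) (hα2 : α < 1 / 2) (hC1 : 0 ≤ C1) :
    ∃ K : ℝ, 1 ≤ K ∧ ∀ (N : ℕ) [NeZero N] (R L ρ : ℕ) (η : Ed N → ℤ) (c : ℝ), 1 ≤ ρ →
      4 * ρ ≤ R → 4 * R ≤ N →
      H817.IsPath (N := N) (0 : V N) (((R : ℕ) : ZMod N), 0) R 0 L η → 0 ≤ c →
      (∀ s : ℕ, 1 ≤ s → s ≤ R → ua b s ≤ C1 * ((R : ℝ) / s) ^ α * c) →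
      ∑ u ∈ box ρ, ∑ v ∈ box ρ,
        CT N b (Dt N η u + Dt N η v) * CT N b (Dt N η u - Dt N η v) ≤
        K * ((R : ℝ) / ρ) ^ (4 * α) * c ^ 4 * ((box ρ).card : ℝ) ^ 2 := by
  have hu1 : 0 < ua b 1 := pow_pos (mm_pos hb 1) 2
  set K0 : ℝ := 36 * C1 ^ 4 * (1 + ((ua b 1)⁻¹) ^ 4) with hK0
  have hK00 : 0 ≤ K0 := by positivity
  have h2a : 0 < 2 - 4 * α := by linarith
  refine ⟨8 / (2 - 4 * α) * K0 + 1, ?_, fun N _ R L ρ η c hρ hρR hRN h hc hpr => ?_⟩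
  · have : 0 ≤ 8 / (2 - 4 * α) * K0 := by positivity
    linarith
  have hR : 1 ≤ R := by omega
  have hR0 : (0 : ℝ) < R := by exact_mod_cast hR
  have hρ0 : (0 : ℝ) < ρ := by exact_mod_cast hρ
  obtain ⟨M, rfl⟩ : ∃ M, N = M + 2 := ⟨N - 2, by omega⟩
  have h1 : ua b 1 ≤ C1 * (R : ℝ) ^ α * c := by
    have := hpr 1 le_rfl hR
    simpa using this
  have key : ∀ u ∈ box ρ, ∀ v ∈ box ρ,
      CT (M + 2) b (Dt (M + 2) η u + Dt (M + 2) η v) * CT (M + 2) b (Dt (M + 2) η u -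
        Dt (M + 2) η v) ≤ K0 * (R : ℝ) ^ (4 * α) * c ^ 4 *
          ((XY.nm (u - v) : ℝ) + 1) ^ (-(4 * α)) := by
    intro u hu v hv
    obtain ⟨o1, o2⟩ := CT_pair_one hb.le h hρ hρR hRN hu hv
    have n1 := (CT_pos hb (Dt (M + 2) η u + Dt (M + 2) η v)).le
    have n2 := (CT_pos hb (Dt (M + 2) η u - Dt (M + 2) η v)).le
    refine term_bound hα hα2 hC1 hc hR hu1 h1 (mul_le_one₀ o1 n2 o2) fun s hs1 hs2 => ?_
    obtain ⟨r1, r2⟩ := CT_pair hb.le h hρR hRN hu hv hs2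
    rw [XY.mem_box_iff_nm] at hu hv
    have hsρ := s_le hu hv hs2
    have h3 := hpr s hs1 (by omega)
    have hm := mm_nonneg hb.le s
    calc _ ≤ mm b s ^ 4 * mm b s ^ 4 := mul_le_mul r1 r2 n2 (by positivity)
      _ = ua b s ^ 4 := by unfold ua; ring
      _ ≤ _ := pow_le_pow_left₀ (ua_nonneg b s) h3 4
  have hK : 0 ≤ K0 * (R : ℝ) ^ (4 * α) * c ^ 4 := by positivity
  have hav := avg_scal (a := 4 * α) (by linarith) (by linarith) hρ hK key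
  refine hav.trans ?_
  have e1 : ((R : ℝ) / ρ) ^ (4 * α) = (R : ℝ) ^ (4 * α) * (ρ : ℝ) ^ (-(4 * α)) := by
    rw [Real.div_rpow hR0.le hρ0.le, Real.rpow_neg hρ0.le, div_eq_mul_inv]
  rw [e1]
  have hS : 0 ≤ (R : ℝ) ^ (4 * α) * (ρ : ℝ) ^ (-(4 * α)) * c ^ 4 * ((box ρ).card : ℝ) ^ 2 := by
    positivity
  have hcalc : 8 / (2 - 4 * α) * (K0 * (R : ℝ) ^ (4 * α) * c ^ 4) * (ρ : ℝ) ^ (-(4 * α)) *
      ((box ρ).card : ℝ) ^ 2 = (8 / (2 - 4 * α) * K0) *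
        ((R : ℝ) ^ (4 * α) * (ρ : ℝ) ^ (-(4 * α)) * c ^ 4 * ((box ρ).card : ℝ) ^ 2) := by ring
  rw [hcalc]
  calc (8 / (2 - 4 * α) * K0) *
        ((R : ℝ) ^ (4 * α) * (ρ : ℝ) ^ (-(4 * α)) * c ^ 4 * ((box ρ).card : ℝ) ^ 2) ≤
      (8 / (2 - 4 * α) * K0 + 1) *
        ((R : ℝ) ^ (4 * α) * (ρ : ℝ) ^ (-(4 * α)) * c ^ 4 * ((box ρ).card : ℝ) ^ 2) :=
        mul_le_mul_of_nonneg_right (by linarith) hS
    _ = _ := by ring

end Vale.Agent.P159.H253.Sm
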