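import Vale.Agent.P159.H253.Sm5

/-!
P159 (helper253), smeared Ginibre, part 6: ring bound and average for every pair of cores of the torus
(`IsPath p q d.1 d.2 L η`, `4 ρ ≤ |d|`, `4 |d| ≤ N`).
-/

open MeasureTheory Filter Topology Finset
open scoped BigOperators

set_option linter.all false

namespace Vale.Agent.P159.H253.Sm

open Vale.Agent.P159 Vale.Agent.P159.TM.H331 Vale.Agent.P159.H773 Vale.Agent.P159.H253.Rec
open Vale.Agent.P159.H770 (wTD Ed wTD_eq)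
open Vale.Agent.P159.H883 (CT Zp CT_pos)
open Vale.Agent.P159.H474.Cb (trD)
open Vale.Agent.P159.TM.Spec (V)
open Vale.Agent.P159.H513 (cuZ)
open Vale.Agent.P159.H529.Qf (EQ EQ_one EQ_union EQ_le_one DsQ bxq torus_le Zp_ratio chq)

variable {M : ℕ} {b : ℝ} {L : ℕ}

/-- the explicit path from `(a, c)` to `(a1, c1)` -/
def pG {a c a1 c1 : ℕ} (ha : a < M + 2) (hc : c < M + 2) (ha1 : a1 < M + 2) (hc1 : c1 < M + 2) :
    Ed (M + 2) → ℤ :=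
  pth ((⟨a, ha⟩, ⟨c, hc⟩) : St M) (⟨a1, ha1⟩, ⟨c1, hc1⟩)

lemma cuZ_pG {a c a1 c1 : ℕ} (ha : a < M + 2) (hc : c < M + 2) (ha1 : a1 < M + 2)
    (hc1 : c1 < M + 2) (v : V (M + 2)) :
    cuZ (pG ha hc ha1 hc1) v = (if v = cz (M + 2) ((a : ℤ), (c : ℤ)) then 1 else 0) -
      (if v = cz (M + 2) ((a1 : ℤ), (c1 : ℤ)) then 1 else 0) := by
  have h := (pth_dsl ((⟨a, ha⟩, ⟨c, hc⟩) : St M) (⟨a1, ha1⟩, ⟨c1, hc1⟩)).curl v
  rw [cz_nat ha hc, cz_nat ha1 hc1]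
  exact h

lemma sum_pG {a c a1 c1 : ℕ} (ha : a < M + 2) (hc : c < M + 2) (ha1 : a1 < M + 2)
    (hc1 : c1 < M + 2) :
    (∑ x : V (M + 2), pG ha hc ha1 hc1 (x, false) = -((c1 : ℤ) - c)) ∧
      ∑ x : V (M + 2), pG ha hc ha1 hc1 (x, true) = (a1 : ℤ) - a :=
  ⟨sum_pth_false ((⟨a, ha⟩, ⟨c, hc⟩) : St M) (⟨a1, ha1⟩, ⟨c1, hc1⟩),
    sum_pth_true ((⟨a, ha⟩, ⟨c, hc⟩) : St M) (⟨a1, ha1⟩, ⟨c1, hc1⟩)⟩

variable {p q : V (M + 2)} {P0 d : ℤ × ℤ} {η : Ed (M + 2) → ℤ}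

lemma Dt_cuG (h : H817.IsPath p q d.1 d.2 L η) (hp : p = cz (M + 2) P0)
    (hq : q = cz (M + 2) (P0 + d)) (u : ℤ × ℤ) (v : V (M + 2)) :
    cuZ (Dt (M + 2) η u) v = (if v = cz (M + 2) (P0 + u) then 1 else 0) -
      (if v = cz (M + 2) (P0 + d + u) then 1 else 0) := by
  unfold Dt
  rw [cuZ_trD]
  have h1 := h.cu (v + -cz (M + 2) u)
  have h2 : ((cuZ η (v + -cz (M + 2) u) : ℤ) : ℝ) =
      (((if v + -cz (M + 2) u = p then 1 else 0) -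
        (if v + -cz (M + 2) u = q then 1 else 0) : ℤ) : ℝ) := by
    unfold cuZ
    push_cast
    exact h1
  have h3 : cuZ η (v + -cz (M + 2) u) = (if v + -cz (M + 2) u = p then 1 else 0) -
        (if v + -cz (M + 2) u = q then 1 else 0) := by exact_mod_cast h2
  rw [h3]
  have e1 : (v + -cz (M + 2) u = p) = (v = cz (M + 2) (P0 + u)) := by
    rw [cz_add, ← hp]
    exact propext add_neg_eq_iff_eq_add
  have e2 : (v + -cz (M + 2) u = q) = (v = cz (M + 2) (P0 + d + u)) := by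
    rw [cz_add, ← hq]
    exact propext add_neg_eq_iff_eq_add
  simp only [e1, e2]

lemma sum_DtG (h : H817.IsPath p q d.1 d.2 L η) (u : ℤ × ℤ) :
    (∑ x : V (M + 2), Dt (M + 2) η u (x, false) = -d.2) ∧
      ∑ x : V (M + 2), Dt (M + 2) η u (x, true) = d.1 := by
  constructor
  · refine (sum_trD _ η false).trans ?_
    have h3 := h.hor
    exact_mod_cast h3
  · refine (sum_trD _ η true).trans ?_
    have h3 := h.ver
    exact_mod_cast h3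

/-- the pairs moved to the middle of the torus -/
lemma CT_midG (h : H817.IsPath p q d.1 d.2 L η) (hp : p = cz (M + 2) P0)
    (hq : q = cz (M + 2) (P0 + d)) {k : ℤ} {u v : ℤ × ℤ} {a c a1 c1 a' c' a1' c1' : ℕ}
    (ha : (a : ℤ) = k + u.1) (hc : (c : ℤ) = k + u.2) (ha1 : (a1 : ℤ) = k + u.1 + d.1)
    (hc1 : (c1 : ℤ) = k + u.2 + d.2) (ha' : (a' : ℤ) = k + v.1) (hc' : (c' : ℤ) = k + v.2)
    (ha1' : (a1' : ℤ) = k + v.1 + d.1) (hc1' : (c1' : ℤ) = k + v.2 + d.2)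
    (b1 : a < M + 2) (b2 : c < M + 2) (b3 : a1 < M + 2) (b4 : c1 < M + 2)
    (b5 : a' < M + 2) (b6 : c' < M + 2) (b7 : a1' < M + 2) (b8 : c1' < M + 2) :
    CT (M + 2) b (Dt (M + 2) η u + Dt (M + 2) η v) =
      CT (M + 2) b (fun e => pG b1 b2 b3 b4 e + pG b5 b6 b7 b8 e) ∧
    CT (M + 2) b (Dt (M + 2) η u - Dt (M + 2) η v) =
      CT (M + 2) b (fun e => pG b1 b2 b3 b4 e - pG b5 b6 b7 b8 e) := by
  set s : ℤ × ℤ := (k, k) - P0 with hs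
  have k1 := sum_DtG h (s + u)
  have k2 := sum_DtG h (s + v)
  have k3 := sum_pG b1 b2 b3 b4
  have k4 := sum_pG b5 b6 b7 b8
  have r1 : ∀ x, cuZ (Dt (M + 2) η (s + u)) x = cuZ (pG b1 b2 b3 b4) x := by
    intro x
    rw [Dt_cuG h hp hq, cuZ_pG]
    have e1 : P0 + (s + u) = ((a : ℤ), (c : ℤ)) := by
      rw [hs, ha, hc]
      ext <;> simp only [Prod.fst_add, Prod.snd_add, Prod.fst_sub, Prod.snd_sub] <;> ring
    have e2 : P0 + d + (s + u) = ((a1 : ℤ), (c1 : ℤ)) := by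
      rw [hs, ha1, hc1]
      ext <;> simp only [Prod.fst_add, Prod.snd_add, Prod.fst_sub, Prod.snd_sub] <;> ring
    rw [e1, e2]
  have r2 : ∀ x, cuZ (Dt (M + 2) η (s + v)) x = cuZ (pG b5 b6 b7 b8) x := by
    intro x
    rw [Dt_cuG h hp hq, cuZ_pG]
    have e1 : P0 + (s + v) = ((a' : ℤ), (c' : ℤ)) := by
      rw [hs, ha', hc']
      ext <;> simp only [Prod.fst_add, Prod.snd_add, Prod.fst_sub, Prod.snd_sub] <;> ring
    have e2 : P0 + d + (s + v) = ((a1' : ℤ), (c1' : ℤ)) := by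
      rw [hs, ha1', hc1']
      ext <;> simp only [Prod.fst_add, Prod.snd_add, Prod.fst_sub, Prod.snd_sub] <;> ring
    rw [e1, e2]
  have f1 : -(((c1 : ℕ) : ℤ) - (c : ℕ)) = -d.2 := by rw [hc1, hc]; ring
  have f2 : (a1 : ℤ) - a = d.1 := by rw [ha1, ha]; ring
  have f3 : -(((c1' : ℕ) : ℤ) - (c' : ℕ)) = -d.2 := by rw [hc1', hc']; ring
  have f4 : (a1' : ℤ) - a' = d.1 := by rw [ha1', ha']; ring
  constructor
  · rw [← CT_tr (N := M + 2) (b := b) (-cz (M + 2) s) (Dt (M + 2) η u + Dt (M + 2) η v)]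
    have g1 : trD (-cz (M + 2) s) (Dt (M + 2) η u + Dt (M + 2) η v) =
        fun e => Dt (M + 2) η (s + u) e + Dt (M + 2) η (s + v) e := by
      rw [← trD_Dt, ← trD_Dt]
      rfl
    rw [g1]
    refine CT_classZ (fun x => ?_) ?_ ?_
    · have e : ∀ f g : Ed (M + 2) → ℤ, cuZ (fun e => f e + g e) x = cuZ f x + cuZ g x := by
        intro f g; unfold cuZ; ring
      rw [e, e, r1, r2]
    · rw [Finset.sum_add_distrib, Finset.sum_add_distrib, k1.1, k2.1, k3.1, k4.1, f1, f3]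
    · rw [Finset.sum_add_distrib, Finset.sum_add_distrib, k1.2, k2.2, k3.2, k4.2, f2, f4]
  · rw [← CT_tr (N := M + 2) (b := b) (-cz (M + 2) s) (Dt (M + 2) η u - Dt (M + 2) η v)]
    have g1 : trD (-cz (M + 2) s) (Dt (M + 2) η u - Dt (M + 2) η v) =
        fun e => Dt (M + 2) η (s + u) e - Dt (M + 2) η (s + v) e := by
      rw [← trD_Dt, ← trD_Dt]
      rfl
    rw [g1]
    refine CT_classZ (fun x => ?_) ?_ ?_
    · have e : ∀ f g : Ed (M + 2) → ℤ, cuZ (fun e => f e - g e) x = cuZ f x - cuZ g x := by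
        intro f g; unfold cuZ; ring
      rw [e, e, r1, r2]
    · rw [Finset.sum_sub_distrib, Finset.sum_sub_distrib, k1.1, k2.1, k3.1, k4.1, f1, f3]
    · rw [Finset.sum_sub_distrib, Finset.sum_sub_distrib, k1.2, k2.2, k3.2, k4.2, f2, f4]

/-- integer coordinates of the moved pair -/
lemma crdG {k ρ D N : ℕ} {x y : ℤ} (h1 : -(ρ : ℤ) ≤ x) (h2 : x ≤ ρ) (h3 : 4 * ρ ≤ D)
    (h4 : 4 * D ≤ N) (hk : k = N / 2) (h5 : 1 ≤ ρ) (h6 : -(D : ℤ) ≤ y) (h7 : y ≤ D) :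
    ∃ a a1 : ℕ, (a : ℤ) = k + x ∧ (a1 : ℤ) = k + x + y ∧ (a + ρ + 2 ≤ N ∧ ρ + 1 ≤ a) ∧
      (a1 + ρ + 2 ≤ N ∧ ρ + 1 ≤ a1) := by
  refine ⟨(k + x).toNat, (k + x + y).toNat, ?_, ?_, ⟨?_, ?_⟩, ?_, ?_⟩ <;> omega

/-- **the ring bound, explicit paths** -/
theorem CT_pairG0 (hb : 0 ≤ b) {a c a1 c1 a' c' a1' c1' ρ s : ℕ} {D : ℤ × ℤ}
    (b1 : a < M + 2) (b2 : c < M + 2) (b3 : a1 < M + 2) (b4 : c1 < M + 2)
    (b5 : a' < M + 2) (b6 : c' < M + 2) (b7 : a1' < M + 2) (b8 : c1' < M + 2)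
    (f1 : a + ρ + 2 ≤ M + 2 ∧ ρ + 1 ≤ a) (f2 : c + ρ + 2 ≤ M + 2 ∧ ρ + 1 ≤ c)
    (f3 : a1 + ρ + 2 ≤ M + 2 ∧ ρ + 1 ≤ a1) (f4 : c1 + ρ + 2 ≤ M + 2 ∧ ρ + 1 ≤ c1)
    (f5 : a' + ρ + 2 ≤ M + 2 ∧ ρ + 1 ≤ a') (f6 : c' + ρ + 2 ≤ M + 2 ∧ ρ + 1 ≤ c')
    (f7 : a1' + ρ + 2 ≤ M + 2 ∧ ρ + 1 ≤ a1') (f8 : c1' + ρ + 2 ≤ M + 2 ∧ ρ + 1 ≤ c1')
    (hsρ : s + 1 ≤ ρ) (hρD : 4 * ρ ≤ XY.nm D)
    (e1 : ((a1 : ℤ), (c1 : ℤ)) = ((a : ℤ), (c : ℤ)) + D)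
    (e2 : ((a1' : ℤ), (c1' : ℤ)) = ((a' : ℤ), (c' : ℤ)) + D)
    (hs : 2 * s + 2 ≤ XY.nm (((a : ℤ), (c : ℤ)) - ((a' : ℤ), (c' : ℤ))))
    (hs2 : XY.nm (((a : ℤ), (c : ℤ)) - ((a' : ℤ), (c' : ℤ))) ≤ 2 * ρ) :
    CT (M + 2) b (fun e => pG b1 b2 b3 b4 e + pG b5 b6 b7 b8 e) ≤ mm b s ^ 4 ∧
      CT (M + 2) b (fun e => pG b1 b2 b3 b4 e - pG b5 b6 b7 b8 e) ≤ mm b s ^ 4 := by
  set A : ℤ × ℤ := ((a : ℤ), (c : ℤ)) with hA
  set A' : ℤ × ℤ := ((a1 : ℤ), (c1 : ℤ)) with hA'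
  set B : ℤ × ℤ := ((a' : ℤ), (c' : ℤ)) with hB
  set B' : ℤ × ℤ := ((a1' : ℤ), (c1' : ℤ)) with hB'
  have d1 : 2 * s + 2 ≤ XY.nm (A - A') := by
    rw [e1, show A - (A + D) = -D by abel, XY.nm_neg]
    omega
  have d3 : 2 * s + 2 ≤ XY.nm (A - B') := by
    have h := XY.nm_add_le (A - B') (-(A - B))
    rw [XY.nm_neg] at h
    have e : A - B' + -(A - B) = -D := by rw [e2]; abel
    rw [e, XY.nm_neg] at h
    omega
  have d4 : 2 * s + 2 ≤ XY.nm (A' - B) := by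
    have h := XY.nm_add_le (A' - B) (-(A - B))
    rw [XY.nm_neg] at h
    have e : A' - B + -(A - B) = D := by rw [e1]; abel
    rw [e] at h
    omega
  have d5 : 2 * s + 2 ≤ XY.nm (A' - B') := by
    have e : A' - B' = A - B := by rw [e1, e2]; abel
    rw [e]
    exact hs
  have d6 : 2 * s + 2 ≤ XY.nm (B - B') := by
    rw [e2, show B - (B + D) = -D by abel, XY.nm_neg]
    omega
  have hne : ∀ {z z' : ℤ × ℤ}, 2 * s + 2 ≤ XY.nm (z - z') → z ≠ z' := by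
    intro z z' hz hzz
    rw [hzz, sub_self, XY.nm_zero] at hz
    omega
  have hin : ∀ {x y : ℕ}, x + ρ + 2 ≤ M + 2 ∧ ρ + 1 ≤ x → y + ρ + 2 ≤ M + 2 ∧ ρ + 1 ≤ y →
      H773.tr (box s) ((x : ℤ), (y : ℤ)) ⊆ inner (M + 1) := by
    intro x y h1 h2 z hz
    have h5 := box_inner hz
    simp only at h5
    rw [H773.mem_inner_iff]
    push_cast
    omega
  have hΛ : H773.tr (box s) A ∪ (H773.tr (box s) A' ∪ (H773.tr (box s) B ∪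
      H773.tr (box s) B')) ⊆ inner (M + 1) :=
    Finset.union_subset (hin f1 f2) (Finset.union_subset (hin f3 f4)
      (Finset.union_subset (hin f5 f6) (hin f7 f8)))
  constructor
  · obtain ⟨q1, q2, q3, q4, q0⟩ := q_add (hne d1) (hne hs) (hne d3) (hne d4) (hne d5) (hne d6)
      (q := fun z => qs A A' z + qs B B' z) rfl
    exact (CT_le_EQ hb (dsQ_add (dsQ_pth _ _) (dsQ_pth _ _)) hΛ).trans
      (EQ_four_le hb d1 hs d3 d4 d5 d6 (Or.inl q1) (Or.inr q2) (Or.inl q3) (Or.inr q4) q0)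
  · obtain ⟨q1, q2, q3, q4, q0⟩ := q_sub (hne d1) (hne hs) (hne d3) (hne d4) (hne d5) (hne d6)
      (q := fun z => qs A A' z - qs B B' z) rfl
    exact (CT_le_EQ hb (dsQ_sub (dsQ_pth _ _) (dsQ_pth _ _)) hΛ).trans
      (EQ_four_le hb d1 hs d3 d4 d5 d6 (Or.inl q1) (Or.inr q2) (Or.inr q3) (Or.inl q4) q0)

/-- **the ring bound for a general pair** -/
theorem CT_pairG (hb : 0 ≤ b) (h : H817.IsPath p q d.1 d.2 L η) (hp : p = cz (M + 2) P0)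
    (hq : q = cz (M + 2) (P0 + d)) {ρ s : ℕ} (hρd : 4 * ρ ≤ XY.nm d)
    (hdN : 4 * XY.nm d ≤ M + 2) {u v : ℤ × ℤ} (hu : u ∈ box ρ)
    (hv : v ∈ box ρ) (hs : 2 * s + 2 ≤ XY.nm (u - v)) :
    CT (M + 2) b (Dt (M + 2) η u + Dt (M + 2) η v) ≤ mm b s ^ 4 ∧
      CT (M + 2) b (Dt (M + 2) η u - Dt (M + 2) η v) ≤ mm b s ^ 4 := by
  rw [XY.mem_box_iff_nm] at hu hv
  have hsρ := s_le hu hv hs
  obtain ⟨⟨u1, u2⟩, u3, u4⟩ := nm_lin hu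
  obtain ⟨⟨v1, v2⟩, v3, v4⟩ := nm_lin hv
  obtain ⟨⟨d1, d2⟩, d3, d4⟩ := nm_lin (le_refl (XY.nm d))
  have hρ1 : 1 ≤ ρ := by omega
  obtain ⟨a, a1, ha, ha1, f1, f3⟩ := crdG u1 u2 hρd hdN rfl hρ1 d1 d2
  obtain ⟨c, c1, hc, hc1, f2, f4⟩ := crdG u3 u4 hρd hdN rfl hρ1 d3 d4
  obtain ⟨a', a1', ha', ha1', f5, f7⟩ := crdG v1 v2 hρd hdN rfl hρ1 d1 d2
  obtain ⟨c', c1', hc', hc1', f6, f8⟩ := crdG v3 v4 hρd hdN rfl hρ1 d3 d4
  have b1 : a < M + 2 := by clear * - f1; omega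
  have b2 : c < M + 2 := by clear * - f2; omega
  have b3 : a1 < M + 2 := by clear * - f3; omega
  have b4 : c1 < M + 2 := by clear * - f4; omega
  have b5 : a' < M + 2 := by clear * - f5; omega
  have b6 : c' < M + 2 := by clear * - f6; omega
  have b7 : a1' < M + 2 := by clear * - f7; omega
  have b8 : c1' < M + 2 := by clear * - f8; omega
  obtain ⟨m1, m2⟩ := CT_midG (b := b) h hp hq ha hc ha1 hc1 ha' hc' ha1' hc1' b1 b2 b3 b4 b5 b6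
    b7 b8
  rw [m1, m2]
  have e : ((a : ℤ), (c : ℤ)) - ((a' : ℤ), (c' : ℤ)) = u - v := by
    rw [Prod.mk_sub_mk, ha, ha', hc, hc']
    ext
    · simp
    · simp
  refine CT_pairG0 hb b1 b2 b3 b4 b5 b6 b7 b8 f1 f2 f3 f4 f5 f6 f7 f8 hsρ hρd ?_ ?_ ?_ ?_
  · rw [ha1, hc1, ha, hc]
    rfl
  · rw [ha1', hc1', ha', hc']
    rfl
  · rw [e]
    exact hs
  · rw [e]
    have h2 := XY.nm_add_le u (-v)
    rw [XY.nm_neg, ← sub_eq_add_neg] at h2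
    clear * - h2 hu hv
    omega

/-- trivial bound, general pair -/
theorem CT_pairG_one (hb : 0 ≤ b) (h : H817.IsPath p q d.1 d.2 L η) (hp : p = cz (M + 2) P0)
    (hq : q = cz (M + 2) (P0 + d)) {ρ : ℕ} (hρ : 1 ≤ ρ) (hρd : 4 * ρ ≤ XY.nm d)
    (hdN : 4 * XY.nm d ≤ M + 2) {u v : ℤ × ℤ} (hu : u ∈ box ρ) (hv : v ∈ box ρ) :
    CT (M + 2) b (Dt (M + 2) η u + Dt (M + 2) η v) ≤ 1 ∧
      CT (M + 2) b (Dt (M + 2) η u - Dt (M + 2) η v) ≤ 1 := by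
  rw [XY.mem_box_iff_nm] at hu hv
  obtain ⟨⟨u1, u2⟩, u3, u4⟩ := nm_lin hu
  obtain ⟨⟨v1, v2⟩, v3, v4⟩ := nm_lin hv
  obtain ⟨⟨d1, d2⟩, d3, d4⟩ := nm_lin (le_refl (XY.nm d))
  obtain ⟨a, a1, ha, ha1, f1, f3⟩ := crdG u1 u2 hρd hdN rfl hρ d1 d2
  obtain ⟨c, c1, hc, hc1, f2, f4⟩ := crdG u3 u4 hρd hdN rfl hρ d3 d4
  obtain ⟨a', a1', ha', ha1', f5, f7⟩ := crdG v1 v2 hρd hdN rfl hρ d1 d2
  obtain ⟨c', c1', hc', hc1', f6, f8⟩ := crdG v3 v4 hρd hdN rfl hρ d3 d4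
  have b1 : a < M + 2 := by clear * - f1; omega
  have b2 : c < M + 2 := by clear * - f2; omega
  have b3 : a1 < M + 2 := by clear * - f3; omega
  have b4 : c1 < M + 2 := by clear * - f4; omega
  have b5 : a' < M + 2 := by clear * - f5; omega
  have b6 : c' < M + 2 := by clear * - f6; omega
  have b7 : a1' < M + 2 := by clear * - f7; omega
  have b8 : c1' < M + 2 := by clear * - f8; omega
  obtain ⟨m1, m2⟩ := CT_midG (b := b) h hp hq ha hc ha1 hc1 ha' hc' ha1' hc1' b1 b2 b3 b4 b5 b6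
    b7 b8
  rw [m1, m2]
  exact ⟨(CT_le_EQ hb (dsQ_add (dsQ_pth _ _) (dsQ_pth _ _)) (Finset.empty_subset _)).trans
      (EQ_le_one b _ _),
    (CT_le_EQ hb (dsQ_sub (dsQ_pth _ _) (dsQ_pth _ _)) (Finset.empty_subset _)).trans
      (EQ_le_one b _ _)⟩

end Vale.Agent.P159.H253.Sm
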