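import Vale.Agent.P159.H253.Sm7
import Vale.Agent.P159.H552.Tl4

/-!
P159 (helper253), smeared Ginibre, part 8: the average in the letters of 552 (`SS`, `CX`).
-/

open MeasureTheory Filter Topology Finset
open scoped BigOperators

set_option linter.all false

namespace Vale.Agent.P159.H253.Sm

open Vale.Agent.P159 Vale.Agent.P159.TM.H331 Vale.Agent.P159.H773 Vale.Agent.P159.H253.Rec
open Vale.Agent.P159.H770 (wTD Ed wTD_eq)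
open Vale.Agent.P159.H883 (CT Zp CT_pos)
open Vale.Agent.P159.TM.Spec (V)
open Vale.Agent.P159.H552.Sm (SS CX)

variable {b α C1 : ℝ} {N : ℕ} [NeZero N]

/-- `CX` of a dislocation with any real part -/
lemma CX_eq (x₀ : V N) (η : Ed N → ℤ) (φ : V N → ℝ) : CX (wTD N b) x₀ (η, φ) = CT N b η := by
  unfold CX CT
  have h1 := Zp_site (fun h n => wTD_add (b := b) η h n) (0 : V N) x₀
  have h2 := Zp_site (fun h n => wTD_add (b := b) (0 : Ed N → ℤ) h n) (0 : V N) x₀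
  simp only
  rw [h1, h2]

/-- the smeared family: uniform weights on the translations by `u ∈ box ρ` -/
noncomputable def wU (ρ : ℕ) : {u : ℤ × ℤ // u ∈ box ρ} → ℝ := fun _ => ((box ρ).card : ℝ)⁻¹

/-- the vectors of the smeared family -/
def dU (N : ℕ) [NeZero N] (η : Ed N → ℤ) (ρ : ℕ) (φ : ℤ × ℤ → V N → ℝ) :
    {u : ℤ × ℤ // u ∈ box ρ} → (Ed N → ℤ) × (V N → ℝ) := fun u => (Dt N η u.1, φ u.1)

lemma card_box_pos (ρ : ℕ) : (0 : ℝ) < (box ρ).card := by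
  rw [card_box]
  positivity

lemma wU_nonneg (ρ : ℕ) (u : {u : ℤ × ℤ // u ∈ box ρ}) : 0 ≤ wU ρ u := by
  unfold wU
  positivity

lemma wU_sum (ρ : ℕ) : ∑ u, wU ρ u = 1 := by
  unfold wU
  rw [Finset.sum_const, Finset.card_univ, Fintype.card_coe, nsmul_eq_mul]
  exact mul_inv_cancel₀ (card_box_pos ρ).ne'

lemma SS_eq (x₀ : V N) (η : Ed N → ℤ) (ρ : ℕ) (φ : ℤ × ℤ → V N → ℝ) :
    SS (wTD N b) x₀ (wU ρ) (dU N η ρ φ) = (((box ρ).card : ℝ)⁻¹) ^ 2 *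
      ∑ u ∈ box ρ, ∑ v ∈ box ρ,
        CT N b (Dt N η u + Dt N η v) * CT N b (Dt N η u - Dt N η v) := by
  unfold SS
  have e : ∀ u v : {u : ℤ × ℤ // u ∈ box ρ}, wU ρ u * wU ρ v *
      (CX (wTD N b) x₀ (dU N η ρ φ u + dU N η ρ φ v) *
        CX (wTD N b) x₀ (dU N η ρ φ u - dU N η ρ φ v)) =
      (((box ρ).card : ℝ)⁻¹) ^ 2 * (CT N b (Dt N η u.1 + Dt N η v.1) *
        CT N b (Dt N η u.1 - Dt N η v.1)) := by
    intro u v
    have e1 : dU N η ρ φ u + dU N η ρ φ v = (Dt N η u.1 + Dt N η v.1, φ u.1 + φ v.1) := rfl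
    have e2 : dU N η ρ φ u - dU N η ρ φ v = (Dt N η u.1 - Dt N η v.1, φ u.1 - φ v.1) := rfl
    rw [e1, e2, CX_eq, CX_eq]
    unfold wU
    ring
  simp only [e]
  rw [Finset.mul_sum, ← Finset.sum_coe_sort (box ρ)]
  refine Finset.sum_congr rfl fun u _ => ?_
  rw [Finset.mul_sum, ← Finset.sum_coe_sort (box ρ)]

/-- **THE AVERAGE in 552's letters** -/
theorem SS_le (hb : 0 < b) (hα : 1 / 4 ≤ α) (hα2 : α < 1 / 2) (hC1 : 0 ≤ C1) :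
    ∃ K : ℝ, 1 ≤ K ∧ ∀ (N : ℕ) [NeZero N] (L ρ : ℕ) (η : Ed N → ℤ) (p q : V N) (d : ℤ × ℤ)
      (R c : ℝ) (x₀ : V N) (φ : ℤ × ℤ → V N → ℝ), 1 ≤ ρ → 4 * ρ ≤ XY.nm d → 4 * XY.nm d ≤ N →
      H817.IsPath p q d.1 d.2 L η → q = p + cz N d → 0 < R → 0 ≤ c →
      (∀ s : ℕ, 1 ≤ s → s ≤ ρ → ua b s ≤ C1 * (R / s) ^ α * c) →
      SS (wTD N b) x₀ (wU ρ) (dU N η ρ φ) ≤ K * (R / ρ) ^ (4 * α) * c ^ 4 := by
  obtain ⟨K, hK, h⟩ := avg_pairG (α := α) (C1 := C1) hb hα hα2 hC1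
  refine ⟨K, hK, fun N _ L ρ η p q d R c x₀ φ h1 h2 h3 h4 h5 h6 h7 h8 => ?_⟩
  have h9 := h N L ρ η p q d R c h1 h2 h3 h4 h5 h6 h7 h8
  have hc := card_box_pos ρ
  rw [SS_eq]
  calc (((box ρ).card : ℝ)⁻¹) ^ 2 * ∑ u ∈ box ρ, ∑ v ∈ box ρ,
        CT N b (Dt N η u + Dt N η v) * CT N b (Dt N η u - Dt N η v) ≤
      (((box ρ).card : ℝ)⁻¹) ^ 2 * (K * (R / ρ) ^ (4 * α) * c ^ 4 * ((box ρ).card : ℝ) ^ 2) :=
        mul_le_mul_of_nonneg_left h9 (by positivity)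
    _ = K * (R / ρ) ^ (4 * α) * c ^ 4 := by
        field_simp

end Vale.Agent.P159.H253.Sm
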