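import Vale.Agent.P159.H253.Sm8

/-!
P159 (helper253), smeared Ginibre, part 9: the average for every far pair, from the price bound
`RecAt` at one scale and a lower bound of the two point function of the pair.
-/

open MeasureTheory Filter Topology Finset
open scoped BigOperators

set_option linter.all false

namespace Vale.Agent.P159.H253.Sm

open Vale.Agent.P159 Vale.Agent.P159.TM.H331 Vale.Agent.P159.H773 Vale.Agent.P159.H253.Rec
open Vale.Agent.P159.H770 (wTD Ed wTD_eq)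
open Vale.Agent.P159.H883 (CT Zp CT_pos)
open Vale.Agent.P159.TM.Spec (V)
open Vale.Agent.P159.H552.Sm (SS CX)

variable {b α C1 : ℝ} {N : ℕ} [NeZero N]

/-- the displacement of a pair of sites of the torus -/
def dsp (p q : V N) : ℤ × ℤ := (H817.v1 p q, H817.v2 p q)

lemma dsp_spec (p q : V N) : q = p + cz N (dsp p q) := by
  unfold cz dsp H817.v1 H817.v2
  simp only
  rw [ZMod.coe_valMinAbs, ZMod.coe_valMinAbs]
  show q = p + (q - p)
  abel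

lemma nm_dsp (p q : V N) : XY.nm (dsp p q) = H817.sz (q - p) := rfl

/-- **THE AVERAGE FOR A FAR PAIR** -/
theorem SS_far (hb : 0 < b) (hα : 1 / 4 ≤ α) (hα2 : α < 1 / 2) (hC1 : 0 ≤ C1) :
    ∃ K : ℝ, 1 ≤ K ∧ ∀ (N : ℕ) [NeZero N] (L ρ R : ℕ) (η : Ed N → ℤ) (p q x₀ : V N)
      (φ : ℤ × ℤ → V N → ℝ) (φ₀ : V N → ℝ) (k : ℝ), RecAt b α C1 R →
      R ≤ 2 * H817.sz (q - p) → H817.sz (q - p) ≤ 4 * R → 16 * R ≤ N →
      H817.IsPath p q (H817.v1 p q) (H817.v2 p q) L η → 1 ≤ ρ → 8 * ρ ≤ R → 0 < k →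
      k * ga b R ≤ CT N b η →
      SS (wTD N b) x₀ (wU ρ) (dU N η ρ φ) ≤
        K / k ^ 4 * ((R : ℝ) / ρ) ^ (4 * α) * CX (wTD N b) x₀ (η, φ₀) ^ 4 := by
  obtain ⟨K, hK, h⟩ := SS_le (α := α) (C1 := C1) hb hα hα2 hC1
  refine ⟨K, hK, fun N _ L ρ R η p q x₀ φ φ₀ k hr h1 h2 h3 h4 h5 h6 h7 h8 => ?_⟩
  have hR : (0 : ℝ) < R := by
    have : 0 < R := by omega
    exact_mod_cast this
  have h9 := h N L ρ η p q (dsp p q) R (ga b R) x₀ φ h5 (by rw [nm_dsp]; omega)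
    (by rw [nm_dsp]; omega) h4 (dsp_spec p q) hR hr.1.le (fun s hs1 hs2 => hr.2 s hs1 (by omega))
  rw [CX_eq]
  have hg : 0 < ga b R := hr.1
  have h10 : (k * ga b R) ^ 4 ≤ CT N b η ^ 4 :=
    pow_le_pow_left₀ (mul_nonneg h7.le hg.le) h8 4
  have hr0 : 0 ≤ ((R : ℝ) / ρ) ^ (4 * α) := Real.rpow_nonneg (by positivity) _
  calc SS (wTD N b) x₀ (wU ρ) (dU N η ρ φ) ≤ K * ((R : ℝ) / ρ) ^ (4 * α) * ga b R ^ 4 := h9
    _ = K / k ^ 4 * ((R : ℝ) / ρ) ^ (4 * α) * (k * ga b R) ^ 4 := by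
        field_simp
    _ ≤ _ := mul_le_mul_of_nonneg_left h10 (by positivity)

/-- the same as `exp (2 K0)` -/
theorem SS_far_exp (hb : 0 < b) (hα : 1 / 4 ≤ α) (hα2 : α < 1 / 2) (hC1 : 0 ≤ C1) {k : ℝ}
    (hk : 0 < k) :
    ∃ C : ℝ, 0 ≤ C ∧ ∀ (N : ℕ) [NeZero N] (L ρ R : ℕ) (η : Ed N → ℤ) (p q x₀ : V N)
      (φ : ℤ × ℤ → V N → ℝ) (φ₀ : V N → ℝ), RecAt b α C1 R →
      R ≤ 2 * H817.sz (q - p) → H817.sz (q - p) ≤ 4 * R → 16 * R ≤ N →
      H817.IsPath p q (H817.v1 p q) (H817.v2 p q) L η → 1 ≤ ρ → 8 * ρ ≤ R →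
      k * ga b R ≤ CT N b η →
      SS (wTD N b) x₀ (wU ρ) (dU N η ρ φ) ≤
        Real.exp (2 * (Real.log ((R : ℝ) / ρ) + C)) * CX (wTD N b) x₀ (η, φ₀) ^ 4 := by
  obtain ⟨K, hK, h⟩ := SS_far (α := α) (C1 := C1) hb hα hα2 hC1
  refine ⟨max 0 (Real.log (K / k ^ 4) / 2), le_max_left _ _,
    fun N _ L ρ R η p q x₀ φ φ₀ hr h1 h2 h3 h4 h5 h6 h8 => ?_⟩
  refine (h N L ρ R η p q x₀ φ φ₀ k hr h1 h2 h3 h4 h5 h6 hk h8).trans ?_
  have hρ : (0 : ℝ) < ρ := by exact_mod_cast h5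
  have hR : (0 : ℝ) < R := by
    have : 0 < R := by omega
    exact_mod_cast this
  have hle : (1 : ℝ) ≤ (R : ℝ) / ρ := by
    rw [one_le_div hρ]
    have : ρ ≤ R := by omega
    exact_mod_cast this
  have e1 : ((R : ℝ) / ρ) ^ (4 * α) ≤ Real.exp (2 * Real.log ((R : ℝ) / ρ)) := by
    rw [Real.rpow_def_of_pos (by positivity)]
    refine Real.exp_le_exp.2 ?_
    have := Real.log_nonneg hle
    nlinarith
  have e2 : K / k ^ 4 ≤ Real.exp (2 * max 0 (Real.log (K / k ^ 4) / 2)) := by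
    have hp : 0 < K / k ^ 4 := by positivity
    calc K / k ^ 4 = Real.exp (Real.log (K / k ^ 4)) := (Real.exp_log hp).symm
      _ ≤ _ := Real.exp_le_exp.2 (by
        have := le_max_right (0 : ℝ) (Real.log (K / k ^ 4) / 2)
        linarith)
  refine mul_le_mul_of_nonneg_right ?_ (by positivity)
  rw [mul_add, Real.exp_add, mul_comm]
  exact mul_le_mul e1 e2 (by positivity) (Real.exp_pos _).le

end Vale.Agent.P159.H253.Sm
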