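import Vale.Agent.P159.H282.Sq

/-!
# Discrete Stokes formula for pyramids

The `ℓ¹` pyramid of radius `r` centred at a lattice site, its field of currents and the circulation
of a gradient against it.
-/

set_option linter.all false

open scoped BigOperators

namespace Vale.Agent.P159.UJ.H253

open H282

/-- `|z₁ + 1/2| + |z₂ + 1/2|`, an integer `≥ 1`, the `ℓ¹` distance of the centre of the unit cell `z`
from the origin -/
def nn (z : ℤ × ℤ) : ℤ := (if 0 ≤ z.1 then z.1 else -1 - z.1) + (if 0 ≤ z.2 then z.2 else -1 - z.2) + 1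

theorem nn_pos (z : ℤ × ℤ) : 1 ≤ nn z := by
  unfold nn; split_ifs <;> omega

/-- the pyramid function -/
def psi (r : ℕ) (z : ℤ × ℤ) : ℤ := max 0 (r - nn z)

/-- the sign -/
def sg (k : ℤ) : ℤ := if 0 ≤ k then 1 else -1

/-- horizontal component of the pyramid field -/
def ph (r : ℕ) (z : ℤ × ℤ) : ℤ := if nn z < r then sg z.2 else 0

/-- vertical component of the pyramid field -/
def pv (r : ℕ) (z : ℤ × ℤ) : ℤ := if nn z < r then - sg z.1 else 0

/-- the pyramid field with apex `q` -/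
noncomputable def pyr (r : ℕ) (q : ℤ × ℤ) : Fld := fun t z =>
  if t.1 then ((pv r (z - q) : ℤ) : ℝ) else ((ph r (z - q) : ℤ) : ℝ)

theorem abs_sg (k : ℤ) : |sg k| = 1 := by unfold sg; split_ifs <;> rfl

theorem abs_ph (r : ℕ) (z : ℤ × ℤ) : |ph r z| ≤ 1 := by
  unfold ph; split_ifs
  · rw [abs_sg]
  · simp

theorem abs_pv (r : ℕ) (z : ℤ × ℤ) : |pv r z| ≤ 1 := by
  unfold pv; split_ifs
  · rw [abs_neg, abs_sg]
  · simp

theorem abs_pyr (r : ℕ) (q : ℤ × ℤ) (t : Bool × Bool) (z : ℤ × ℤ) : |pyr r q t z| ≤ 1 := by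
  unfold pyr
  split_ifs
  · exact_mod_cast abs_pv r (z - q)
  · exact_mod_cast abs_ph r (z - q)

/-- the cut cells -/
def rim (r : ℕ) (z : ℤ × ℤ) : ℤ := if nn z = r then 1 else 0

/-- horizontal bonds -/
theorem err_h (r : ℕ) (z : ℤ × ℤ) :
    |(ph r z + ph r (z - (0, 1))) - 2 * (psi r (z - (0, 1)) - psi r z)| ≤
      rim r z + rim r (z - (0, 1)) := by
  have h1 := nn_pos z
  have h2 := nn_pos (z - (0, 1))
  obtain ⟨z1, z2⟩ := z
  simp only [Prod.mk_sub_mk, sub_zero] at h1 h2 ⊢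
  unfold ph psi rim sg
  simp only
  have e : (0 ≤ z2 ∧ 0 ≤ z2 - 1 ∧ nn (z1, z2) = nn (z1, z2 - 1) + 1) ∨
      (z2 = 0 ∧ nn (z1, z2) = nn (z1, z2 - 1)) ∨
      (z2 < 0 ∧ nn (z1, z2 - 1) = nn (z1, z2) + 1) := by
    unfold nn
    simp only
    split_ifs <;> omega
  rcases e with ⟨a1, a2, a3⟩ | ⟨a1, a3⟩ | ⟨a1, a3⟩
  · rw [if_pos a1, if_pos a2]
    rw [a3] at h1 ⊢
    generalize nn (z1, z2 - 1) = m at *
    rw [abs_le]
    split_ifs <;> omega
  · subst a1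
    have b1 : ¬ (0 : ℤ) ≤ 0 - 1 := by norm_num
    rw [if_pos (le_refl (0 : ℤ)), if_neg b1]
    rw [a3]
    generalize nn (z1, 0 - 1) = m at *
    rw [abs_le]
    split_ifs <;> omega
  · have b1 : ¬ 0 ≤ z2 := by omega
    have b2 : ¬ 0 ≤ z2 - 1 := by omega
    rw [if_neg b1, if_neg b2]
    rw [a3]
    generalize nn (z1, z2) = m at *
    rw [abs_le]
    split_ifs <;> omega

/-- vertical bonds -/
theorem err_v (r : ℕ) (z : ℤ × ℤ) :
    |(pv r z + pv r (z - (1, 0))) - 2 * (psi r z - psi r (z - (1, 0)))| ≤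
      rim r z + rim r (z - (1, 0)) := by
  have h1 := nn_pos z
  have h2 := nn_pos (z - (1, 0))
  obtain ⟨z1, z2⟩ := z
  simp only [Prod.mk_sub_mk, sub_zero] at h1 h2 ⊢
  unfold pv psi rim sg
  simp only
  have e : (0 ≤ z1 ∧ 0 ≤ z1 - 1 ∧ nn (z1, z2) = nn (z1 - 1, z2) + 1) ∨
      (z1 = 0 ∧ nn (z1, z2) = nn (z1 - 1, z2)) ∨
      (z1 < 0 ∧ nn (z1 - 1, z2) = nn (z1, z2) + 1) := by
    unfold nn
    simp only
    split_ifs <;> omega
  rcases e with ⟨a1, a2, a3⟩ | ⟨a1, a3⟩ | ⟨a1, a3⟩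
  · rw [if_pos a1, if_pos a2]
    rw [a3] at h1 ⊢
    generalize nn (z1 - 1, z2) = m at *
    rw [abs_le]
    split_ifs <;> omega
  · subst a1
    have b1 : ¬ (0 : ℤ) ≤ 0 - 1 := by norm_num
    rw [if_pos (le_refl (0 : ℤ)), if_neg b1]
    rw [a3]
    generalize nn (0 - 1, z2) = m at *
    rw [abs_le]
    split_ifs <;> omega
  · have b1 : ¬ 0 ≤ z1 := by omega
    have b2 : ¬ 0 ≤ z1 - 1 := by omega
    rw [if_neg b1, if_neg b2]
    rw [a3]
    generalize nn (z1, z2) = m at *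
    rw [abs_le]
    split_ifs <;> omega

end Vale.Agent.P159.UJ.H253
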