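import Vale.Agent.P159.H253.Loc

/-!
# The tests of a vortex
-/

set_option linter.all false

open MeasureTheory
open scoped BigOperators

namespace Vale.Agent.P159.UJ.H253

open H282

/-! ### levels of the squares -/

/-- the level of the squares of the tests of scale `κ` -/
def lam (κ : ℕ) : ℕ := Nat.findGreatest (fun l => (l + 1) ^ 2 * 2 ^ l ≤ 10 * 2 ^ κ) κ

theorem lam_le (κ : ℕ) : (lam κ + 1) ^ 2 * 2 ^ lam κ ≤ 10 * 2 ^ κ := by
  have h := Nat.findGreatest_spec (P := fun l => (l + 1) ^ 2 * 2 ^ l ≤ 10 * 2 ^ κ) (m := 0)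
    (n := κ) (Nat.zero_le _) (by
      have : 1 ≤ 2 ^ κ := Nat.one_le_two_pow
      omega)
  exact h

theorem lam_lt {κ : ℕ} (hκ : 4 ≤ κ) : lam κ < κ := by
  have h1 : lam κ ≤ κ := Nat.findGreatest_le κ
  rcases lt_or_eq_of_le h1 with h | h
  · exact h
  · exfalso
    have h2 := lam_le κ
    rw [h] at h2
    have h3 : 25 ≤ (κ + 1) ^ 2 := by nlinarith
    have h4 : 0 < 2 ^ κ := by positivity
    nlinarith

theorem lam_gt {κ : ℕ} (hκ : 4 ≤ κ) : 10 * 2 ^ κ < (lam κ + 2) ^ 2 * 2 ^ (lam κ + 1) := by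
  have h1 := lam_lt hκ
  have h2 : ¬ ((lam κ + 1) + 1) ^ 2 * 2 ^ (lam κ + 1) ≤ 10 * 2 ^ κ :=
    Nat.findGreatest_is_greatest (P := fun l => (l + 1) ^ 2 * 2 ^ l ≤ 10 * 2 ^ κ)
      (Nat.lt_succ_self _) h1
  exact not_le.1 h2

/-- every value of the level is taken at most three times -/
theorem lam_fiber (N k : ℕ) : ((Finset.Icc 4 N).filter fun κ => lam κ = k).card ≤ 3 := by
  classical
  rcases ((Finset.Icc 4 N).filter fun κ => lam κ = k).eq_empty_or_nonempty with h | h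
  · rw [h]; simp
  · obtain ⟨κ0, h1, h2⟩ := Finset.exists_min_image _ id h
    refine (Finset.card_le_card (t := Finset.Icc κ0 (κ0 + 2)) ?_).trans
      (by rw [Nat.card_Icc]; omega)
    intro κ hκ
    have h3 : κ0 ≤ κ := h2 κ hκ
    rw [Finset.mem_filter, Finset.mem_Icc] at h1 hκ
    obtain ⟨⟨h4, -⟩, h5⟩ := h1
    obtain ⟨⟨h6, -⟩, h7⟩ := hκ
    rw [Finset.mem_Icc]
    refine ⟨h3, ?_⟩
    by_contra hc
    push Not at hc
    have e1 := lam_gt h6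
    have e2 := lam_le κ0
    rw [h7] at e1
    rw [h5] at e2
    have e3 : 2 ^ 3 * 2 ^ κ0 ≤ 2 ^ κ := by
      rw [← pow_add]
      exact Nat.pow_le_pow_right (by norm_num) (by omega)
    have e4 : (k + 2) ^ 2 ≤ 4 * (k + 1) ^ 2 := by nlinarith
    have e5 : (k + 2) ^ 2 * 2 ^ (k + 1) ≤ 8 * ((k + 1) ^ 2 * 2 ^ k) := by
      rw [pow_succ 2 k]
      nlinarith [Nat.mul_le_mul_right (2 ^ k) e4]
    omega

/-- sums over the scales of the tests of functions of the level -/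
theorem sum_lam {N n : ℕ} (hN : N ≤ n) {f : ℕ → ℝ} (hf : ∀ k, 0 ≤ f k) :
    ∑ κ ∈ Finset.Icc 4 N, f (lam κ) ≤ 3 * ∑ k ∈ Finset.range n, f k := by
  classical
  have h1 : ∑ κ ∈ Finset.Icc 4 N, f (lam κ) = ∑ k ∈ Finset.range n,
      ∑ κ ∈ (Finset.Icc 4 N).filter (fun κ => lam κ = k), f (lam κ) := by
    rw [Finset.sum_fiberwise_of_maps_to]
    intro κ hκ
    rw [Finset.mem_Icc] at hκ
    rw [Finset.mem_range]
    have := lam_lt hκ.1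
    omega
  rw [h1, Finset.mul_sum]
  refine Finset.sum_le_sum fun k _ => ?_
  have h2 : ∑ κ ∈ (Finset.Icc 4 N).filter (fun κ => lam κ = k), f (lam κ) =
      (((Finset.Icc 4 N).filter fun κ => lam κ = k).card : ℝ) * f k := by
    rw [← nsmul_eq_mul, ← Finset.sum_const]
    refine Finset.sum_congr rfl fun κ hκ => ?_
    rw [(Finset.mem_filter.1 hκ).2]
  rw [h2]
  refine mul_le_mul_of_nonneg_right ?_ (hf k)
  exact_mod_cast lam_fiber N k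

/-- side of the squares of the tests of scale `κ` -/
def tt (l0 κ : ℕ) : ℕ := l0 * 2 ^ lam κ

/-- number of squares per radius -/
def mm (a κ : ℕ) : ℕ := 2 ^ (a + κ - lam κ)

theorem tt_mm (l0 a : ℕ) {κ : ℕ} (hκ : 4 ≤ κ) : tt l0 κ * mm a κ = l0 * 2 ^ a * 2 ^ κ := by
  unfold tt mm
  have h := lam_lt hκ
  rw [mul_assoc, ← pow_add, mul_assoc, ← pow_add]
  congr 2
  omega

theorem mm_ge (a : ℕ) {κ : ℕ} (hκ : 4 ≤ κ) : 2 ^ a ≤ mm a κ := by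
  unfold mm
  have h := lam_lt hκ
  exact Nat.pow_le_pow_right (by norm_num) (by omega)

theorem mm_inv (a : ℕ) {κ : ℕ} (hκ : 4 ≤ κ) :
    1 / (mm a κ : ℝ) ≤ 10 / 2 ^ a * (1 / ((lam κ : ℝ) + 1) ^ 2) := by
  have h := lam_lt hκ
  have h1 := lam_le κ
  have h2 : ((lam κ : ℝ) + 1) ^ 2 * 2 ^ lam κ ≤ 10 * 2 ^ κ := by exact_mod_cast h1
  have h3 : (mm a κ : ℝ) = 2 ^ a * 2 ^ (κ - lam κ) := by
    unfold mm
    rw [← pow_add]
    push_cast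
    congr 1
    omega
  have h4 : (2 : ℝ) ^ κ = 2 ^ lam κ * 2 ^ (κ - lam κ) := by
    rw [← pow_add]; congr 1; omega
  rw [h4] at h2
  have h5 : ((lam κ : ℝ) + 1) ^ 2 ≤ 10 * 2 ^ (κ - lam κ) := by
    have h6 : (0 : ℝ) < 2 ^ lam κ := by positivity
    nlinarith only [h2, h6]
  rw [h3]
  have e : 10 / 2 ^ a * (1 / ((lam κ : ℝ) + 1) ^ 2) = 1 / (2 ^ a * (((lam κ : ℝ) + 1) ^ 2 / 10)) := by
    field_simp
  rw [e]
  apply one_div_le_one_div_of_le (by positivity)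
  apply mul_le_mul_of_nonneg_left _ (by positivity)
  linarith only [h5]

/-! ### positions -/

/-- offset of the vortex -/
def XX (s i : ℕ) : ℤ := ((s / 2 + s * i : ℕ) : ℤ)

/-- grid spacing of the tests of scale `κ` -/
def gg (s κ : ℕ) : ℤ := ((s * 2 ^ (κ - 2) : ℕ) : ℤ)

/-- the vortex relative to the apex of a test -/
def dd (s κ : ℕ) (w : ℕ × ℕ) (u : ℤ × ℤ) : ℤ × ℤ :=
  (XX s w.1 - gg s κ * u.1, XX s w.2 - gg s κ * u.2)

/-- the apex of a test -/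
def apx (s n κ : ℕ) (u : ℤ × ℤ) : ℤ × ℤ :=
  (((s * 2 ^ (n - 1) : ℕ) : ℤ) + gg s κ * u.1, ((s * 2 ^ (n - 1) : ℕ) : ℤ) + gg s κ * u.2)

theorem qq0_apx (s n κ : ℕ) (w : ℕ × ℕ) (u : ℤ × ℤ) :
    H529.qq0 s n w.1 w.2 - apx s n κ u = dd s κ w u := by
  unfold H529.qq0 H529.cw apx dd XX cor
  apply Prod.ext
  · simp only [Prod.fst_sub]; push_cast; ring
  · simp only [Prod.snd_sub]; push_cast; ring

/-- candidates for the tests -/
noncomputable def bxu (s κ : ℕ) (w : ℕ × ℕ) : Finset (ℤ × ℤ) :=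
  Finset.Icc (XX s w.1 / gg s κ - 33) (XX s w.1 / gg s κ + 33) ×ˢ
    Finset.Icc (XX s w.2 / gg s κ - 33) (XX s w.2 / gg s κ + 33)

theorem bxu_card (s κ : ℕ) (w : ℕ × ℕ) : (bxu s κ w).card = 4489 := by
  unfold bxu
  rw [Finset.card_product, Int.card_Icc, Int.card_Icc]
  have h : ∀ x : ℤ, (x + 33 + 1 - (x - 33)).toNat = 67 := by intro x; omega
  rw [h, h]

theorem gg_pos {s κ : ℕ} (hs : 1 ≤ s) : 1 ≤ gg s κ := by
  unfold gg
  have : 1 ≤ s * 2 ^ (κ - 2) := Nat.mul_pos hs (by positivity)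
  exact_mod_cast this

theorem cand {X g u : ℤ} (hg : 1 ≤ g) (h : n1 (X - g * u) < 32 * g + 1) :
    X / g - 33 ≤ u ∧ u ≤ X / g + 33 := by
  obtain ⟨h1, h2⟩ := n1_lt h
  have h3 := Int.emod_add_mul_ediv X g
  have h4 := Int.emod_nonneg X (show g ≠ 0 by omega)
  have h5 := Int.emod_lt_of_pos X (show 0 < g by omega)
  constructor
  · by_contra hc
    have h6 : u + 1 ≤ X / g - 33 := by omega
    have h7 := mul_le_mul_of_nonneg_left h6 (show 0 ≤ g by omega)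
    linarith
  · by_contra hc
    have h6 : X / g + 33 + 1 ≤ u := by omega
    have h7 := mul_le_mul_of_nonneg_left h6 (show 0 ≤ g by omega)
    linarith

theorem mem_bxu {s κ : ℕ} (hs : 1 ≤ s) {w : ℕ × ℕ} {u : ℤ × ℤ}
    (h : nn (dd s κ w u) ≤ 32 * gg s κ) : u ∈ bxu s κ w := by
  have hg := gg_pos (κ := κ) hs
  rw [nn_n1] at h
  have h1 := n1_nonneg (dd s κ w u).1
  have h2 := n1_nonneg (dd s κ w u).2
  unfold bxu
  rw [Finset.mem_product, Finset.mem_Icc, Finset.mem_Icc]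
  exact ⟨cand hg (by unfold dd at h h1 h2; simp only at h h1 h2; omega),
    cand hg (by unfold dd at h h1 h2; simp only at h h1 h2; omega)⟩

/-- the test is used by the vortex -/
def Use (s κ : ℕ) (w : ℕ × ℕ) (u : ℤ × ℤ) : Prop :=
  nn (dd s κ w u) ≤ gg s κ ∨ (9 * gg s κ ≤ nn (dd s κ w u) ∧ nn (dd s κ w u) ≤ 32 * gg s κ)

open Classical in
/-- the tests of a vortex -/
noncomputable def Qs (s n : ℕ) (w : ℕ × ℕ) : Finset ((_ : ℕ) × (ℤ × ℤ)) :=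
  (Finset.Icc 4 (n - 6)).sigma fun κ => (bxu s κ w).filter fun u => Use s κ w u

theorem mem_Qs {s n : ℕ} {w : ℕ × ℕ} {q : (_ : ℕ) × (ℤ × ℤ)} (hq : q ∈ Qs s n w) :
    (4 ≤ q.1 ∧ q.1 ≤ n - 6) ∧ Use s q.1 w q.2 := by
  classical
  unfold Qs at hq
  rw [Finset.mem_sigma, Finset.mem_Icc, Finset.mem_filter] at hq
  exact ⟨hq.1, hq.2.2⟩

theorem Qs_mem {s n : ℕ} (hs : 1 ≤ s) {w : ℕ × ℕ} {q : (_ : ℕ) × (ℤ × ℤ)}
    (h1 : 4 ≤ q.1 ∧ q.1 ≤ n - 6) (h2 : Use s q.1 w q.2) : q ∈ Qs s n w := by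
  classical
  unfold Qs
  rw [Finset.mem_sigma, Finset.mem_Icc, Finset.mem_filter]
  refine ⟨h1, mem_bxu hs ?_, h2⟩
  have hg := gg_pos (κ := q.1) hs
  rcases h2 with h2 | h2
  · omega
  · exact h2.2

theorem sum_Qs {s n : ℕ} {w : ℕ × ℕ} {f : ℕ → ℝ} (hf : ∀ κ ∈ Finset.Icc 4 (n - 6), 0 ≤ f κ) :
    ∑ q ∈ Qs s n w, f q.1 ≤ 4489 * ∑ κ ∈ Finset.Icc 4 (n - 6), f κ := by
  classical
  unfold Qs
  rw [Finset.sum_sigma, Finset.mul_sum]
  refine Finset.sum_le_sum fun κ hκ => ?_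
  show ∑ _u ∈ (bxu s κ w).filter fun u => Use s κ w u, f κ ≤ 4489 * f κ
  rw [Finset.sum_const, nsmul_eq_mul]
  refine mul_le_mul_of_nonneg_right ?_ (hf κ hκ)
  have h1 : ((bxu s κ w).filter fun u => Use s κ w u).card ≤ 4489 := by
    rw [← bxu_card s κ w]
    exact Finset.card_filter_le _ _
  exact_mod_cast h1

/-! ### location -/

theorem rho_gg (s : ℕ) {κ : ℕ} (hκ : 4 ≤ κ) : ((s * 2 ^ κ : ℕ) : ℤ) = 4 * gg s κ := by
  unfold gg
  have : 2 ^ κ = 4 * 2 ^ (κ - 2) := by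
    have h : κ = 2 + (κ - 2) := by omega
    conv_lhs => rw [h, pow_add]
    norm_num
  rw [this]
  push_cast
  ring

theorem Use.le {s κ : ℕ} (hs : 1 ≤ s) {w : ℕ × ℕ} {u : ℤ × ℤ} (h : Use s κ w u) :
    nn (dd s κ w u) ≤ 32 * gg s κ := by
  have hg := gg_pos (κ := κ) hs
  rcases h with h | h
  · omega
  · exact h.2

theorem XX_le {s n i : ℕ} (hs : 1 ≤ s) (hi : i < 2 ^ (n - 6)) :
    0 ≤ XX s i ∧ XX s i + 1 ≤ ((s * 2 ^ (n - 6) : ℕ) : ℤ) := by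
  unfold XX
  refine ⟨Int.natCast_nonneg _, ?_⟩
  have h1 : s * (i + 1) ≤ s * 2 ^ (n - 6) := Nat.mul_le_mul_left s hi
  have h2 : s / 2 + 1 ≤ s := by omega
  have h3 : s / 2 + s * i + 1 ≤ s * 2 ^ (n - 6) := by nlinarith
  exact_mod_cast h3

theorem big_eq (s : ℕ) {n : ℕ} (hn : 10 ≤ n) : s * 2 ^ n = 64 * (s * 2 ^ (n - 6)) ∧
    s * 2 ^ (n - 1) = 32 * (s * 2 ^ (n - 6)) := by
  constructor
  · have h : n = 6 + (n - 6) := by omega
    conv_lhs => rw [h, pow_add]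
    ring
  · have h : n - 1 = 5 + (n - 6) := by omega
    conv_lhs => rw [h, pow_add]
    ring

/-- **location of a test of a vortex** -/
theorem loc_Qs {l0 a n : ℕ} (hl : 1 ≤ l0) (ha : 1 ≤ a) (hn : 10 ≤ n) {w : ℕ × ℕ}
    (hw : w.1 < 2 ^ (n - 6) ∧ w.2 < 2 ^ (n - 6)) {q : (_ : ℕ) × (ℤ × ℤ)}
    (hq : q ∈ Qs (l0 * 2 ^ a) n w) :
    Loc (l0 * 2 ^ a * 2 ^ n) (tt l0 q.1 * mm a q.1) (H529.PP (l0 * 2 ^ a) w.1 w.2)
      (H529.qq0 (l0 * 2 ^ a) n w.1 w.2) (apx (l0 * 2 ^ a) n q.1 q.2) := by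
  obtain ⟨⟨k1, k2⟩, hu⟩ := mem_Qs hq
  rw [tt_mm l0 a k1]
  obtain ⟨s, hs⟩ : ∃ s, s = l0 * 2 ^ a := ⟨_, rfl⟩
  have hs1 : 1 ≤ s := by rw [hs]; exact Nat.mul_pos hl (by positivity)
  rw [← hs] at hu ⊢
  have hle := hu.le hs1
  have hd := qq0_apx s n q.1 w q.2
  obtain ⟨κ, u⟩ := q
  simp only at k1 k2 hu hle hd ⊢
  obtain ⟨E, hE⟩ : ∃ E : ℕ, E = s * 2 ^ (n - 6) := ⟨_, rfl⟩
  obtain ⟨b1, b2⟩ := big_eq s hn
  rw [← hE] at b1 b2
  have hρE : s * 2 ^ κ ≤ E := by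
    rw [hE]
    exact Nat.mul_le_mul_left s (Nat.pow_le_pow_right (by norm_num) k2)
  have hρg := rho_gg s k1
  obtain ⟨x0, x1⟩ := XX_le (n := n) hs1 hw.1
  obtain ⟨y0, y1⟩ := XX_le (n := n) hs1 hw.2
  rw [← hE] at x1 y1
  obtain ⟨ρ, hρ⟩ : ∃ ρ : ℕ, ρ = s * 2 ^ κ := ⟨_, rfl⟩
  rw [← hρ] at hρE hρg ⊢
  have hg1 := gg_pos (κ := κ) hs1
  rw [nn_n1] at hle
  have c1 := n1_nonneg (dd s κ w u).1
  have c2 := n1_nonneg (dd s κ w u).2
  obtain ⟨d1, d2⟩ := n1_lt (x := (dd s κ w u).1) (N := 8 * (ρ : ℤ)) (by omega)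
  obtain ⟨d3, d4⟩ := n1_lt (x := (dd s κ w u).2) (N := 8 * (ρ : ℤ)) (by omega)
  -- coordinates
  have p1 : (apx s n κ u).1 = 32 * (E : ℤ) + XX s w.1 - (dd s κ w u).1 := by
    unfold apx dd
    rw [b2]
    push_cast
    ring
  have p2 : (apx s n κ u).2 = 32 * (E : ℤ) + XX s w.2 - (dd s κ w u).2 := by
    unfold apx dd
    rw [b2]
    push_cast
    ring
  have z1 : (H529.qq0 s n w.1 w.2).1 = 32 * (E : ℤ) + XX s w.1 := by
    have := congrArg Prod.fst hd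
    rw [Prod.fst_sub, p1] at this
    linarith
  have z2 : (H529.qq0 s n w.1 w.2).2 = 32 * (E : ℤ) + XX s w.2 := by
    have := congrArg Prod.snd hd
    rw [Prod.snd_sub, p2] at this
    linarith
  have hctr : ctr (s * 2 ^ n) = 32 * (E : ℝ) + 1 / 2 := by
    rw [H529.ctr_eq (by omega)]
    have : (s : ℝ) * ((2 ^ (n - 1) : ℕ) : ℝ) = ((s * 2 ^ (n - 1) : ℕ) : ℝ) := by push_cast; ring
    rw [this, b2]
    push_cast
    ring
  have hLR : ((s * 2 ^ n : ℕ) : ℝ) = 64 * (E : ℝ) := by rw [b1]; push_cast; ring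
  have hE1 : 1 ≤ E := by
    rw [hE]
    exact Nat.mul_pos hs1 (by positivity)
  have hE1R : (1 : ℝ) ≤ E := by exact_mod_cast hE1
  have hρER : (ρ : ℝ) ≤ E := by exact_mod_cast hρE
  -- real bounds
  have rx0 : (0 : ℝ) ≤ (XX s w.1 : ℝ) := by exact_mod_cast x0
  have rx1 : (XX s w.1 : ℝ) + 1 ≤ E := by exact_mod_cast x1
  have ry0 : (0 : ℝ) ≤ (XX s w.2 : ℝ) := by exact_mod_cast y0
  have ry1 : (XX s w.2 : ℝ) + 1 ≤ E := by exact_mod_cast y1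
  have rd1 : -(8 * (ρ : ℝ)) ≤ ((dd s κ w u).1 : ℝ) := by exact_mod_cast d1
  have rd2 : ((dd s κ w u).1 : ℝ) ≤ 8 * (ρ : ℝ) := by exact_mod_cast d2.le
  have rd3 : -(8 * (ρ : ℝ)) ≤ ((dd s κ w u).2 : ℝ) := by exact_mod_cast d3
  have rd4 : ((dd s κ w u).2 : ℝ) ≤ 8 * (ρ : ℝ) := by exact_mod_cast d4.le
  have hpow : 2 ^ (n - 6) ≤ 2 ^ (n - 3) := Nat.pow_le_pow_right (by norm_num) (by omega)
  refine ⟨?_, ?_, ?_, ?_, ?_, ?_, ?_⟩
  · unfold Pos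
    rw [p1, p2, b1]
    push_cast
    refine ⟨?_, ?_, ?_, ?_⟩ <;> omega
  · rw [hctr, hLR, p1]
    push_cast
    rw [show 32 * (E : ℝ) + (XX s w.1 : ℝ) - ((dd s κ w u).1 : ℝ) - (32 * (E : ℝ) + 1 / 2) =
      (XX s w.1 : ℝ) - ((dd s κ w u).1 : ℝ) - 1 / 2 by ring]
    have : |(XX s w.1 : ℝ) - ((dd s κ w u).1 : ℝ) - 1 / 2| ≤ E + 8 * ρ + 1 / 2 := by
      rw [abs_le]; constructor <;> linarith
    linarith
  · rw [hctr, hLR, p2]
    push_cast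
    rw [show 32 * (E : ℝ) + (XX s w.2 : ℝ) - ((dd s κ w u).2 : ℝ) - (32 * (E : ℝ) + 1 / 2) =
      (XX s w.2 : ℝ) - ((dd s κ w u).2 : ℝ) - 1 / 2 by ring]
    have : |(XX s w.2 : ℝ) - ((dd s κ w u).2 : ℝ) - 1 / 2| ≤ E + 8 * ρ + 1 / 2 := by
      rw [abs_le]; constructor <;> linarith
    linarith
  · intro z h1 h2
    have h := wf_uu (l0 := l0) (a := a) (n := n) (i := w.1) (j := w.2) hl ha (by omega) (z := z)
    rw [← hs] at h
    exact h h1 h2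
  · rw [hctr, hLR, z1]
    push_cast
    rw [show 32 * (E : ℝ) + (XX s w.1 : ℝ) - (32 * (E : ℝ) + 1 / 2) = (XX s w.1 : ℝ) - 1 / 2 by ring]
    have : |(XX s w.1 : ℝ) - 1 / 2| ≤ E := by rw [abs_le]; constructor <;> linarith
    linarith
  · rw [hctr, hLR, z2]
    push_cast
    rw [show 32 * (E : ℝ) + (XX s w.2 : ℝ) - (32 * (E : ℝ) + 1 / 2) = (XX s w.2 : ℝ) - 1 / 2 by ring]
    have : |(XX s w.2 : ℝ) - 1 / 2| ≤ E := by rw [abs_le]; constructor <;> linarith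
    linarith
  · refine (Complex.norm_le_abs_re_add_abs_im _).trans ?_
    have hi := H529.PP_bd (s := s) (n := n) (i := w.1) (by omega) (lt_of_lt_of_le hw.1 hpow)
    have hj := H529.PP_bd (s := s) (n := n) (i := w.2) (by omega) (lt_of_lt_of_le hw.2 hpow)
    rw [H529.PP_re, H529.PP_im, abs_of_nonneg (by positivity), abs_of_nonneg (by positivity)]
    linarith

end Vale.Agent.P159.UJ.H253
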